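import Vale.Agent.P098.Six.S1.Root

/-!
# P098, six dimensions: checked pieces of the tree
-/

namespace Vale.Agent.P098.Six.S1

/-- A piece of the tree. -/
noncomputable def tree20 : Tree LeafX :=
  .s3
    (.s0
    (.s3
    (.s2
    (.leaf (.box ⟨3439, -2, -4173, 6, -45, 2454, 1208027, 0, 0, 0, 0, 0, 0⟩ ⟨0, 0, 0, 0, 0, 0, 1033886, 0, 0, 0, 0, 0, 0⟩ ⟨0, 0, 0, 0, 0, 0, 1033886, 0, 0, 0, 0, 0, 0⟩ ⟨0, 0, 0, 0, 0, 0, 903625, 0, 0, 0, 0, 0, 0⟩ ⟨0, 0, 0, 0, 0, 0, 903625, 0, 0, 0, 0, 0, 0⟩ ⟨2637, -2, -3502, 6, -53, 1953, 802514, 0, 0, 0, 0, 0, 0⟩))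
    (.s3
    (.leaf (.box ⟨4430, -2, -4533, 6, -53, 3314, 1376276, 0, 0, 0, 0, 0, 0⟩ ⟨0, 0, 0, 0, 0, 0, 1208428, 0, 0, 0, 0, 0, 0⟩ ⟨0, 0, 0, 0, 0, 0, 1208428, 0, 0, 0, 0, 0, 0⟩ ⟨0, 0, 0, 0, 0, 0, 1077071, 0, 0, 0, 0, 0, 0⟩ ⟨0, 0, 0, 0, 0, 0, 1077071, 0, 0, 0, 0, 0, 0⟩ ⟨2696, -2, -2987, 6, -41, 1894, 971470, 0, 0, 0, 0, 0, 0⟩))
    (.leaf (.box ⟨4670, -2, -5358, 6, -70, 3723, 1169876, 0, 0, 0, 0, 0, 0⟩ ⟨0, 0, 0, 0, 0, 0, 1001254, 0, 0, 0, 0, 0, 0⟩ ⟨0, 0, 0, 0, 0, 0, 1001254, 0, 0, 0, 0, 0, 0⟩ ⟨0, 0, 0, 0, 0, 0, 875117, 0, 0, 0, 0, 0, 0⟩ ⟨0, 0, 0, 0, 0, 0, 875117, 0, 0, 0, 0, 0, 0⟩ ⟨2992, -2, -3466, 6, -68, 2401, 777205, 0, 0, 0, 0, 0, 0⟩))))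
    (.s2
    (.leaf (.box ⟨3336, -1, -5039, 6, -65, 2784, 928220, 0, 0, 0, 0, 0, 0⟩ ⟨0, 0, 0, 0, 0, 0, 769195, 0, 0, 0, 0, 0, 0⟩ ⟨0, 0, 0, 0, 0, 0, 769195, 0, 0, 0, 0, 0, 0⟩ ⟨0, 0, 0, 0, 0, 0, 656689, 0, 0, 0, 0, 0, 0⟩ ⟨0, 0, 0, 0, 0, 0, 656689, 0, 0, 0, 0, 0, 0⟩ ⟨1805, -1, -2759, 6, -58, 1523, 572894, 0, 0, 0, 0, 0, 0⟩))
    (.leaf (.box ⟨2790, -2, -3691, 6, -58, 2404, 898773, 0, 0, 0, 0, 0, 0⟩ ⟨0, 0, 0, 0, 0, 0, 744796, 0, 0, 0, 0, 0, 0⟩ ⟨0, 0, 0, 0, 0, 0, 744796, 0, 0, 0, 0, 0, 0⟩ ⟨0, 0, 0, 0, 0, 0, 635861, 0, 0, 0, 0, 0, 0⟩ ⟨0, 0, 0, 0, 0, 0, 635861, 0, 0, 0, 0, 0, 0⟩ ⟨2213, -2, -2849, 6, -65, 1659, 554725, 0, 0, 0, 0, 0, 0⟩))))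
    (.s1
    (.leaf (.box ⟨2171, -1, -1223, 6, -53, 2017, 907793, 0, 0, 0, 0, 0, 0⟩ ⟨0, 0, 0, 0, 0, 0, 752245, 0, 0, 0, 0, 0, 0⟩ ⟨0, 0, 0, 0, 0, 0, 752245, 0, 0, 0, 0, 0, 0⟩ ⟨0, 0, 0, 0, 0, 0, 642204, 0, 0, 0, 0, 0, 0⟩ ⟨0, 0, 0, 0, 0, 0, 642204, 0, 0, 0, 0, 0, 0⟩ ⟨2057, -1, -1168, 6, -82, 1914, 560249, 0, 0, 0, 0, 0, 0⟩))
    (.s3
    (.leaf (.box ⟨3543, -1, -3674, 6, -64, 3290, 1182087, 0, 0, 0, 0, 0, 0⟩ ⟨0, 0, 0, 0, 0, 0, 1011685, 0, 0, 0, 0, 0, 0⟩ ⟨0, 0, 0, 0, 0, 0, 1011685, 0, 0, 0, 0, 0, 0⟩ ⟨0, 0, 0, 0, 0, 0, 884221, 0, 0, 0, 0, 0, 0⟩ ⟨0, 0, 0, 0, 0, 0, 884221, 0, 0, 0, 0, 0, 0⟩ ⟨3188, -1, -3332, 6, -87, 2978, 785281, 0, 0, 0, 0, 0, 0⟩))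
    (.leaf (.box ⟨2673, -1, -3448, 6, -68, 2705, 908289, 0, 0, 0, 0, 0, 0⟩ ⟨0, 0, 0, 0, 0, 0, 752679, 0, 0, 0, 0, 0, 0⟩ ⟨0, 0, 0, 0, 0, 0, 752679, 0, 0, 0, 0, 0, 0⟩ ⟨0, 0, 0, 0, 0, 0, 642588, 0, 0, 0, 0, 0, 0⟩ ⟨0, 0, 0, 0, 0, 0, 642588, 0, 0, 0, 0, 0, 0⟩ ⟨2092, -1, -2741, 6, -87, 2142, 560593, 0, 0, 0, 0, 0, 0⟩)))))
    (.s0
    (.s3
    (.leaf (.box ⟨2335, -1, -3462, 6, -58, 1951, 729855, 0, 0, 0, 0, 0, 0⟩ ⟨0, 0, 0, 0, 0, 0, 593088, 0, 0, 0, 0, 0, 0⟩ ⟨0, 0, 0, 0, 0, 0, 593088, 0, 0, 0, 0, 0, 0⟩ ⟨0, 0, 0, 0, 0, 0, 499489, 0, 0, 0, 0, 0, 0⟩ ⟨0, 0, 0, 0, 0, 0, 499489, 0, 0, 0, 0, 0, 0⟩ ⟨1593, -1, -2385, 6, -67, 1339, 431406, 0, 0, 0, 0, 0, 0⟩))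
    (.leaf (.box ⟨2097, -1, -3547, 6, -67, 1901, 614453, 0, 0, 0, 0, 0, 0⟩ ⟨0, 0, 0, 0, 0, 0, 492790, 0, 0, 0, 0, 0, 0⟩ ⟨0, 0, 0, 0, 0, 0, 492790, 0, 0, 0, 0, 0, 0⟩ ⟨0, 0, 0, 0, 0, 0, 411342, 0, 0, 0, 0, 0, 0⟩ ⟨0, 0, 0, 0, 0, 0, 411342, 0, 0, 0, 0, 0, 0⟩ ⟨1231, -1, -2110, 6, -69, 1127, 352999, 0, 0, 0, 0, 0, 0⟩)))
    (.s3
    (.leaf (.box ⟨2254, -1, -2136, 6, -59, 1890, 737494, 0, 0, 0, 0, 0, 0⟩ ⟨0, 0, 0, 0, 0, 0, 599299, 0, 0, 0, 0, 0, 0⟩ ⟨0, 0, 0, 0, 0, 0, 599299, 0, 0, 0, 0, 0, 0⟩ ⟨0, 0, 0, 0, 0, 0, 504722, 0, 0, 0, 0, 0, 0⟩ ⟨0, 0, 0, 0, 0, 0, 504722, 0, 0, 0, 0, 0, 0⟩ ⟨2048, -2, -1974, 10, -92, 1734, 435927, 0, 0, 0, 0, 0, 0⟩))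
    (.leaf (.box ⟨1768, -1, -2048, 7, -59, 1608, 620897, 0, 0, 0, 0, 0, 0⟩ ⟨0, 0, 0, 0, 0, 0, 497958, 0, 0, 0, 0, 0, 0⟩ ⟨0, 0, 0, 0, 0, 0, 497958, 0, 0, 0, 0, 0, 0⟩ ⟨0, 0, 0, 0, 0, 0, 415656, 0, 0, 0, 0, 0, 0⟩ ⟨0, 0, 0, 0, 0, 0, 415656, 0, 0, 0, 0, 0, 0⟩ ⟨1729, -2, -2048, 9, -103, 1595, 356701, 0, 0, 0, 0, 0, 0⟩))))

/-- A piece of the tree. -/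
noncomputable def tree21 : Tree LeafX :=
  .s3
    (.s0
    (.s3
    (.s2
    (.leaf (.box ⟨4209, -2, -3684, 6, -64, 3325, 1133345, 0, 0, 0, 0, 0, 0⟩ ⟨0, 0, 0, 0, 0, 0, 969972, 0, 0, 0, 0, 0, 0⟩ ⟨0, 0, 0, 0, 0, 0, 969972, 0, 0, 0, 0, 0, 0⟩ ⟨0, 0, 0, 0, 0, 0, 847766, 0, 0, 0, 0, 0, 0⟩ ⟨0, 0, 0, 0, 0, 0, 847766, 0, 0, 0, 0, 0, 0⟩ ⟨2669, -2, -2360, 6, -61, 2115, 752907, 0, 0, 0, 0, 0, 0⟩))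
    (.leaf (.box ⟨3981, -2, -2608, 6, -61, 3149, 1099045, 0, 0, 0, 0, 0, 0⟩ ⟨0, 0, 0, 0, 0, 0, 940619, 0, 0, 0, 0, 0, 0⟩ ⟨0, 0, 0, 0, 0, 0, 940619, 0, 0, 0, 0, 0, 0⟩ ⟨0, 0, 0, 0, 0, 0, 822112, 0, 0, 0, 0, 0, 0⟩ ⟨0, 0, 0, 0, 0, 0, 822112, 0, 0, 0, 0, 0, 0⟩ ⟨2520, -2, -1679, 6, -58, 1993, 730124, 0, 0, 0, 0, 0, 0⟩)))
    (.leaf (.box ⟨2705, -2, -2437, 6, -54, 2125, 844560, 0, 0, 0, 0, 0, 0⟩ ⟨0, 0, 0, 0, 0, 0, 699878, 0, 0, 0, 0, 0, 0⟩ ⟨0, 0, 0, 0, 0, 0, 699878, 0, 0, 0, 0, 0, 0⟩ ⟨0, 0, 0, 0, 0, 0, 597517, 0, 0, 0, 0, 0, 0⟩ ⟨0, 0, 0, 0, 0, 0, 597517, 0, 0, 0, 0, 0, 0⟩ ⟨2048, -2, -1878, 7, -66, 1609, 521277, 0, 0, 0, 0, 0, 0⟩)))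
    (.s3
    (.s2
    (.leaf (.box ⟨3520, -2, -1082, 6, -57, 2794, 1146051, 0, 0, 0, 0, 0, 0⟩ ⟨0, 0, 0, 0, 0, 0, 980841, 0, 0, 0, 0, 0, 0⟩ ⟨0, 0, 0, 0, 0, 0, 980841, 0, 0, 0, 0, 0, 0⟩ ⟨0, 0, 0, 0, 0, 0, 857261, 0, 0, 0, 0, 0, 0⟩ ⟨0, 0, 0, 0, 0, 0, 857261, 0, 0, 0, 0, 0, 0⟩ ⟨2150, -2, -673, 6, -52, 1705, 761337, 0, 0, 0, 0, 0, 0⟩))
    (.leaf (.box ⟨3091, -2, -311, 6, -51, 2473, 1111808, 0, 0, 0, 0, 0, 0⟩ ⟨0, 0, 0, 0, 0, 0, 951536, 0, 0, 0, 0, 0, 0⟩ ⟨0, 0, 0, 0, 0, 0, 951536, 0, 0, 0, 0, 0, 0⟩ ⟨0, 0, 0, 0, 0, 0, 831650, 0, 0, 0, 0, 0, 0⟩ ⟨0, 0, 0, 0, 0, 0, 831650, 0, 0, 0, 0, 0, 0⟩ ⟨2246, -2, -249, 6, -56, 1807, 738592, 0, 0, 0, 0, 0, 0⟩)))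
    (.leaf (.box ⟨2144, -2, -805, 6, -45, 1685, 854282, 0, 0, 0, 0, 0, 0⟩ ⟨0, 0, 0, 0, 0, 0, 707923, 0, 0, 0, 0, 0, 0⟩ ⟨0, 0, 0, 0, 0, 0, 707923, 0, 0, 0, 0, 0, 0⟩ ⟨0, 0, 0, 0, 0, 0, 604378, 0, 0, 0, 0, 0, 0⟩ ⟨0, 0, 0, 0, 0, 0, 604378, 0, 0, 0, 0, 0, 0⟩ ⟨2048, -2, -803, 9, -70, 1618, 527258, 0, 0, 0, 0, 0, 0⟩))))
    (.s3
    (.s2
    (.leaf (.box ⟨2048, -2, -1614, 7, -48, 1534, 707231, 0, 0, 0, 0, 0, 0⟩ ⟨0, 0, 0, 0, 0, 0, 574709, 0, 0, 0, 0, 0, 0⟩ ⟨0, 0, 0, 0, 0, 0, 574709, 0, 0, 0, 0, 0, 0⟩ ⟨0, 0, 0, 0, 0, 0, 484013, 0, 0, 0, 0, 0, 0⟩ ⟨0, 0, 0, 0, 0, 0, 484013, 0, 0, 0, 0, 0, 0⟩ ⟨2048, -2, -1775, 10, -68, 1275, 418041, 0, 0, 0, 0, 0, 0⟩))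
    (.leaf (.box ⟨2048, -2, -1289, 8, -48, 1537, 685873, 0, 0, 0, 0, 0, 0⟩ ⟨0, 0, 0, 0, 0, 0, 557353, 0, 0, 0, 0, 0, 0⟩ ⟨0, 0, 0, 0, 0, 0, 557353, 0, 0, 0, 0, 0, 0⟩ ⟨0, 0, 0, 0, 0, 0, 469397, 0, 0, 0, 0, 0, 0⟩ ⟨0, 0, 0, 0, 0, 0, 469397, 0, 0, 0, 0, 0, 0⟩ ⟨2048, -4, -1347, 13, -82, 1544, 405417, 0, 0, 0, 0, 0, 0⟩)))
    (.leaf (.box ⟨2048, -2, -1749, 10, -59, 1579, 577442, 0, 0, 0, 0, 0, 0⟩ ⟨0, 0, 0, 0, 0, 0, 463104, 0, 0, 0, 0, 0, 0⟩ ⟨0, 0, 0, 0, 0, 0, 463104, 0, 0, 0, 0, 0, 0⟩ ⟨0, 0, 0, 0, 0, 0, 386562, 0, 0, 0, 0, 0, 0⟩ ⟨0, 0, 0, 0, 0, 0, 386562, 0, 0, 0, 0, 0, 0⟩ ⟨2048, -4, -1807, 16, -104, 1582, 331732, 0, 0, 0, 0, 0, 0⟩)))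

/-- A piece of the tree. -/
noncomputable def tree22 : Tree LeafX :=
  .s1
    (.leaf (.box ⟨2048, -2, 1022, 12, -58, 1211, 594376, 0, 0, 0, 0, 0, 0⟩ ⟨0, 0, 0, 0, 0, 0, 476636, 0, 0, 0, 0, 0, 0⟩ ⟨0, 0, 0, 0, 0, 0, 476636, 0, 0, 0, 0, 0, 0⟩ ⟨0, 0, 0, 0, 0, 0, 397830, 0, 0, 0, 0, 0, 0⟩ ⟨0, 0, 0, 0, 0, 0, 397830, 0, 0, 0, 0, 0, 0⟩ ⟨2048, -3, 1014, 21, -101, 1210, 341385, 0, 0, 0, 0, 0, 0⟩))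
    (.s0
    (.s3
    (.s2
    (.leaf (.box ⟨2413, -1, -576, 6, -53, 1925, 918063, 0, 0, 0, 0, 0, 0⟩ ⟨0, 0, 0, 0, 0, 0, 760750, 0, 0, 0, 0, 0, 0⟩ ⟨0, 0, 0, 0, 0, 0, 760750, 0, 0, 0, 0, 0, 0⟩ ⟨0, 0, 0, 0, 0, 0, 649463, 0, 0, 0, 0, 0, 0⟩ ⟨0, 0, 0, 0, 0, 0, 649463, 0, 0, 0, 0, 0, 0⟩ ⟨2061, -1, -1034, 6, -56, 1248, 566579, 0, 0, 0, 0, 0, 0⟩))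
    (.s2
    (.leaf (.box ⟨2048, -1, 111, 6, -50, 1775, 890976, 0, 0, 0, 0, 0, 0⟩ ⟨0, 0, 0, 0, 0, 0, 738306, 0, 0, 0, 0, 0, 0⟩ ⟨0, 0, 0, 0, 0, 0, 738306, 0, 0, 0, 0, 0, 0⟩ ⟨0, 0, 0, 0, 0, 0, 630303, 0, 0, 0, 0, 0, 0⟩ ⟨0, 0, 0, 0, 0, 0, 630303, 0, 0, 0, 0, 0, 0⟩ ⟨2048, -2, 95, 10, -80, 1774, 549865, 0, 0, 0, 0, 0, 0⟩))
    (.leaf (.box ⟨2048, -1, 514, 6, -50, 1776, 865743, 0, 0, 0, 0, 0, 0⟩ ⟨0, 0, 0, 0, 0, 0, 717398, 0, 0, 0, 0, 0, 0⟩ ⟨0, 0, 0, 0, 0, 0, 717398, 0, 0, 0, 0, 0, 0⟩ ⟨0, 0, 0, 0, 0, 0, 612454, 0, 0, 0, 0, 0, 0⟩ ⟨0, 0, 0, 0, 0, 0, 612454, 0, 0, 0, 0, 0, 0⟩ ⟨2048, -2, 485, 10, -81, 1762, 534295, 0, 0, 0, 0, 0, 0⟩))))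
    (.leaf (.box ⟨2048, -1, -682, 8, -63, 1524, 591897, 0, 0, 0, 0, 0, 0⟩ ⟨0, 0, 0, 0, 0, 0, 474684, 0, 0, 0, 0, 0, 0⟩ ⟨0, 0, 0, 0, 0, 0, 474684, 0, 0, 0, 0, 0, 0⟩ ⟨0, 0, 0, 0, 0, 0, 396221, 0, 0, 0, 0, 0, 0⟩ ⟨0, 0, 0, 0, 0, 0, 396221, 0, 0, 0, 0, 0, 0⟩ ⟨2048, -2, -1195, 10, -78, 1077, 340017, 0, 0, 0, 0, 0, 0⟩)))
    (.leaf (.box ⟨2048, -1, 233, 9, -65, 1465, 601496, 0, 0, 0, 0, 0, 0⟩ ⟨0, 0, 0, 0, 0, 0, 482343, 0, 0, 0, 0, 0, 0⟩ ⟨0, 0, 0, 0, 0, 0, 482343, 0, 0, 0, 0, 0, 0⟩ ⟨0, 0, 0, 0, 0, 0, 402592, 0, 0, 0, 0, 0, 0⟩ ⟨0, 0, 0, 0, 0, 0, 402592, 0, 0, 0, 0, 0, 0⟩ ⟨2048, -2, 137, 15, -114, 1466, 345471, 0, 0, 0, 0, 0, 0⟩)))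

/-- A piece of the tree. -/
noncomputable def tree23 : Tree LeafX :=
  .s0
    (.s1
    (.s0
    (.s1
    (.s2
    (.leaf (.box ⟨5732, -1, -1236, 6, -27, 866, 453723, 0, 0, 0, 0, 0, 0⟩ ⟨0, 0, 0, 0, 0, 0, 363793, 0, 0, 0, 0, 0, 0⟩ ⟨0, 0, 0, 0, 0, 0, 363793, 0, 0, 0, 0, 0, 0⟩ ⟨0, 0, 0, 0, 0, 0, 303614, 0, 0, 0, 0, 0, 0⟩ ⟨0, 0, 0, 0, 0, 0, 303614, 0, 0, 0, 0, 0, 0⟩ ⟨3169, -1, -784, 6, -26, 481, 260519, 0, 0, 0, 0, 0, 0⟩))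
    (.leaf (.box ⟨4878, -2, -1489, 6, -17, 566, 415630, 0, 0, 0, 0, 0, 0⟩ ⟨0, 0, 0, 0, 0, 0, 333249, 0, 0, 0, 0, 0, 0⟩ ⟨0, 0, 0, 0, 0, 0, 333249, 0, 0, 0, 0, 0, 0⟩ ⟨0, 0, 0, 0, 0, 0, 278123, 0, 0, 0, 0, 0, 0⟩ ⟨0, 0, 0, 0, 0, 0, 278123, 0, 0, 0, 0, 0, 0⟩ ⟨2684, -2, -911, 6, -16, 312, 238646, 0, 0, 0, 0, 0, 0⟩)))
    (.leaf (.box ⟨3482, -2, 1366, 6, -17, 460, 426008, 0, 0, 0, 0, 0, 0⟩ ⟨0, 0, 0, 0, 0, 0, 341618, 0, 0, 0, 0, 0, 0⟩ ⟨0, 0, 0, 0, 0, 0, 341618, 0, 0, 0, 0, 0, 0⟩ ⟨0, 0, 0, 0, 0, 0, 285134, 0, 0, 0, 0, 0, 0⟩ ⟨0, 0, 0, 0, 0, 0, 285134, 0, 0, 0, 0, 0, 0⟩ ⟨2072, -2, 790, 6, -18, 275, 244678, 0, 0, 0, 0, 0, 0⟩)))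
    (.leaf (.box ⟨2519, -4, -847, 6, -10, 310, 420981, 0, 0, 0, 0, 0, 0⟩ ⟨0, 0, 0, 0, 0, 0, 337559, 0, 0, 0, 0, 0, 0⟩ ⟨0, 0, 0, 0, 0, 0, 337559, 0, 0, 0, 0, 0, 0⟩ ⟨0, 0, 0, 0, 0, 0, 281731, 0, 0, 0, 0, 0, 0⟩ ⟨0, 0, 0, 0, 0, 0, 281731, 0, 0, 0, 0, 0, 0⟩ ⟨2048, -6, -807, 9, -14, 252, 241748, 0, 0, 0, 0, 0, 0⟩)))
    (.s2
    (.leaf (.box ⟨4806, 1, 3061, 6, -17, 471, 474773, 0, 0, 0, 0, 0, 0⟩ ⟨0, 0, 0, 0, 0, 0, 380560, 0, 0, 0, 0, 0, 0⟩ ⟨0, 0, 0, 0, 0, 0, 380560, 0, 0, 0, 0, 0, 0⟩ ⟨0, 0, 0, 0, 0, 0, 317547, 0, 0, 0, 0, 0, 0⟩ ⟨0, 0, 0, 0, 0, 0, 317547, 0, 0, 0, 0, 0, 0⟩ ⟨2731, 1, 1722, 6, -17, 267, 272436, 0, 0, 0, 0, 0, 0⟩))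
    (.leaf (.box ⟨3758, 1, 1857, 6, -10, 294, 432274, 0, 0, 0, 0, 0, 0⟩ ⟨0, 0, 0, 0, 0, 0, 346491, 0, 0, 0, 0, 0, 0⟩ ⟨0, 0, 0, 0, 0, 0, 346491, 0, 0, 0, 0, 0, 0⟩ ⟨0, 0, 0, 0, 0, 0, 289117, 0, 0, 0, 0, 0, 0⟩ ⟨0, 0, 0, 0, 0, 0, 289117, 0, 0, 0, 0, 0, 0⟩ ⟨2271, 1, 1106, 6, -11, 177, 248044, 0, 0, 0, 0, 0, 0⟩))))
    (.s1
    (.s1
    (.s2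
    (.leaf (.box ⟨2048, -2, 574, 7, -12, 310, 464779, 0, 0, 0, 0, 0, 0⟩ ⟨0, 0, 0, 0, 0, 0, 372683, 0, 0, 0, 0, 0, 0⟩ ⟨0, 0, 0, 0, 0, 0, 372683, 0, 0, 0, 0, 0, 0⟩ ⟨0, 0, 0, 0, 0, 0, 311049, 0, 0, 0, 0, 0, 0⟩ ⟨0, 0, 0, 0, 0, 0, 311049, 0, 0, 0, 0, 0, 0⟩ ⟨2048, -5, 512, 13, -20, 304, 266907, 0, 0, 0, 0, 0, 0⟩))
    (.leaf (.box ⟨2101, -2, 352, 6, -8, 239, 430138, 0, 0, 0, 0, 0, 0⟩ ⟨0, 0, 0, 0, 0, 0, 344906, 0, 0, 0, 0, 0, 0⟩ ⟨0, 0, 0, 0, 0, 0, 344906, 0, 0, 0, 0, 0, 0⟩ ⟨0, 0, 0, 0, 0, 0, 287865, 0, 0, 0, 0, 0, 0⟩ ⟨0, 0, 0, 0, 0, 0, 287865, 0, 0, 0, 0, 0, 0⟩ ⟨2048, -4, 299, 11, -14, 235, 247013, 0, 0, 0, 0, 0, 0⟩)))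
    (.leaf (.box ⟨2048, -8, -629, 9, -11, 331, 442080, 0, 0, 0, 0, 0, 0⟩ ⟨0, 0, 0, 0, 0, 0, 354515, 0, 0, 0, 0, 0, 0⟩ ⟨0, 0, 0, 0, 0, 0, 354515, 0, 0, 0, 0, 0, 0⟩ ⟨0, 0, 0, 0, 0, 0, 295903, 0, 0, 0, 0, 0, 0⟩ ⟨0, 0, 0, 0, 0, 0, 295903, 0, 0, 0, 0, 0, 0⟩ ⟨2048, -13, -667, 14, -19, 327, 253922, 0, 0, 0, 0, 0, 0⟩)))
    (.s2
    (.leaf (.box ⟨2679, -1, 473, 6, -21, 613, 490350, 0, 0, 0, 0, 0, 0⟩ ⟨0, 0, 0, 0, 0, 0, 393217, 0, 0, 0, 0, 0, 0⟩ ⟨0, 0, 0, 0, 0, 0, 393217, 0, 0, 0, 0, 0, 0⟩ ⟨0, 0, 0, 0, 0, 0, 328203, 0, 0, 0, 0, 0, 0⟩ ⟨0, 0, 0, 0, 0, 0, 328203, 0, 0, 0, 0, 0, 0⟩ ⟨2048, -1, 331, 8, -27, 464, 281637, 0, 0, 0, 0, 0, 0⟩))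
    (.leaf (.box ⟨2230, -2, -407, 6, -10, 341, 452071, 0, 0, 0, 0, 0, 0⟩ ⟨0, 0, 0, 0, 0, 0, 362526, 0, 0, 0, 0, 0, 0⟩ ⟨0, 0, 0, 0, 0, 0, 362526, 0, 0, 0, 0, 0, 0⟩ ⟨0, 0, 0, 0, 0, 0, 302590, 0, 0, 0, 0, 0, 0⟩ ⟨0, 0, 0, 0, 0, 0, 302590, 0, 0, 0, 0, 0, 0⟩ ⟨2048, -4, -404, 10, -16, 309, 259660, 0, 0, 0, 0, 0, 0⟩))))

/-- A piece of the tree. -/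
noncomputable def tree24 : Tree LeafX :=
  .s1
    (.s1
    (.leaf (.box ⟨1684, 2, 2048, 17, -22, 374, 467149, 0, 0, 0, 0, 0, 0⟩ ⟨0, 0, 0, 0, 0, 0, 374539, 0, 0, 0, 0, 0, 0⟩ ⟨0, 0, 0, 0, 0, 0, 374539, 0, 0, 0, 0, 0, 0⟩ ⟨0, 0, 0, 0, 0, 0, 312573, 0, 0, 0, 0, 0, 0⟩ ⟨0, 0, 0, 0, 0, 0, 312573, 0, 0, 0, 0, 0, 0⟩ ⟨1760, 3, 2048, 31, -38, 376, 268200, 0, 0, 0, 0, 0, 0⟩))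
    (.s2
    (.leaf (.box ⟨2048, -2, 1449, 18, -22, 389, 503310, 0, 0, 0, 0, 0, 0⟩ ⟨0, 0, 0, 0, 0, 0, 403614, 0, 0, 0, 0, 0, 0⟩ ⟨0, 0, 0, 0, 0, 0, 403614, 0, 0, 0, 0, 0, 0⟩ ⟨0, 0, 0, 0, 0, 0, 336883, 0, 0, 0, 0, 0, 0⟩ ⟨0, 0, 0, 0, 0, 0, 336883, 0, 0, 0, 0, 0, 0⟩ ⟨2048, -3, 1395, 29, -37, 376, 289087, 0, 0, 0, 0, 0, 0⟩))
    (.leaf (.box ⟨2048, -2, 1201, 15, -17, 309, 471788, 0, 0, 0, 0, 0, 0⟩ ⟨0, 0, 0, 0, 0, 0, 378339, 0, 0, 0, 0, 0, 0⟩ ⟨0, 0, 0, 0, 0, 0, 378339, 0, 0, 0, 0, 0, 0⟩ ⟨0, 0, 0, 0, 0, 0, 315789, 0, 0, 0, 0, 0, 0⟩ ⟨0, 0, 0, 0, 0, 0, 315789, 0, 0, 0, 0, 0, 0⟩ ⟨2048, -4, 1156, 26, -28, 299, 270987, 0, 0, 0, 0, 0, 0⟩))))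
    (.s0
    (.s2
    (.s1
    (.leaf (.box ⟨2048, -7, 266, 13, -25, 628, 509798, 0, 0, 0, 0, 0, 0⟩ ⟨0, 0, 0, 0, 0, 0, 408820, 0, 0, 0, 0, 0, 0⟩ ⟨0, 0, 0, 0, 0, 0, 408820, 0, 0, 0, 0, 0, 0⟩ ⟨0, 0, 0, 0, 0, 0, 341231, 0, 0, 0, 0, 0, 0⟩ ⟨0, 0, 0, 0, 0, 0, 341231, 0, 0, 0, 0, 0, 0⟩ ⟨2048, -12, 231, 21, -43, 620, 292819, 0, 0, 0, 0, 0, 0⟩))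
    (.leaf (.box ⟨2048, -3, -1129, 8, -25, 738, 516373, 0, 0, 0, 0, 0, 0⟩ ⟨0, 0, 0, 0, 0, 0, 414083, 0, 0, 0, 0, 0, 0⟩ ⟨0, 0, 0, 0, 0, 0, 414083, 0, 0, 0, 0, 0, 0⟩ ⟨0, 0, 0, 0, 0, 0, 345618, 0, 0, 0, 0, 0, 0⟩ ⟨0, 0, 0, 0, 0, 0, 345618, 0, 0, 0, 0, 0, 0⟩ ⟨2048, -7, -703, 18, -56, 948, 296581, 0, 0, 0, 0, 0, 0⟩)))
    (.leaf (.box ⟨2048, -6, -425, 12, -15, 441, 476953, 0, 0, 0, 0, 0, 0⟩ ⟨0, 0, 0, 0, 0, 0, 382486, 0, 0, 0, 0, 0, 0⟩ ⟨0, 0, 0, 0, 0, 0, 382486, 0, 0, 0, 0, 0, 0⟩ ⟨0, 0, 0, 0, 0, 0, 319253, 0, 0, 0, 0, 0, 0⟩ ⟨0, 0, 0, 0, 0, 0, 319253, 0, 0, 0, 0, 0, 0⟩ ⟨2048, -11, -458, 20, -25, 433, 273961, 0, 0, 0, 0, 0, 0⟩)))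
    (.s1
    (.leaf (.box ⟨2048, -3, 1650, 18, -35, 667, 517171, 0, 0, 0, 0, 0, 0⟩ ⟨0, 0, 0, 0, 0, 0, 414733, 0, 0, 0, 0, 0, 0⟩ ⟨0, 0, 0, 0, 0, 0, 414733, 0, 0, 0, 0, 0, 0⟩ ⟨0, 0, 0, 0, 0, 0, 346167, 0, 0, 0, 0, 0, 0⟩ ⟨0, 0, 0, 0, 0, 0, 346167, 0, 0, 0, 0, 0, 0⟩ ⟨2048, -7, 1507, 35, -69, 746, 297055, 0, 0, 0, 0, 0, 0⟩))
    (.s3
    (.s0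
    (.s2
    (.leaf (.box ⟨2048, -2, 321, 7, -24, 894, 795061, 0, 0, 0, 0, 0, 0⟩ ⟨0, 0, 0, 0, 0, 0, 658826, 0, 0, 0, 0, 0, 0⟩ ⟨0, 0, 0, 0, 0, 0, 658826, 0, 0, 0, 0, 0, 0⟩ ⟨0, 0, 0, 0, 0, 0, 562449, 0, 0, 0, 0, 0, 0⟩ ⟨0, 0, 0, 0, 0, 0, 562449, 0, 0, 0, 0, 0, 0⟩ ⟨2048, -4, 164, 12, -42, 956, 490670, 0, 0, 0, 0, 0, 0⟩))
    (.leaf (.box ⟨2048, -3, 134, 8, -19, 756, 752271, 0, 0, 0, 0, 0, 0⟩ ⟨0, 0, 0, 0, 0, 0, 623372, 0, 0, 0, 0, 0, 0⟩ ⟨0, 0, 0, 0, 0, 0, 623372, 0, 0, 0, 0, 0, 0⟩ ⟨0, 0, 0, 0, 0, 0, 532184, 0, 0, 0, 0, 0, 0⟩ ⟨0, 0, 0, 0, 0, 0, 532184, 0, 0, 0, 0, 0, 0⟩ ⟨2048, -4, 99, 11, -30, 735, 464269, 0, 0, 0, 0, 0, 0⟩)))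
    (.leaf (.box ⟨2048, -3, 819, 13, -36, 1153, 783355, 0, 0, 0, 0, 0, 0⟩ ⟨0, 0, 0, 0, 0, 0, 649134, 0, 0, 0, 0, 0, 0⟩ ⟨0, 0, 0, 0, 0, 0, 649134, 0, 0, 0, 0, 0, 0⟩ ⟨0, 0, 0, 0, 0, 0, 554179, 0, 0, 0, 0, 0, 0⟩ ⟨0, 0, 0, 0, 0, 0, 554179, 0, 0, 0, 0, 0, 0⟩ ⟨2048, -4, 452, 18, -51, 1001, 483459, 0, 0, 0, 0, 0, 0⟩)))
    (.leaf (.box ⟨2048, -4, -354, 18, -35, 823, 514368, 0, 0, 0, 0, 0, 0⟩ ⟨0, 0, 0, 0, 0, 0, 412514, 0, 0, 0, 0, 0, 0⟩ ⟨0, 0, 0, 0, 0, 0, 412514, 0, 0, 0, 0, 0, 0⟩ ⟨0, 0, 0, 0, 0, 0, 344330, 0, 0, 0, 0, 0, 0⟩ ⟨0, 0, 0, 0, 0, 0, 344330, 0, 0, 0, 0, 0, 0⟩ ⟨2048, -8, -394, 32, -60, 805, 295489, 0, 0, 0, 0, 0, 0⟩)))))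

/-- A piece of the tree. -/
noncomputable def tree25 : Tree LeafX :=
  .s0
    (.s1
    (.leaf (.box ⟨4434, 5, 2504, 6, -12, 368, 496854, 0, 0, 0, 0, 0, 0⟩ ⟨0, 0, 0, 0, 0, 0, 398199, 0, 0, 0, 0, 0, 0⟩ ⟨0, 0, 0, 0, 0, 0, 398199, 0, 0, 0, 0, 0, 0⟩ ⟨0, 0, 0, 0, 0, 0, 332231, 0, 0, 0, 0, 0, 0⟩ ⟨0, 0, 0, 0, 0, 0, 332231, 0, 0, 0, 0, 0, 0⟩ ⟨2616, 5, 1494, 6, -13, 220, 285013, 0, 0, 0, 0, 0, 0⟩))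
    (.leaf (.box ⟨2804, 4, 1251, 6, -6, 171, 461674, 0, 0, 0, 0, 0, 0⟩ ⟨0, 0, 0, 0, 0, 0, 370202, 0, 0, 0, 0, 0, 0⟩ ⟨0, 0, 0, 0, 0, 0, 370202, 0, 0, 0, 0, 0, 0⟩ ⟨0, 0, 0, 0, 0, 0, 308983, 0, 0, 0, 0, 0, 0⟩ ⟨0, 0, 0, 0, 0, 0, 308983, 0, 0, 0, 0, 0, 0⟩ ⟨2048, 5, 885, 8, -8, 121, 265137, 0, 0, 0, 0, 0, 0⟩)))
    (.leaf (.box ⟨2048, 6, 1408, 9, -16, 467, 520683, 0, 0, 0, 0, 0, 0⟩ ⟨0, 0, 0, 0, 0, 0, 417451, 0, 0, 0, 0, 0, 0⟩ ⟨0, 0, 0, 0, 0, 0, 417451, 0, 0, 0, 0, 0, 0⟩ ⟨0, 0, 0, 0, 0, 0, 348381, 0, 0, 0, 0, 0, 0⟩ ⟨0, 0, 0, 0, 0, 0, 348381, 0, 0, 0, 0, 0, 0⟩ ⟨2048, 10, 1398, 14, -27, 466, 298921, 0, 0, 0, 0, 0, 0⟩))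

/-- A piece of the tree. -/
noncomputable def tree26 : Tree LeafX :=
  .s1
    (.s1
    (.s0
    (.leaf (.box ⟨3921, 3, -1561, 6, -43, 1282, 561026, 0, 0, 0, 0, 0, 0⟩ ⟨0, 0, 0, 0, 0, 0, 449836, 0, 0, 0, 0, 0, 0⟩ ⟨0, 0, 0, 0, 0, 0, 449836, 0, 0, 0, 0, 0, 0⟩ ⟨0, 0, 0, 0, 0, 0, 375430, 0, 0, 0, 0, 0, 0⟩ ⟨0, 0, 0, 0, 0, 0, 375430, 0, 0, 0, 0, 0, 0⟩ ⟨2262, 3, -913, 6, -43, 746, 322144, 0, 0, 0, 0, 0, 0⟩))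
    (.s3
    (.leaf (.box ⟨3843, 1, -5841, 6, -44, 1882, 831308, 0, 0, 0, 0, 0, 0⟩ ⟨0, 0, 0, 0, 0, 0, 688849, 0, 0, 0, 0, 0, 0⟩ ⟨0, 0, 0, 0, 0, 0, 688849, 0, 0, 0, 0, 0, 0⟩ ⟨0, 0, 0, 0, 0, 0, 588073, 0, 0, 0, 0, 0, 0⟩ ⟨0, 0, 0, 0, 0, 0, 588073, 0, 0, 0, 0, 0, 0⟩ ⟨2774, 1, -3059, 6, -43, 1137, 513019, 0, 0, 0, 0, 0, 0⟩))
    (.leaf (.box ⟨2006, 1, -3745, 6, -46, 1367, 567984, 0, 0, 0, 0, 0, 0⟩ ⟨0, 0, 0, 0, 0, 0, 455464, 0, 0, 0, 0, 0, 0⟩ ⟨0, 0, 0, 0, 0, 0, 455464, 0, 0, 0, 0, 0, 0⟩ ⟨0, 0, 0, 0, 0, 0, 380154, 0, 0, 0, 0, 0, 0⟩ ⟨0, 0, 0, 0, 0, 0, 380154, 0, 0, 0, 0, 0, 0⟩ ⟨1595, 1, -2959, 6, -64, 1081, 326214, 0, 0, 0, 0, 0, 0⟩))))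
    (.leaf (.box ⟨3249, 5, -581, 6, -24, 728, 564400, 0, 0, 0, 0, 0, 0⟩ ⟨0, 0, 0, 0, 0, 0, 452445, 0, 0, 0, 0, 0, 0⟩ ⟨0, 0, 0, 0, 0, 0, 452445, 0, 0, 0, 0, 0, 0⟩ ⟨0, 0, 0, 0, 0, 0, 377552, 0, 0, 0, 0, 0, 0⟩ ⟨0, 0, 0, 0, 0, 0, 377552, 0, 0, 0, 0, 0, 0⟩ ⟨2048, 5, -363, 7, -26, 445, 323932, 0, 0, 0, 0, 0, 0⟩)))
    (.leaf (.box ⟨2162, 5, 422, 6, -13, 391, 554637, 0, 0, 0, 0, 0, 0⟩ ⟨0, 0, 0, 0, 0, 0, 444684, 0, 0, 0, 0, 0, 0⟩ ⟨0, 0, 0, 0, 0, 0, 444684, 0, 0, 0, 0, 0, 0⟩ ⟨0, 0, 0, 0, 0, 0, 371113, 0, 0, 0, 0, 0, 0⟩ ⟨0, 0, 0, 0, 0, 0, 371113, 0, 0, 0, 0, 0, 0⟩ ⟨2048, 7, 402, 9, -22, 387, 318430, 0, 0, 0, 0, 0, 0⟩))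

/-- A piece of the tree. -/
noncomputable def tree27 : Tree LeafX :=
  .s3
    (.s2
    (.s0
    (.s3
    (.s1
    (.s2
    (.leaf (.box ⟨3175, -1, -8105, 6, -51, 2958, 1213338, 0, 0, 0, 0, 0, 0⟩ ⟨0, 0, 0, 0, 0, 0, 1038418, 0, 0, 0, 0, 0, 0⟩ ⟨0, 0, 0, 0, 0, 0, 1038418, 0, 0, 0, 0, 0, 0⟩ ⟨0, 0, 0, 0, 0, 0, 907578, 0, 0, 0, 0, 0, 0⟩ ⟨0, 0, 0, 0, 0, 0, 907578, 0, 0, 0, 0, 0, 0⟩ ⟨3899, -1, -10010, 6, -95, 3659, 806019, 0, 0, 0, 0, 0, 0⟩))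
    (.leaf (.box ⟨6449, -1, -16402, 6, -121, 6747, 1173224, 0, 0, 0, 0, 0, 0⟩ ⟨0, 0, 0, 0, 0, 0, 1004089, 0, 0, 0, 0, 0, 0⟩ ⟨0, 0, 0, 0, 0, 0, 1004089, 0, 0, 0, 0, 0, 0⟩ ⟨0, 0, 0, 0, 0, 0, 877576, 0, 0, 0, 0, 0, 0⟩ ⟨0, 0, 0, 0, 0, 0, 877576, 0, 0, 0, 0, 0, 0⟩ ⟨2382, -1, -6116, 6, -68, 2516, 779375, 0, 0, 0, 0, 0, 0⟩)))
    (.leaf (.box ⟨8858, 0, -23854, 6, -129, 7381, 1175088, 0, 0, 0, 0, 0, 0⟩ ⟨0, 0, 0, 0, 0, 0, 1005678, 0, 0, 0, 0, 0, 0⟩ ⟨0, 0, 0, 0, 0, 0, 1005678, 0, 0, 0, 0, 0, 0⟩ ⟨0, 0, 0, 0, 0, 0, 878960, 0, 0, 0, 0, 0, 0⟩ ⟨0, 0, 0, 0, 0, 0, 878960, 0, 0, 0, 0, 0, 0⟩ ⟨3047, 0, -8199, 6, -67, 2542, 780602, 0, 0, 0, 0, 0, 0⟩)))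
    (.leaf (.box ⟨5204, -1, -12233, 6, -99, 4308, 901339, 0, 0, 0, 0, 0, 0⟩ ⟨0, 0, 0, 0, 0, 0, 746899, 0, 0, 0, 0, 0, 0⟩ ⟨0, 0, 0, 0, 0, 0, 746899, 0, 0, 0, 0, 0, 0⟩ ⟨0, 0, 0, 0, 0, 0, 637641, 0, 0, 0, 0, 0, 0⟩ ⟨0, 0, 0, 0, 0, 0, 637641, 0, 0, 0, 0, 0, 0⟩ ⟨2295, -1, -5413, 6, -71, 1910, 556269, 0, 0, 0, 0, 0, 0⟩)))
    (.s3
    (.s1
    (.leaf (.box ⟨3359, -1, -5348, 6, -57, 3043, 1182609, 0, 0, 0, 0, 0, 0⟩ ⟨0, 0, 0, 0, 0, 0, 1012127, 0, 0, 0, 0, 0, 0⟩ ⟨0, 0, 0, 0, 0, 0, 1012127, 0, 0, 0, 0, 0, 0⟩ ⟨0, 0, 0, 0, 0, 0, 884604, 0, 0, 0, 0, 0, 0⟩ ⟨0, 0, 0, 0, 0, 0, 884604, 0, 0, 0, 0, 0, 0⟩ ⟨2764, -1, -4432, 6, -71, 2520, 785619, 0, 0, 0, 0, 0, 0⟩))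
    (.s2
    (.leaf (.box ⟨3832, -1, -9271, 6, -64, 3620, 1223063, 0, 0, 0, 0, 0, 0⟩ ⟨0, 0, 0, 0, 0, 0, 1046740, 0, 0, 0, 0, 0, 0⟩ ⟨0, 0, 0, 0, 0, 0, 1046740, 0, 0, 0, 0, 0, 0⟩ ⟨0, 0, 0, 0, 0, 0, 914851, 0, 0, 0, 0, 0, 0⟩ ⟨0, 0, 0, 0, 0, 0, 914851, 0, 0, 0, 0, 0, 0⟩ ⟨4308, -1, -10450, 6, -108, 4084, 812478, 0, 0, 0, 0, 0, 0⟩))
    (.leaf (.box ⟨3904, -1, -9180, 6, -73, 4004, 1183318, 0, 0, 0, 0, 0, 0⟩ ⟨0, 0, 0, 0, 0, 0, 1012728, 0, 0, 0, 0, 0, 0⟩ ⟨0, 0, 0, 0, 0, 0, 1012728, 0, 0, 0, 0, 0, 0⟩ ⟨0, 0, 0, 0, 0, 0, 885126, 0, 0, 0, 0, 0, 0⟩ ⟨0, 0, 0, 0, 0, 0, 885126, 0, 0, 0, 0, 0, 0⟩ ⟨2795, -1, -6571, 6, -79, 2864, 786080, 0, 0, 0, 0, 0, 0⟩))))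
    (.s2
    (.leaf (.box ⟨3004, -1, -5645, 6, -58, 2484, 938451, 0, 0, 0, 0, 0, 0⟩ ⟨0, 0, 0, 0, 0, 0, 777658, 0, 0, 0, 0, 0, 0⟩ ⟨0, 0, 0, 0, 0, 0, 777658, 0, 0, 0, 0, 0, 0⟩ ⟨0, 0, 0, 0, 0, 0, 663904, 0, 0, 0, 0, 0, 0⟩ ⟨0, 0, 0, 0, 0, 0, 663904, 0, 0, 0, 0, 0, 0⟩ ⟨2392, -1, -4551, 6, -75, 2004, 579183, 0, 0, 0, 0, 0, 0⟩))
    (.leaf (.box ⟨3809, -1, -6692, 6, -79, 3300, 908618, 0, 0, 0, 0, 0, 0⟩ ⟨0, 0, 0, 0, 0, 0, 752940, 0, 0, 0, 0, 0, 0⟩ ⟨0, 0, 0, 0, 0, 0, 752940, 0, 0, 0, 0, 0, 0⟩ ⟨0, 0, 0, 0, 0, 0, 642805, 0, 0, 0, 0, 0, 0⟩ ⟨0, 0, 0, 0, 0, 0, 642805, 0, 0, 0, 0, 0, 0⟩ ⟨2019, -1, -3603, 6, -69, 1772, 560778, 0, 0, 0, 0, 0, 0⟩)))))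
    (.s0
    (.s3
    (.leaf (.box ⟨4842, -1, -8021, 6, -64, 3496, 1099685, 0, 0, 0, 0, 0, 0⟩ ⟨0, 0, 0, 0, 0, 0, 941156, 0, 0, 0, 0, 0, 0⟩ ⟨0, 0, 0, 0, 0, 0, 941156, 0, 0, 0, 0, 0, 0⟩ ⟨0, 0, 0, 0, 0, 0, 822575, 0, 0, 0, 0, 0, 0⟩ ⟨0, 0, 0, 0, 0, 0, 822575, 0, 0, 0, 0, 0, 0⟩ ⟨2583, -1, -4290, 6, -52, 1862, 730531, 0, 0, 0, 0, 0, 0⟩))
    (.leaf (.box ⟨2655, -1, -5084, 6, -52, 2187, 844903, 0, 0, 0, 0, 0, 0⟩ ⟨0, 0, 0, 0, 0, 0, 700142, 0, 0, 0, 0, 0, 0⟩ ⟨0, 0, 0, 0, 0, 0, 700142, 0, 0, 0, 0, 0, 0⟩ ⟨0, 0, 0, 0, 0, 0, 597729, 0, 0, 0, 0, 0, 0⟩ ⟨0, 0, 0, 0, 0, 0, 597729, 0, 0, 0, 0, 0, 0⟩ ⟨2094, -1, -4073, 6, -67, 1739, 521454, 0, 0, 0, 0, 0, 0⟩)))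
    (.s3
    (.s3
    (.leaf (.box ⟨5423, -1, -5550, 6, -61, 3714, 1306649, 0, 0, 0, 0, 0, 0⟩ ⟨0, 0, 0, 0, 0, 0, 1147279, 0, 0, 0, 0, 0, 0⟩ ⟨0, 0, 0, 0, 0, 0, 1147279, 0, 0, 0, 0, 0, 0⟩ ⟨0, 0, 0, 0, 0, 0, 1022558, 0, 0, 0, 0, 0, 0⟩ ⟨0, 0, 0, 0, 0, 0, 1022558, 0, 0, 0, 0, 0, 0⟩ ⟨3930, -1, -4059, 6, -63, 2701, 922295, 0, 0, 0, 0, 0, 0⟩))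
    (.leaf (.box ⟨3257, -1, -3733, 6, -46, 2383, 1110583, 0, 0, 0, 0, 0, 0⟩ ⟨0, 0, 0, 0, 0, 0, 950486, 0, 0, 0, 0, 0, 0⟩ ⟨0, 0, 0, 0, 0, 0, 950486, 0, 0, 0, 0, 0, 0⟩ ⟨0, 0, 0, 0, 0, 0, 830731, 0, 0, 0, 0, 0, 0⟩ ⟨0, 0, 0, 0, 0, 0, 830731, 0, 0, 0, 0, 0, 0⟩ ⟨2314, -1, -2704, 6, -49, 1711, 737775, 0, 0, 0, 0, 0, 0⟩)))
    (.leaf (.box ⟨3048, -1, -4070, 6, -61, 2444, 853139, 0, 0, 0, 0, 0, 0⟩ ⟨0, 0, 0, 0, 0, 0, 706956, 0, 0, 0, 0, 0, 0⟩ ⟨0, 0, 0, 0, 0, 0, 706956, 0, 0, 0, 0, 0, 0⟩ ⟨0, 0, 0, 0, 0, 0, 603541, 0, 0, 0, 0, 0, 0⟩ ⟨0, 0, 0, 0, 0, 0, 603541, 0, 0, 0, 0, 0, 0⟩ ⟨1840, -1, -2535, 6, -61, 1504, 526520, 0, 0, 0, 0, 0, 0⟩)))))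
    (.s2
    (.s0
    (.leaf (.box ⟨2875, 0, -7675, 6, -92, 2755, 615880, 0, 0, 0, 0, 0, 0⟩ ⟨0, 0, 0, 0, 0, 0, 493889, 0, 0, 0, 0, 0, 0⟩ ⟨0, 0, 0, 0, 0, 0, 493889, 0, 0, 0, 0, 0, 0⟩ ⟨0, 0, 0, 0, 0, 0, 412235, 0, 0, 0, 0, 0, 0⟩ ⟨0, 0, 0, 0, 0, 0, 412235, 0, 0, 0, 0, 0, 0⟩ ⟨1456, 0, -4043, 6, -86, 1480, 353749, 0, 0, 0, 0, 0, 0⟩))
    (.s3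
    (.leaf (.box ⟨2411, -1, -4636, 6, -61, 2090, 737773, 0, 0, 0, 0, 0, 0⟩ ⟨0, 0, 0, 0, 0, 0, 599504, 0, 0, 0, 0, 0, 0⟩ ⟨0, 0, 0, 0, 0, 0, 599504, 0, 0, 0, 0, 0, 0⟩ ⟨0, 0, 0, 0, 0, 0, 504882, 0, 0, 0, 0, 0, 0⟩ ⟨0, 0, 0, 0, 0, 0, 504882, 0, 0, 0, 0, 0, 0⟩ ⟨1900, -1, -3749, 6, -84, 1688, 436057, 0, 0, 0, 0, 0, 0⟩))
    (.leaf (.box ⟨1842, -1, -4005, 6, -61, 1758, 621055, 0, 0, 0, 0, 0, 0⟩ ⟨0, 0, 0, 0, 0, 0, 498064, 0, 0, 0, 0, 0, 0⟩ ⟨0, 0, 0, 0, 0, 0, 498064, 0, 0, 0, 0, 0, 0⟩ ⟨0, 0, 0, 0, 0, 0, 415733, 0, 0, 0, 0, 0, 0⟩ ⟨0, 0, 0, 0, 0, 0, 415733, 0, 0, 0, 0, 0, 0⟩ ⟨1407, -1, -3111, 6, -82, 1364, 356760, 0, 0, 0, 0, 0, 0⟩))))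
    (.s3
    (.leaf (.box ⟨2323, -1, -3435, 6, -51, 1689, 686036, 0, 0, 0, 0, 0, 0⟩ ⟨0, 0, 0, 0, 0, 0, 557463, 0, 0, 0, 0, 0, 0⟩ ⟨0, 0, 0, 0, 0, 0, 557463, 0, 0, 0, 0, 0, 0⟩ ⟨0, 0, 0, 0, 0, 0, 469477, 0, 0, 0, 0, 0, 0⟩ ⟨0, 0, 0, 0, 0, 0, 469477, 0, 0, 0, 0, 0, 0⟩ ⟨1372, -1, -2048, 7, -50, 994, 405478, 0, 0, 0, 0, 0, 0⟩))
    (.leaf (.box ⟨1934, -1, -3240, 6, -55, 1540, 577500, 0, 0, 0, 0, 0, 0⟩ ⟨0, 0, 0, 0, 0, 0, 463133, 0, 0, 0, 0, 0, 0⟩ ⟨0, 0, 0, 0, 0, 0, 463133, 0, 0, 0, 0, 0, 0⟩ ⟨0, 0, 0, 0, 0, 0, 386577, 0, 0, 0, 0, 0, 0⟩ ⟨0, 0, 0, 0, 0, 0, 386577, 0, 0, 0, 0, 0, 0⟩ ⟨1234, -1, -2048, 8, -59, 959, 331739, 0, 0, 0, 0, 0, 0⟩))))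

/-- A piece of the tree. -/
noncomputable def tree28 : Tree LeafX :=
  .s0
    (.leaf (.box ⟨2936, 1, -5480, 6, -54, 1581, 577585, 0, 0, 0, 0, 0, 0⟩ ⟨0, 0, 0, 0, 0, 0, 463158, 0, 0, 0, 0, 0, 0⟩ ⟨0, 0, 0, 0, 0, 0, 463158, 0, 0, 0, 0, 0, 0⟩ ⟨0, 0, 0, 0, 0, 0, 386573, 0, 0, 0, 0, 0, 0⟩ ⟨0, 0, 0, 0, 0, 0, 386573, 0, 0, 0, 0, 0, 0⟩ ⟨2060, 1, -3712, 6, -64, 1072, 331721, 0, 0, 0, 0, 0, 0⟩))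
    (.s3
    (.s2
    (.s3
    (.s2
    (.leaf (.box ⟨8937, 0, -21031, 6, -101, 5899, 1224747, 0, 0, 0, 0, 0, 0⟩ ⟨0, 0, 0, 0, 0, 0, 1048176, 0, 0, 0, 0, 0, 0⟩ ⟨0, 0, 0, 0, 0, 0, 1048176, 0, 0, 0, 0, 0, 0⟩ ⟨0, 0, 0, 0, 0, 0, 916102, 0, 0, 0, 0, 0, 0⟩ ⟨0, 0, 0, 0, 0, 0, 916102, 0, 0, 0, 0, 0, 0⟩ ⟨4504, 0, -10601, 6, -77, 2981, 813586, 0, 0, 0, 0, 0, 0⟩))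
    (.leaf (.box ⟨7288, 0, -17446, 6, -94, 5297, 1184153, 0, 0, 0, 0, 0, 0⟩ ⟨0, 0, 0, 0, 0, 0, 1013437, 0, 0, 0, 0, 0, 0⟩ ⟨0, 0, 0, 0, 0, 0, 1013437, 0, 0, 0, 0, 0, 0⟩ ⟨0, 0, 0, 0, 0, 0, 885742, 0, 0, 0, 0, 0, 0⟩ ⟨0, 0, 0, 0, 0, 0, 885742, 0, 0, 0, 0, 0, 0⟩ ⟨3962, 0, -9577, 6, -78, 2910, 786625, 0, 0, 0, 0, 0, 0⟩)))
    (.leaf (.box ⟨4832, 0, -12812, 6, -88, 3842, 909649, 0, 0, 0, 0, 0, 0⟩ ⟨0, 0, 0, 0, 0, 0, 753773, 0, 0, 0, 0, 0, 0⟩ ⟨0, 0, 0, 0, 0, 0, 753773, 0, 0, 0, 0, 0, 0⟩ ⟨0, 0, 0, 0, 0, 0, 643503, 0, 0, 0, 0, 0, 0⟩ ⟨0, 0, 0, 0, 0, 0, 643503, 0, 0, 0, 0, 0, 0⟩ ⟨3357, 0, -9057, 6, -101, 2723, 561378, 0, 0, 0, 0, 0, 0⟩)))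
    (.leaf (.box ⟨3389, -1, -6593, 6, -55, 2294, 852305, 0, 0, 0, 0, 0, 0⟩ ⟨0, 0, 0, 0, 0, 0, 706246, 0, 0, 0, 0, 0, 0⟩ ⟨0, 0, 0, 0, 0, 0, 706246, 0, 0, 0, 0, 0, 0⟩ ⟨0, 0, 0, 0, 0, 0, 602924, 0, 0, 0, 0, 0, 0⟩ ⟨0, 0, 0, 0, 0, 0, 602924, 0, 0, 0, 0, 0, 0⟩ ⟨2699, -1, -5331, 6, -71, 1846, 525974, 0, 0, 0, 0, 0, 0⟩)))
    (.leaf (.box ⟨2348, 0, -5753, 6, -66, 1890, 582289, 0, 0, 0, 0, 0, 0⟩ ⟨0, 0, 0, 0, 0, 0, 466930, 0, 0, 0, 0, 0, 0⟩ ⟨0, 0, 0, 0, 0, 0, 466930, 0, 0, 0, 0, 0, 0⟩ ⟨0, 0, 0, 0, 0, 0, 389721, 0, 0, 0, 0, 0, 0⟩ ⟨0, 0, 0, 0, 0, 0, 389721, 0, 0, 0, 0, 0, 0⟩ ⟨2029, 0, -3000, 6, -73, 1195, 334422, 0, 0, 0, 0, 0, 0⟩)))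

/-- A piece of the tree. -/
noncomputable def tree29 : Tree LeafX :=
  .s3
    (.s2
    (.s0
    (.s3
    (.s3
    (.leaf (.box ⟨3810, -1, -4190, 6, -44, 2668, 1404826, 0, 0, 0, 0, 0, 0⟩ ⟨0, 0, 0, 0, 0, 0, 1233482, 0, 0, 0, 0, 0, 0⟩ ⟨0, 0, 0, 0, 0, 0, 1233482, 0, 0, 0, 0, 0, 0⟩ ⟨0, 0, 0, 0, 0, 0, 1099390, 0, 0, 0, 0, 0, 0⟩ ⟨0, 0, 0, 0, 0, 0, 1099390, 0, 0, 0, 0, 0, 0⟩ ⟨3719, -1, -4155, 6, -69, 2923, 991594, 0, 0, 0, 0, 0, 0⟩))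
    (.leaf (.box ⟨4730, -1, -4884, 6, -71, 3634, 1194027, 0, 0, 0, 0, 0, 0⟩ ⟨0, 0, 0, 0, 0, 0, 1021901, 0, 0, 0, 0, 0, 0⟩ ⟨0, 0, 0, 0, 0, 0, 1021901, 0, 0, 0, 0, 0, 0⟩ ⟨0, 0, 0, 0, 0, 0, 893149, 0, 0, 0, 0, 0, 0⟩ ⟨0, 0, 0, 0, 0, 0, 893149, 0, 0, 0, 0, 0, 0⟩ ⟨2889, -1, -3016, 6, -66, 2238, 793209, 0, 0, 0, 0, 0, 0⟩)))
    (.leaf (.box ⟨2980, -1, -3507, 6, -61, 2419, 917239, 0, 0, 0, 0, 0, 0⟩ ⟨0, 0, 0, 0, 0, 0, 760073, 0, 0, 0, 0, 0, 0⟩ ⟨0, 0, 0, 0, 0, 0, 760073, 0, 0, 0, 0, 0, 0⟩ ⟨0, 0, 0, 0, 0, 0, 648888, 0, 0, 0, 0, 0, 0⟩ ⟨0, 0, 0, 0, 0, 0, 648888, 0, 0, 0, 0, 0, 0⟩ ⟨1711, -1, -2211, 6, -59, 1447, 566080, 0, 0, 0, 0, 0, 0⟩)))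
    (.s3
    (.leaf (.box ⟨2691, -1, -1640, 6, -48, 2331, 1207023, 0, 0, 0, 0, 0, 0⟩ ⟨0, 0, 0, 0, 0, 0, 1033019, 0, 0, 0, 0, 0, 0⟩ ⟨0, 0, 0, 0, 0, 0, 1033019, 0, 0, 0, 0, 0, 0⟩ ⟨0, 0, 0, 0, 0, 0, 902863, 0, 0, 0, 0, 0, 0⟩ ⟨0, 0, 0, 0, 0, 0, 902863, 0, 0, 0, 0, 0, 0⟩ ⟨2201, -1, -1351, 6, -60, 1911, 801834, 0, 0, 0, 0, 0, 0⟩))
    (.leaf (.box ⟨2125, -1, -1663, 6, -51, 1922, 927349, 0, 0, 0, 0, 0, 0⟩ ⟨0, 0, 0, 0, 0, 0, 768458, 0, 0, 0, 0, 0, 0⟩ ⟨0, 0, 0, 0, 0, 0, 768458, 0, 0, 0, 0, 0, 0⟩ ⟨0, 0, 0, 0, 0, 0, 656051, 0, 0, 0, 0, 0, 0⟩ ⟨0, 0, 0, 0, 0, 0, 656051, 0, 0, 0, 0, 0, 0⟩ ⟨2048, -1, -1621, 8, -81, 1861, 572332, 0, 0, 0, 0, 0, 0⟩))))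
    (.s3
    (.s0
    (.s2
    (.leaf (.box ⟨3565, -1, -2763, 6, -58, 2929, 1157119, 0, 0, 0, 0, 0, 0⟩ ⟨0, 0, 0, 0, 0, 0, 990309, 0, 0, 0, 0, 0, 0⟩ ⟨0, 0, 0, 0, 0, 0, 990309, 0, 0, 0, 0, 0, 0⟩ ⟨0, 0, 0, 0, 0, 0, 865533, 0, 0, 0, 0, 0, 0⟩ ⟨0, 0, 0, 0, 0, 0, 865533, 0, 0, 0, 0, 0, 0⟩ ⟨2530, -1, -2346, 6, -56, 1870, 768681, 0, 0, 0, 0, 0, 0⟩))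
    (.leaf (.box ⟨3420, -1, -1992, 6, -57, 2833, 1122935, 0, 0, 0, 0, 0, 0⟩ ⟨0, 0, 0, 0, 0, 0, 961055, 0, 0, 0, 0, 0, 0⟩ ⟨0, 0, 0, 0, 0, 0, 961055, 0, 0, 0, 0, 0, 0⟩ ⟨0, 0, 0, 0, 0, 0, 839966, 0, 0, 0, 0, 0, 0⟩ ⟨0, 0, 0, 0, 0, 0, 839966, 0, 0, 0, 0, 0, 0⟩ ⟨2214, -1, -1311, 6, -55, 1831, 745976, 0, 0, 0, 0, 0, 0⟩)))
    (.leaf (.box ⟨2649, -1, -627, 6, -49, 2286, 1138640, 0, 0, 0, 0, 0, 0⟩ ⟨0, 0, 0, 0, 0, 0, 974499, 0, 0, 0, 0, 0, 0⟩ ⟨0, 0, 0, 0, 0, 0, 974499, 0, 0, 0, 0, 0, 0⟩ ⟨0, 0, 0, 0, 0, 0, 851720, 0, 0, 0, 0, 0, 0⟩ ⟨0, 0, 0, 0, 0, 0, 851720, 0, 0, 0, 0, 0, 0⟩ ⟨2048, -1, -500, 7, -57, 1766, 756416, 0, 0, 0, 0, 0, 0⟩)))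
    (.s3
    (.leaf (.box ⟨2247, -1, -1626, 6, -33, 1350, 975911, 0, 0, 0, 0, 0, 0⟩ ⟨0, 0, 0, 0, 0, 0, 820025, 0, 0, 0, 0, 0, 0⟩ ⟨0, 0, 0, 0, 0, 0, 820025, 0, 0, 0, 0, 0, 0⟩ ⟨0, 0, 0, 0, 0, 0, 707079, 0, 0, 0, 0, 0, 0⟩ ⟨0, 0, 0, 0, 0, 0, 707079, 0, 0, 0, 0, 0, 0⟩ ⟨2048, -2, -1392, 9, -56, 1473, 621480, 0, 0, 0, 0, 0, 0⟩))
    (.leaf (.box ⟨2133, -1, -1671, 6, -35, 1294, 862873, 0, 0, 0, 0, 0, 0⟩ ⟨0, 0, 0, 0, 0, 0, 715043, 0, 0, 0, 0, 0, 0⟩ ⟨0, 0, 0, 0, 0, 0, 715043, 0, 0, 0, 0, 0, 0⟩ ⟨0, 0, 0, 0, 0, 0, 610457, 0, 0, 0, 0, 0, 0⟩ ⟨0, 0, 0, 0, 0, 0, 610457, 0, 0, 0, 0, 0, 0⟩ ⟨2048, -1, -1627, 8, -55, 1240, 532561, 0, 0, 0, 0, 0, 0⟩)))))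
    (.s2
    (.s0
    (.s3
    (.leaf (.box ⟨1970, -1, -2746, 6, -54, 1740, 744707, 0, 0, 0, 0, 0, 0⟩ ⟨0, 0, 0, 0, 0, 0, 605123, 0, 0, 0, 0, 0, 0⟩ ⟨0, 0, 0, 0, 0, 0, 605123, 0, 0, 0, 0, 0, 0⟩ ⟨0, 0, 0, 0, 0, 0, 509606, 0, 0, 0, 0, 0, 0⟩ ⟨0, 0, 0, 0, 0, 0, 509606, 0, 0, 0, 0, 0, 0⟩ ⟨1494, -1, -2048, 7, -67, 1291, 440131, 0, 0, 0, 0, 0, 0⟩))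
    (.leaf (.box ⟨1918, -1, -3125, 6, -67, 1844, 626836, 0, 0, 0, 0, 0, 0⟩ ⟨0, 0, 0, 0, 0, 0, 502682, 0, 0, 0, 0, 0, 0⟩ ⟨0, 0, 0, 0, 0, 0, 502682, 0, 0, 0, 0, 0, 0⟩ ⟨0, 0, 0, 0, 0, 0, 419578, 0, 0, 0, 0, 0, 0⟩ ⟨0, 0, 0, 0, 0, 0, 419578, 0, 0, 0, 0, 0, 0⟩ ⟨1230, -1, -2048, 7, -76, 1202, 360053, 0, 0, 0, 0, 0, 0⟩)))
    (.leaf (.box ⟨2024, -1, -2048, 8, -73, 1887, 633683, 0, 0, 0, 0, 0, 0⟩ ⟨0, 0, 0, 0, 0, 0, 508173, 0, 0, 0, 0, 0, 0⟩ ⟨0, 0, 0, 0, 0, 0, 508173, 0, 0, 0, 0, 0, 0⟩ ⟨0, 0, 0, 0, 0, 0, 424161, 0, 0, 0, 0, 0, 0⟩ ⟨0, 0, 0, 0, 0, 0, 424161, 0, 0, 0, 0, 0, 0⟩ ⟨1984, -1, -2048, 12, -126, 1870, 363986, 0, 0, 0, 0, 0, 0⟩)))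
    (.s3
    (.leaf (.box ⟨2048, -1, -1249, 7, -48, 1430, 700543, 0, 0, 0, 0, 0, 0⟩ ⟨0, 0, 0, 0, 0, 0, 569251, 0, 0, 0, 0, 0, 0⟩ ⟨0, 0, 0, 0, 0, 0, 569251, 0, 0, 0, 0, 0, 0⟩ ⟨0, 0, 0, 0, 0, 0, 479404, 0, 0, 0, 0, 0, 0⟩ ⟨0, 0, 0, 0, 0, 0, 479404, 0, 0, 0, 0, 0, 0⟩ ⟨2048, -2, -1761, 12, -66, 1167, 414052, 0, 0, 0, 0, 0, 0⟩))
    (.leaf (.box ⟨2048, -1, -1597, 9, -61, 1543, 589713, 0, 0, 0, 0, 0, 0⟩ ⟨0, 0, 0, 0, 0, 0, 472928, 0, 0, 0, 0, 0, 0⟩ ⟨0, 0, 0, 0, 0, 0, 472928, 0, 0, 0, 0, 0, 0⟩ ⟨0, 0, 0, 0, 0, 0, 394752, 0, 0, 0, 0, 0, 0⟩ ⟨0, 0, 0, 0, 0, 0, 394752, 0, 0, 0, 0, 0, 0⟩ ⟨2048, -3, -1668, 17, -107, 1562, 338755, 0, 0, 0, 0, 0, 0⟩))))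

/-- A piece of the tree. -/
noncomputable def tree30 : Tree LeafX :=
  .s3
    (.s0
    (.s2
    (.s1
    (.s3
    (.leaf (.box ⟨3546, -1, -7272, 6, -60, 3230, 1193654, 0, 0, 0, 0, 0, 0⟩ ⟨0, 0, 0, 0, 0, 0, 1021569, 0, 0, 0, 0, 0, 0⟩ ⟨0, 0, 0, 0, 0, 0, 1021569, 0, 0, 0, 0, 0, 0⟩ ⟨0, 0, 0, 0, 0, 0, 892849, 0, 0, 0, 0, 0, 0⟩ ⟨0, 0, 0, 0, 0, 0, 892849, 0, 0, 0, 0, 0, 0⟩ ⟨3741, -1, -7675, 6, -95, 3407, 792937, 0, 0, 0, 0, 0, 0⟩))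
    (.leaf (.box ⟨2572, 0, -6198, 6, -64, 2662, 916956, 0, 0, 0, 0, 0, 0⟩ ⟨0, 0, 0, 0, 0, 0, 759829, 0, 0, 0, 0, 0, 0⟩ ⟨0, 0, 0, 0, 0, 0, 759829, 0, 0, 0, 0, 0, 0⟩ ⟨0, 0, 0, 0, 0, 0, 648673, 0, 0, 0, 0, 0, 0⟩ ⟨0, 0, 0, 0, 0, 0, 648673, 0, 0, 0, 0, 0, 0⟩ ⟨1999, 0, -4872, 6, -81, 2091, 565889, 0, 0, 0, 0, 0, 0⟩)))
    (.s3
    (.leaf (.box ⟨6065, 0, -14598, 6, -91, 5002, 1193520, 0, 0, 0, 0, 0, 0⟩ ⟨0, 0, 0, 0, 0, 0, 1021449, 0, 0, 0, 0, 0, 0⟩ ⟨0, 0, 0, 0, 0, 0, 1021449, 0, 0, 0, 0, 0, 0⟩ ⟨0, 0, 0, 0, 0, 0, 892741, 0, 0, 0, 0, 0, 0⟩ ⟨0, 0, 0, 0, 0, 0, 892741, 0, 0, 0, 0, 0, 0⟩ ⟨4142, 0, -10055, 6, -94, 3446, 792839, 0, 0, 0, 0, 0, 0⟩))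
    (.leaf (.box ⟨2823, 0, -8115, 6, -65, 2770, 916787, 0, 0, 0, 0, 0, 0⟩ ⟨0, 0, 0, 0, 0, 0, 759679, 0, 0, 0, 0, 0, 0⟩ ⟨0, 0, 0, 0, 0, 0, 759679, 0, 0, 0, 0, 0, 0⟩ ⟨0, 0, 0, 0, 0, 0, 648540, 0, 0, 0, 0, 0, 0⟩ ⟨0, 0, 0, 0, 0, 0, 648540, 0, 0, 0, 0, 0, 0⟩ ⟨3018, 0, -8798, 6, -114, 3004, 565769, 0, 0, 0, 0, 0, 0⟩))))
    (.s3
    (.s3
    (.leaf (.box ⟨5179, -1, -7151, 6, -56, 3468, 1317501, 0, 0, 0, 0, 0, 0⟩ ⟨0, 0, 0, 0, 0, 0, 1156804, 0, 0, 0, 0, 0, 0⟩ ⟨0, 0, 0, 0, 0, 0, 1156804, 0, 0, 0, 0, 0, 0⟩ ⟨0, 0, 0, 0, 0, 0, 1031047, 0, 0, 0, 0, 0, 0⟩ ⟨0, 0, 0, 0, 0, 0, 1031047, 0, 0, 0, 0, 0, 0⟩ ⟨3641, -1, -5604, 6, -60, 2597, 929950, 0, 0, 0, 0, 0, 0⟩))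
    (.leaf (.box ⟨3302, -1, -4998, 6, -45, 2362, 1119782, 0, 0, 0, 0, 0, 0⟩ ⟨0, 0, 0, 0, 0, 0, 958355, 0, 0, 0, 0, 0, 0⟩ ⟨0, 0, 0, 0, 0, 0, 958355, 0, 0, 0, 0, 0, 0⟩ ⟨0, 0, 0, 0, 0, 0, 837606, 0, 0, 0, 0, 0, 0⟩ ⟨0, 0, 0, 0, 0, 0, 837606, 0, 0, 0, 0, 0, 0⟩ ⟨3174, -1, -4895, 6, -66, 2298, 743879, 0, 0, 0, 0, 0, 0⟩)))
    (.leaf (.box ⟨2766, -1, -4742, 6, -54, 2166, 860188, 0, 0, 0, 0, 0, 0⟩ ⟨0, 0, 0, 0, 0, 0, 712792, 0, 0, 0, 0, 0, 0⟩ ⟨0, 0, 0, 0, 0, 0, 712792, 0, 0, 0, 0, 0, 0⟩ ⟨0, 0, 0, 0, 0, 0, 608521, 0, 0, 0, 0, 0, 0⟩ ⟨0, 0, 0, 0, 0, 0, 608521, 0, 0, 0, 0, 0, 0⟩ ⟨1803, -1, -3159, 6, -57, 1429, 530862, 0, 0, 0, 0, 0, 0⟩))))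
    (.s2
    (.s3
    (.s3
    (.leaf (.box ⟨4374, 0, -5799, 6, -55, 3325, 1416414, 0, 0, 0, 0, 0, 0⟩ ⟨0, 0, 0, 0, 0, 0, 1243651, 0, 0, 0, 0, 0, 0⟩ ⟨0, 0, 0, 0, 0, 0, 1243651, 0, 0, 0, 0, 0, 0⟩ ⟨0, 0, 0, 0, 0, 0, 1108451, 0, 0, 0, 0, 0, 0⟩ ⟨0, 0, 0, 0, 0, 0, 1108451, 0, 0, 0, 0, 0, 0⟩ ⟨3095, 0, -4784, 6, -59, 2529, 999764, 0, 0, 0, 0, 0, 0⟩))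
    (.leaf (.box ⟨3732, 0, -5367, 6, -57, 2972, 1203840, 0, 0, 0, 0, 0, 0⟩ ⟨0, 0, 0, 0, 0, 0, 1030293, 0, 0, 0, 0, 0, 0⟩ ⟨0, 0, 0, 0, 0, 0, 1030293, 0, 0, 0, 0, 0, 0⟩ ⟨0, 0, 0, 0, 0, 0, 900478, 0, 0, 0, 0, 0, 0⟩ ⟨0, 0, 0, 0, 0, 0, 900478, 0, 0, 0, 0, 0, 0⟩ ⟨2379, 0, -3455, 6, -55, 1909, 799715, 0, 0, 0, 0, 0, 0⟩)))
    (.leaf (.box ⟨2626, 0, -4197, 6, -55, 2218, 924750, 0, 0, 0, 0, 0, 0⟩ ⟨0, 0, 0, 0, 0, 0, 766290, 0, 0, 0, 0, 0, 0⟩ ⟨0, 0, 0, 0, 0, 0, 766290, 0, 0, 0, 0, 0, 0⟩ ⟨0, 0, 0, 0, 0, 0, 654191, 0, 0, 0, 0, 0, 0⟩ ⟨0, 0, 0, 0, 0, 0, 654191, 0, 0, 0, 0, 0, 0⟩ ⟨2250, 0, -3649, 6, -78, 1922, 570703, 0, 0, 0, 0, 0, 0⟩)))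
    (.s3
    (.leaf (.box ⟨2686, -1, -2823, 6, -42, 2068, 1132565, 0, 0, 0, 0, 0, 0⟩ ⟨0, 0, 0, 0, 0, 0, 969294, 0, 0, 0, 0, 0, 0⟩ ⟨0, 0, 0, 0, 0, 0, 969294, 0, 0, 0, 0, 0, 0⟩ ⟨0, 0, 0, 0, 0, 0, 847167, 0, 0, 0, 0, 0, 0⟩ ⟨0, 0, 0, 0, 0, 0, 847167, 0, 0, 0, 0, 0, 0⟩ ⟨2342, -1, -2862, 6, -57, 1878, 752370, 0, 0, 0, 0, 0, 0⟩))
    (.leaf (.box ⟨2751, -1, -3502, 6, -60, 2302, 870138, 0, 0, 0, 0, 0, 0⟩ ⟨0, 0, 0, 0, 0, 0, 721049, 0, 0, 0, 0, 0, 0⟩ ⟨0, 0, 0, 0, 0, 0, 721049, 0, 0, 0, 0, 0, 0⟩ ⟨0, 0, 0, 0, 0, 0, 615576, 0, 0, 0, 0, 0, 0⟩ ⟨0, 0, 0, 0, 0, 0, 615576, 0, 0, 0, 0, 0, 0⟩ ⟨1572, -1, -2048, 6, -56, 1329, 537022, 0, 0, 0, 0, 0, 0⟩)))))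
    (.s2
    (.s3
    (.s0
    (.leaf (.box ⟨3253, 0, -7505, 6, -82, 2830, 744232, 0, 0, 0, 0, 0, 0⟩ ⟨0, 0, 0, 0, 0, 0, 604712, 0, 0, 0, 0, 0, 0⟩ ⟨0, 0, 0, 0, 0, 0, 604712, 0, 0, 0, 0, 0, 0⟩ ⟨0, 0, 0, 0, 0, 0, 509245, 0, 0, 0, 0, 0, 0⟩ ⟨0, 0, 0, 0, 0, 0, 509245, 0, 0, 0, 0, 0, 0⟩ ⟨1631, 0, -3843, 6, -71, 1448, 439810, 0, 0, 0, 0, 0, 0⟩))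
    (.leaf (.box ⟨2585, 0, -4773, 6, -73, 2388, 750762, 0, 0, 0, 0, 0, 0⟩ ⟨0, 0, 0, 0, 0, 0, 610034, 0, 0, 0, 0, 0, 0⟩ ⟨0, 0, 0, 0, 0, 0, 610034, 0, 0, 0, 0, 0, 0⟩ ⟨0, 0, 0, 0, 0, 0, 513735, 0, 0, 0, 0, 0, 0⟩ ⟨0, 0, 0, 0, 0, 0, 513735, 0, 0, 0, 0, 0, 0⟩ ⟨1398, 0, -2620, 6, -67, 1306, 443694, 0, 0, 0, 0, 0, 0⟩)))
    (.leaf (.box ⟨2009, 0, -3533, 6, -53, 1503, 626346, 0, 0, 0, 0, 0, 0⟩ ⟨0, 0, 0, 0, 0, 0, 502259, 0, 0, 0, 0, 0, 0⟩ ⟨0, 0, 0, 0, 0, 0, 502259, 0, 0, 0, 0, 0, 0⟩ ⟨0, 0, 0, 0, 0, 0, 419209, 0, 0, 0, 0, 0, 0⟩ ⟨0, 0, 0, 0, 0, 0, 419209, 0, 0, 0, 0, 0, 0⟩ ⟨1132, 0, -2048, 7, -53, 869, 359726, 0, 0, 0, 0, 0, 0⟩)))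
    (.s3
    (.leaf (.box ⟨2021, -1, -2557, 6, -41, 1328, 698360, 0, 0, 0, 0, 0, 0⟩ ⟨0, 0, 0, 0, 0, 0, 567457, 0, 0, 0, 0, 0, 0⟩ ⟨0, 0, 0, 0, 0, 0, 567457, 0, 0, 0, 0, 0, 0⟩ ⟨0, 0, 0, 0, 0, 0, 477881, 0, 0, 0, 0, 0, 0⟩ ⟨0, 0, 0, 0, 0, 0, 477881, 0, 0, 0, 0, 0, 0⟩ ⟨1519, -1, -2048, 8, -55, 1047, 412729, 0, 0, 0, 0, 0, 0⟩))
    (.leaf (.box ⟨1485, -1, -2330, 6, -42, 1145, 587801, 0, 0, 0, 0, 0, 0⟩ ⟨0, 0, 0, 0, 0, 0, 471371, 0, 0, 0, 0, 0, 0⟩ ⟨0, 0, 0, 0, 0, 0, 471371, 0, 0, 0, 0, 0, 0⟩ ⟨0, 0, 0, 0, 0, 0, 393439, 0, 0, 0, 0, 0, 0⟩ ⟨0, 0, 0, 0, 0, 0, 393439, 0, 0, 0, 0, 0, 0⟩ ⟨1251, -1, -2048, 9, -63, 989, 337620, 0, 0, 0, 0, 0, 0⟩))))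

/-- A piece of the tree. -/
noncomputable def tree31 : Tree LeafX :=
  .s0
    (.leaf (.box ⟨4608, 2, -6503, 6, -54, 1564, 577384, 0, 0, 0, 0, 0, 0⟩ ⟨0, 0, 0, 0, 0, 0, 462917, 0, 0, 0, 0, 0, 0⟩ ⟨0, 0, 0, 0, 0, 0, 462917, 0, 0, 0, 0, 0, 0⟩ ⟨0, 0, 0, 0, 0, 0, 386328, 0, 0, 0, 0, 0, 0⟩ ⟨0, 0, 0, 0, 0, 0, 386328, 0, 0, 0, 0, 0, 0⟩ ⟨2704, 2, -3810, 6, -55, 919, 331483, 0, 0, 0, 0, 0, 0⟩))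
    (.s1
    (.s0
    (.s3
    (.s3
    (.s2
    (.leaf (.box ⟨9865, 1, -21850, 6, -98, 5531, 1193295, 0, 0, 0, 0, 0, 0⟩ ⟨0, 0, 0, 0, 0, 0, 1021236, 0, 0, 0, 0, 0, 0⟩ ⟨0, 0, 0, 0, 0, 0, 1021236, 0, 0, 0, 0, 0, 0⟩ ⟨0, 0, 0, 0, 0, 0, 892541, 0, 0, 0, 0, 0, 0⟩ ⟨0, 0, 0, 0, 0, 0, 892541, 0, 0, 0, 0, 0, 0⟩ ⟨5958, 1, -6407, 6, -58, 2160, 792652, 0, 0, 0, 0, 0, 0⟩))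
    (.leaf (.box ⟨5789, 0, -12567, 6, -66, 3606, 1116987, 0, 0, 0, 0, 0, 0⟩ ⟨0, 0, 0, 0, 0, 0, 955950, 0, 0, 0, 0, 0, 0⟩ ⟨0, 0, 0, 0, 0, 0, 955950, 0, 0, 0, 0, 0, 0⟩ ⟨0, 0, 0, 0, 0, 0, 835496, 0, 0, 0, 0, 0, 0⟩ ⟨0, 0, 0, 0, 0, 0, 835496, 0, 0, 0, 0, 0, 0⟩ ⟨4350, 0, -9526, 6, -76, 2726, 742000, 0, 0, 0, 0, 0, 0⟩)))
    (.leaf (.box ⟨4348, 0, -10276, 6, -68, 2828, 858002, 0, 0, 0, 0, 0, 0⟩ ⟨0, 0, 0, 0, 0, 0, 710968, 0, 0, 0, 0, 0, 0⟩ ⟨0, 0, 0, 0, 0, 0, 710968, 0, 0, 0, 0, 0, 0⟩ ⟨0, 0, 0, 0, 0, 0, 606956, 0, 0, 0, 0, 0, 0⟩ ⟨0, 0, 0, 0, 0, 0, 606956, 0, 0, 0, 0, 0, 0⟩ ⟨3325, 0, -8029, 6, -86, 2207, 529492, 0, 0, 0, 0, 0, 0⟩)))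
    (.leaf (.box ⟨2743, 0, -7813, 6, -77, 2212, 586179, 0, 0, 0, 0, 0, 0⟩ ⟨0, 0, 0, 0, 0, 0, 470050, 0, 0, 0, 0, 0, 0⟩ ⟨0, 0, 0, 0, 0, 0, 470050, 0, 0, 0, 0, 0, 0⟩ ⟨0, 0, 0, 0, 0, 0, 392325, 0, 0, 0, 0, 0, 0⟩ ⟨0, 0, 0, 0, 0, 0, 392325, 0, 0, 0, 0, 0, 0⟩ ⟨1286, 0, -3822, 6, -66, 1080, 336657, 0, 0, 0, 0, 0, 0⟩)))
    (.s3
    (.s1
    (.s3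
    (.s2
    (.leaf (.box ⟨5528, 0, -13725, 6, -94, 5073, 1202541, 0, 0, 0, 0, 0, 0⟩ ⟨0, 0, 0, 0, 0, 0, 1029172, 0, 0, 0, 0, 0, 0⟩ ⟨0, 0, 0, 0, 0, 0, 1029172, 0, 0, 0, 0, 0, 0⟩ ⟨0, 0, 0, 0, 0, 0, 899493, 0, 0, 0, 0, 0, 0⟩ ⟨0, 0, 0, 0, 0, 0, 899493, 0, 0, 0, 0, 0, 0⟩ ⟨2927, 0, -7331, 6, -75, 2708, 798836, 0, 0, 0, 0, 0, 0⟩))
    (.leaf (.box ⟨4010, -1, -8981, 6, -75, 3884, 1129933, 0, 0, 0, 0, 0, 0⟩ ⟨0, 0, 0, 0, 0, 0, 967039, 0, 0, 0, 0, 0, 0⟩ ⟨0, 0, 0, 0, 0, 0, 967039, 0, 0, 0, 0, 0, 0⟩ ⟨0, 0, 0, 0, 0, 0, 845194, 0, 0, 0, 0, 0, 0⟩ ⟨0, 0, 0, 0, 0, 0, 845194, 0, 0, 0, 0, 0, 0⟩ ⟨2337, -1, -5334, 6, -67, 2295, 750617, 0, 0, 0, 0, 0, 0⟩)))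
    (.s2
    (.leaf (.box ⟨3503, 0, -10167, 6, -88, 3685, 923746, 0, 0, 0, 0, 0, 0⟩ ⟨0, 0, 0, 0, 0, 0, 765450, 0, 0, 0, 0, 0, 0⟩ ⟨0, 0, 0, 0, 0, 0, 765450, 0, 0, 0, 0, 0, 0⟩ ⟨0, 0, 0, 0, 0, 0, 653469, 0, 0, 0, 0, 0, 0⟩ ⟨0, 0, 0, 0, 0, 0, 653469, 0, 0, 0, 0, 0, 0⟩ ⟨2476, 0, -7268, 6, -102, 2632, 570070, 0, 0, 0, 0, 0, 0⟩))
    (.leaf (.box ⟨2968, -1, -7830, 6, -81, 3247, 868079, 0, 0, 0, 0, 0, 0⟩ ⟨0, 0, 0, 0, 0, 0, 719337, 0, 0, 0, 0, 0, 0⟩ ⟨0, 0, 0, 0, 0, 0, 719337, 0, 0, 0, 0, 0, 0⟩ ⟨0, 0, 0, 0, 0, 0, 614112, 0, 0, 0, 0, 0, 0⟩ ⟨0, 0, 0, 0, 0, 0, 614112, 0, 0, 0, 0, 0, 0⟩ ⟨1542, -1, -4178, 6, -69, 1717, 535742, 0, 0, 0, 0, 0, 0⟩))))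
    (.s2
    (.s2
    (.leaf (.box ⟨3850, 0, -11679, 6, -77, 3384, 954771, 0, 0, 0, 0, 0, 0⟩ ⟨0, 0, 0, 0, 0, 0, 791131, 0, 0, 0, 0, 0, 0⟩ ⟨0, 0, 0, 0, 0, 0, 791131, 0, 0, 0, 0, 0, 0⟩ ⟨0, 0, 0, 0, 0, 0, 675377, 0, 0, 0, 0, 0, 0⟩ ⟨0, 0, 0, 0, 0, 0, 675377, 0, 0, 0, 0, 0, 0⟩ ⟨3254, 0, -10223, 6, -99, 2701, 589172, 0, 0, 0, 0, 0, 0⟩))
    (.leaf (.box ⟨4668, 0, -14380, 6, -103, 4377, 922867, 0, 0, 0, 0, 0, 0⟩ ⟨0, 0, 0, 0, 0, 0, 764714, 0, 0, 0, 0, 0, 0⟩ ⟨0, 0, 0, 0, 0, 0, 764714, 0, 0, 0, 0, 0, 0⟩ ⟨0, 0, 0, 0, 0, 0, 652836, 0, 0, 0, 0, 0, 0⟩ ⟨0, 0, 0, 0, 0, 0, 652836, 0, 0, 0, 0, 0, 0⟩ ⟨2288, 0, -7474, 6, -82, 2163, 569515, 0, 0, 0, 0, 0, 0⟩)))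
    (.leaf (.box ⟨3675, -1, -9845, 6, -80, 3266, 866064, 0, 0, 0, 0, 0, 0⟩ ⟨0, 0, 0, 0, 0, 0, 717653, 0, 0, 0, 0, 0, 0⟩ ⟨0, 0, 0, 0, 0, 0, 717653, 0, 0, 0, 0, 0, 0⟩ ⟨0, 0, 0, 0, 0, 0, 612665, 0, 0, 0, 0, 0, 0⟩ ⟨0, 0, 0, 0, 0, 0, 612665, 0, 0, 0, 0, 0, 0⟩ ⟨2272, -1, -6265, 6, -82, 2067, 534474, 0, 0, 0, 0, 0, 0⟩))))
    (.s2
    (.s2
    (.leaf (.box ⟨2133, 0, -6246, 6, -66, 1986, 652158, 0, 0, 0, 0, 0, 0⟩ ⟨0, 0, 0, 0, 0, 0, 522929, 0, 0, 0, 0, 0, 0⟩ ⟨0, 0, 0, 0, 0, 0, 522929, 0, 0, 0, 0, 0, 0⟩ ⟨0, 0, 0, 0, 0, 0, 436445, 0, 0, 0, 0, 0, 0⟩ ⟨0, 0, 0, 0, 0, 0, 436445, 0, 0, 0, 0, 0, 0⟩ ⟨1586, 0, -4682, 6, -86, 1490, 374507, 0, 0, 0, 0, 0, 0⟩))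
    (.leaf (.box ⟨2534, 0, -7197, 6, -82, 2393, 630474, 0, 0, 0, 0, 0, 0⟩ ⟨0, 0, 0, 0, 0, 0, 505565, 0, 0, 0, 0, 0, 0⟩ ⟨0, 0, 0, 0, 0, 0, 505565, 0, 0, 0, 0, 0, 0⟩ ⟨0, 0, 0, 0, 0, 0, 421965, 0, 0, 0, 0, 0, 0⟩ ⟨0, 0, 0, 0, 0, 0, 421965, 0, 0, 0, 0, 0, 0⟩ ⟨1580, 0, -4579, 6, -91, 1519, 362090, 0, 0, 0, 0, 0, 0⟩)))
    (.leaf (.box ⟨1879, -1, -4726, 6, -60, 1689, 591833, 0, 0, 0, 0, 0, 0⟩ ⟨0, 0, 0, 0, 0, 0, 474600, 0, 0, 0, 0, 0, 0⟩ ⟨0, 0, 0, 0, 0, 0, 474600, 0, 0, 0, 0, 0, 0⟩ ⟨0, 0, 0, 0, 0, 0, 396132, 0, 0, 0, 0, 0, 0⟩ ⟨0, 0, 0, 0, 0, 0, 396132, 0, 0, 0, 0, 0, 0⟩ ⟨1144, -1, -2961, 6, -65, 1045, 339929, 0, 0, 0, 0, 0, 0⟩)))))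
    (.s3
    (.s2
    (.leaf (.box ⟨5279, 1, -12003, 6, -50, 2185, 916155, 0, 0, 0, 0, 0, 0⟩ ⟨0, 0, 0, 0, 0, 0, 759107, 0, 0, 0, 0, 0, 0⟩ ⟨0, 0, 0, 0, 0, 0, 759107, 0, 0, 0, 0, 0, 0⟩ ⟨0, 0, 0, 0, 0, 0, 648023, 0, 0, 0, 0, 0, 0⟩ ⟨0, 0, 0, 0, 0, 0, 648023, 0, 0, 0, 0, 0, 0⟩ ⟨3757, 1, -9559, 6, -70, 1881, 565299, 0, 0, 0, 0, 0, 0⟩))
    (.leaf (.box ⟨5603, 0, -11707, 6, -64, 2691, 855888, 0, 0, 0, 0, 0, 0⟩ ⟨0, 0, 0, 0, 0, 0, 709206, 0, 0, 0, 0, 0, 0⟩ ⟨0, 0, 0, 0, 0, 0, 709206, 0, 0, 0, 0, 0, 0⟩ ⟨0, 0, 0, 0, 0, 0, 605444, 0, 0, 0, 0, 0, 0⟩ ⟨0, 0, 0, 0, 0, 0, 605444, 0, 0, 0, 0, 0, 0⟩ ⟨3715, 0, -7612, 6, -68, 1744, 528169, 0, 0, 0, 0, 0, 0⟩)))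
    (.leaf (.box ⟨2411, 0, -7555, 6, -63, 1796, 584672, 0, 0, 0, 0, 0, 0⟩ ⟨0, 0, 0, 0, 0, 0, 468828, 0, 0, 0, 0, 0, 0⟩ ⟨0, 0, 0, 0, 0, 0, 468828, 0, 0, 0, 0, 0, 0⟩ ⟨0, 0, 0, 0, 0, 0, 391298, 0, 0, 0, 0, 0, 0⟩ ⟨0, 0, 0, 0, 0, 0, 391298, 0, 0, 0, 0, 0, 0⟩ ⟨1506, 0, -4863, 6, -70, 1155, 335771, 0, 0, 0, 0, 0, 0⟩))))

/-- A piece of the tree. -/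
noncomputable def tree32 : Tree LeafX :=
  .s1
    (.leaf (.box ⟨4080, 3, -3626, 6, -26, 751, 575515, 0, 0, 0, 0, 0, 0⟩ ⟨0, 0, 0, 0, 0, 0, 461428, 0, 0, 0, 0, 0, 0⟩ ⟨0, 0, 0, 0, 0, 0, 461428, 0, 0, 0, 0, 0, 0⟩ ⟨0, 0, 0, 0, 0, 0, 385090, 0, 0, 0, 0, 0, 0⟩ ⟨0, 0, 0, 0, 0, 0, 385090, 0, 0, 0, 0, 0, 0⟩ ⟨2348, 3, -2109, 6, -27, 437, 330424, 0, 0, 0, 0, 0, 0⟩))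
    (.leaf (.box ⟨4117, 2, -2236, 6, -19, 559, 571380, 0, 0, 0, 0, 0, 0⟩ ⟨0, 0, 0, 0, 0, 0, 458183, 0, 0, 0, 0, 0, 0⟩ ⟨0, 0, 0, 0, 0, 0, 458183, 0, 0, 0, 0, 0, 0⟩ ⟨0, 0, 0, 0, 0, 0, 382421, 0, 0, 0, 0, 0, 0⟩ ⟨0, 0, 0, 0, 0, 0, 382421, 0, 0, 0, 0, 0, 0⟩ ⟨2263, 2, -1202, 6, -18, 298, 328158, 0, 0, 0, 0, 0, 0⟩))

/-- A piece of the tree. -/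
noncomputable def tree33 : Tree LeafX :=
  .s0
    (.s0
    (.s1
    (.leaf (.box ⟨4179, 4, 2382, 6, -8, 234, 419576, 0, 0, 0, 0, 0, 0⟩ ⟨0, 0, 0, 0, 0, 0, 336235, 0, 0, 0, 0, 0, 0⟩ ⟨0, 0, 0, 0, 0, 0, 336235, 0, 0, 0, 0, 0, 0⟩ ⟨0, 0, 0, 0, 0, 0, 280515, 0, 0, 0, 0, 0, 0⟩ ⟨0, 0, 0, 0, 0, 0, 280515, 0, 0, 0, 0, 0, 0⟩ ⟨2358, 4, 1383, 6, -8, 137, 240637, 0, 0, 0, 0, 0, 0⟩))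
    (.leaf (.box ⟨3408, 3, 1658, 6, -6, 133, 401764, 0, 0, 0, 0, 0, 0⟩ ⟨0, 0, 0, 0, 0, 0, 322156, 0, 0, 0, 0, 0, 0⟩ ⟨0, 0, 0, 0, 0, 0, 322156, 0, 0, 0, 0, 0, 0⟩ ⟨0, 0, 0, 0, 0, 0, 268878, 0, 0, 0, 0, 0, 0⟩ ⟨0, 0, 0, 0, 0, 0, 268878, 0, 0, 0, 0, 0, 0⟩ ⟨2048, 4, 960, 7, -6, 78, 230721, 0, 0, 0, 0, 0, 0⟩)))
    (.leaf (.box ⟨2412, 3, 1529, 6, -11, 298, 454512, 0, 0, 0, 0, 0, 0⟩ ⟨0, 0, 0, 0, 0, 0, 364472, 0, 0, 0, 0, 0, 0⟩ ⟨0, 0, 0, 0, 0, 0, 364472, 0, 0, 0, 0, 0, 0⟩ ⟨0, 0, 0, 0, 0, 0, 304208, 0, 0, 0, 0, 0, 0⟩ ⟨0, 0, 0, 0, 0, 0, 304208, 0, 0, 0, 0, 0, 0⟩ ⟨2048, 4, 1284, 9, -16, 254, 261044, 0, 0, 0, 0, 0, 0⟩)))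
    (.s1
    (.s1
    (.s0
    (.leaf (.box ⟨2048, 0, -934, 6, -15, 498, 486227, 0, 0, 0, 0, 0, 0⟩ ⟨0, 0, 0, 0, 0, 0, 389901, 0, 0, 0, 0, 0, 0⟩ ⟨0, 0, 0, 0, 0, 0, 389901, 0, 0, 0, 0, 0, 0⟩ ⟨0, 0, 0, 0, 0, 0, 325430, 0, 0, 0, 0, 0, 0⟩ ⟨0, 0, 0, 0, 0, 0, 325430, 0, 0, 0, 0, 0, 0⟩ ⟨2048, 1, -969, 10, -26, 490, 279254, 0, 0, 0, 0, 0, 0⟩))
    (.s0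
    (.s3
    (.s3
    (.leaf (.box ⟨2048, -2, -1946, 7, -17, 984, 974687, 0, 0, 0, 0, 0, 0⟩ ⟨0, 0, 0, 0, 0, 0, 834168, 0, 0, 0, 0, 0, 0⟩ ⟨0, 0, 0, 0, 0, 0, 834168, 0, 0, 0, 0, 0, 0⟩ ⟨0, 0, 0, 0, 0, 0, 729060, 0, 0, 0, 0, 0, 0⟩ ⟨0, 0, 0, 0, 0, 0, 729060, 0, 0, 0, 0, 0, 0⟩ ⟨2048, -2, -1949, 9, -25, 965, 647476, 0, 0, 0, 0, 0, 0⟩))
    (.leaf (.box ⟨1869, -2, -2048, 8, -22, 972, 748730, 0, 0, 0, 0, 0, 0⟩ ⟨0, 0, 0, 0, 0, 0, 620427, 0, 0, 0, 0, 0, 0⟩ ⟨0, 0, 0, 0, 0, 0, 620427, 0, 0, 0, 0, 0, 0⟩ ⟨0, 0, 0, 0, 0, 0, 529663, 0, 0, 0, 0, 0, 0⟩ ⟨0, 0, 0, 0, 0, 0, 529663, 0, 0, 0, 0, 0, 0⟩ ⟨1849, -3, -2048, 13, -35, 939, 462066, 0, 0, 0, 0, 0, 0⟩)))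
    (.leaf (.box ⟨1662, -2, -2048, 11, -30, 904, 511549, 0, 0, 0, 0, 0, 0⟩ ⟨0, 0, 0, 0, 0, 0, 410210, 0, 0, 0, 0, 0, 0⟩ ⟨0, 0, 0, 0, 0, 0, 410210, 0, 0, 0, 0, 0, 0⟩ ⟨0, 0, 0, 0, 0, 0, 342383, 0, 0, 0, 0, 0, 0⟩ ⟨0, 0, 0, 0, 0, 0, 342383, 0, 0, 0, 0, 0, 0⟩ ⟨1632, -3, -2048, 17, -49, 862, 293803, 0, 0, 0, 0, 0, 0⟩)))
    (.s3
    (.s1
    (.s2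
    (.leaf (.box ⟨2048, -2, -381, 8, -36, 1342, 816102, 0, 0, 0, 0, 0, 0⟩ ⟨0, 0, 0, 0, 0, 0, 676261, 0, 0, 0, 0, 0, 0⟩ ⟨0, 0, 0, 0, 0, 0, 676261, 0, 0, 0, 0, 0, 0⟩ ⟨0, 0, 0, 0, 0, 0, 577333, 0, 0, 0, 0, 0, 0⟩ ⟨0, 0, 0, 0, 0, 0, 577333, 0, 0, 0, 0, 0, 0⟩ ⟨2048, -3, -415, 12, -59, 1331, 503655, 0, 0, 0, 0, 0, 0⟩))
    (.leaf (.box ⟨2048, -2, -461, 9, -31, 1212, 777724, 0, 0, 0, 0, 0, 0⟩ ⟨0, 0, 0, 0, 0, 0, 644461, 0, 0, 0, 0, 0, 0⟩ ⟨0, 0, 0, 0, 0, 0, 644461, 0, 0, 0, 0, 0, 0⟩ ⟨0, 0, 0, 0, 0, 0, 550186, 0, 0, 0, 0, 0, 0⟩ ⟨0, 0, 0, 0, 0, 0, 550186, 0, 0, 0, 0, 0, 0⟩ ⟨2048, -3, -512, 13, -50, 1213, 479973, 0, 0, 0, 0, 0, 0⟩)))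
    (.s0
    (.leaf (.box ⟨1467, -2, -2048, 8, -28, 1167, 772730, 0, 0, 0, 0, 0, 0⟩ ⟨0, 0, 0, 0, 0, 0, 640317, 0, 0, 0, 0, 0, 0⟩ ⟨0, 0, 0, 0, 0, 0, 640317, 0, 0, 0, 0, 0, 0⟩ ⟨0, 0, 0, 0, 0, 0, 546645, 0, 0, 0, 0, 0, 0⟩ ⟨0, 0, 0, 0, 0, 0, 546645, 0, 0, 0, 0, 0, 0⟩ ⟨1460, -3, -2048, 12, -44, 1135, 476882, 0, 0, 0, 0, 0, 0⟩))
    (.s2
    (.leaf (.box ⟨2048, -1, -1918, 7, -44, 1693, 824416, 0, 0, 0, 0, 0, 0⟩ ⟨0, 0, 0, 0, 0, 0, 683149, 0, 0, 0, 0, 0, 0⟩ ⟨0, 0, 0, 0, 0, 0, 683149, 0, 0, 0, 0, 0, 0⟩ ⟨0, 0, 0, 0, 0, 0, 583212, 0, 0, 0, 0, 0, 0⟩ ⟨0, 0, 0, 0, 0, 0, 583212, 0, 0, 0, 0, 0, 0⟩ ⟨2048, -2, -1950, 11, -70, 1673, 508783, 0, 0, 0, 0, 0, 0⟩))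
    (.leaf (.box ⟨2034, -2, -2048, 9, -41, 1717, 788039, 0, 0, 0, 0, 0, 0⟩ ⟨0, 0, 0, 0, 0, 0, 653006, 0, 0, 0, 0, 0, 0⟩ ⟨0, 0, 0, 0, 0, 0, 653006, 0, 0, 0, 0, 0, 0⟩ ⟨0, 0, 0, 0, 0, 0, 557480, 0, 0, 0, 0, 0, 0⟩ ⟨0, 0, 0, 0, 0, 0, 557480, 0, 0, 0, 0, 0, 0⟩ ⟨2041, -3, -2048, 13, -63, 1650, 486335, 0, 0, 0, 0, 0, 0⟩)))))
    (.s2
    (.leaf (.box ⟨2048, -2, -1312, 11, -43, 1124, 555006, 0, 0, 0, 0, 0, 0⟩ ⟨0, 0, 0, 0, 0, 0, 445076, 0, 0, 0, 0, 0, 0⟩ ⟨0, 0, 0, 0, 0, 0, 445076, 0, 0, 0, 0, 0, 0⟩ ⟨0, 0, 0, 0, 0, 0, 371493, 0, 0, 0, 0, 0, 0⟩ ⟨0, 0, 0, 0, 0, 0, 371493, 0, 0, 0, 0, 0, 0⟩ ⟨2048, -3, -1135, 17, -69, 1044, 318789, 0, 0, 0, 0, 0, 0⟩))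
    (.leaf (.box ⟨2048, -3, -1392, 13, -38, 1096, 528157, 0, 0, 0, 0, 0, 0⟩ ⟨0, 0, 0, 0, 0, 0, 423550, 0, 0, 0, 0, 0, 0⟩ ⟨0, 0, 0, 0, 0, 0, 423550, 0, 0, 0, 0, 0, 0⟩ ⟨0, 0, 0, 0, 0, 0, 353529, 0, 0, 0, 0, 0, 0⟩ ⟨0, 0, 0, 0, 0, 0, 353529, 0, 0, 0, 0, 0, 0⟩ ⟨2048, -4, -1431, 20, -64, 1046, 303375, 0, 0, 0, 0, 0, 0⟩))))))
    (.s0
    (.leaf (.box ⟨2750, 3, -20, 6, -16, 531, 488165, 0, 0, 0, 0, 0, 0⟩ ⟨0, 0, 0, 0, 0, 0, 391392, 0, 0, 0, 0, 0, 0⟩ ⟨0, 0, 0, 0, 0, 0, 391392, 0, 0, 0, 0, 0, 0⟩ ⟨0, 0, 0, 0, 0, 0, 326639, 0, 0, 0, 0, 0, 0⟩ ⟨0, 0, 0, 0, 0, 0, 326639, 0, 0, 0, 0, 0, 0⟩ ⟨2048, 4, -63, 8, -21, 391, 280270, 0, 0, 0, 0, 0, 0⟩))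
    (.s1
    (.s3
    (.leaf (.box ⟨1803, -1, -2578, 6, -16, 708, 746790, 0, 0, 0, 0, 0, 0⟩ ⟨0, 0, 0, 0, 0, 0, 618803, 0, 0, 0, 0, 0, 0⟩ ⟨0, 0, 0, 0, 0, 0, 618803, 0, 0, 0, 0, 0, 0⟩ ⟨0, 0, 0, 0, 0, 0, 528267, 0, 0, 0, 0, 0, 0⟩ ⟨0, 0, 0, 0, 0, 0, 528267, 0, 0, 0, 0, 0, 0⟩ ⟨1361, -1, -2048, 9, -24, 659, 460842, 0, 0, 0, 0, 0, 0⟩))
    (.leaf (.box ⟨987, -1, -2048, 8, -23, 693, 510136, 0, 0, 0, 0, 0, 0⟩ ⟨0, 0, 0, 0, 0, 0, 409058, 0, 0, 0, 0, 0, 0⟩ ⟨0, 0, 0, 0, 0, 0, 409058, 0, 0, 0, 0, 0, 0⟩ ⟨0, 0, 0, 0, 0, 0, 341412, 0, 0, 0, 0, 0, 0⟩ ⟨0, 0, 0, 0, 0, 0, 341412, 0, 0, 0, 0, 0, 0⟩ ⟨988, -2, -2048, 13, -38, 666, 292963, 0, 0, 0, 0, 0, 0⟩)))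
    (.leaf (.box ⟨1572, -1, -2048, 7, -19, 576, 508661, 0, 0, 0, 0, 0, 0⟩ ⟨0, 0, 0, 0, 0, 0, 407865, 0, 0, 0, 0, 0, 0⟩ ⟨0, 0, 0, 0, 0, 0, 407865, 0, 0, 0, 0, 0, 0⟩ ⟨0, 0, 0, 0, 0, 0, 340410, 0, 0, 0, 0, 0, 0⟩ ⟨0, 0, 0, 0, 0, 0, 340410, 0, 0, 0, 0, 0, 0⟩ ⟨1477, -1, -2048, 11, -32, 559, 292100, 0, 0, 0, 0, 0, 0⟩)))))
    (.s0
    (.leaf (.box ⟨2423, 2, 1237, 6, -13, 372, 483158, 0, 0, 0, 0, 0, 0⟩ ⟨0, 0, 0, 0, 0, 0, 387447, 0, 0, 0, 0, 0, 0⟩ ⟨0, 0, 0, 0, 0, 0, 387447, 0, 0, 0, 0, 0, 0⟩ ⟨0, 0, 0, 0, 0, 0, 323385, 0, 0, 0, 0, 0, 0⟩ ⟨0, 0, 0, 0, 0, 0, 323385, 0, 0, 0, 0, 0, 0⟩ ⟨2048, 3, 1022, 9, -20, 320, 277502, 0, 0, 0, 0, 0, 0⟩))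
    (.leaf (.box ⟨3644, -2, -1141, 6, -10, 291, 500499, 0, 0, 0, 0, 0, 0⟩ ⟨0, 0, 0, 0, 0, 0, 401360, 0, 0, 0, 0, 0, 0⟩ ⟨0, 0, 0, 0, 0, 0, 401360, 0, 0, 0, 0, 0, 0⟩ ⟨0, 0, 0, 0, 0, 0, 335003, 0, 0, 0, 0, 0, 0⟩ ⟨0, 0, 0, 0, 0, 0, 335003, 0, 0, 0, 0, 0, 0⟩ ⟨2126, -2, -689, 6, -10, 168, 287474, 0, 0, 0, 0, 0, 0⟩))))

/-- A piece of the tree. -/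
noncomputable def tree34 : Tree LeafX :=
  .s1
    (.leaf (.box ⟨2048, 29, 1412, 117, -60, 545, 606243, 0, 0, 0, 0, 0, 0⟩ ⟨0, 0, 0, 0, 0, 0, 486150, 0, 0, 0, 0, 0, 0⟩ ⟨0, 0, 0, 0, 0, 0, 486150, 0, 0, 0, 0, 0, 0⟩ ⟨0, 0, 0, 0, 0, 0, 405770, 0, 0, 0, 0, 0, 0⟩ ⟨0, 0, 0, 0, 0, 0, 405770, 0, 0, 0, 0, 0, 0⟩ ⟨2048, 51, 1407, 209, -105, 545, 348198, 0, 0, 0, 0, 0, 0⟩))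
    (.s1
    (.leaf (.box ⟨2048, 23, 1692, 134, -100, 961, 582363, 0, 0, 0, 0, 0, 0⟩ ⟨0, 0, 0, 0, 0, 0, 467008, 0, 0, 0, 0, 0, 0⟩ ⟨0, 0, 0, 0, 0, 0, 467008, 0, 0, 0, 0, 0, 0⟩ ⟨0, 0, 0, 0, 0, 0, 389796, 0, 0, 0, 0, 0, 0⟩ ⟨0, 0, 0, 0, 0, 0, 389796, 0, 0, 0, 0, 0, 0⟩ ⟨2048, 40, 1656, 231, -172, 945, 334493, 0, 0, 0, 0, 0, 0⟩))
    (.s2
    (.leaf (.box ⟨2048, 22, 963, 135, -123, 1319, 613944, 0, 0, 0, 0, 0, 0⟩ ⟨0, 0, 0, 0, 0, 0, 492325, 0, 0, 0, 0, 0, 0⟩ ⟨0, 0, 0, 0, 0, 0, 492325, 0, 0, 0, 0, 0, 0⟩ ⟨0, 0, 0, 0, 0, 0, 410923, 0, 0, 0, 0, 0, 0⟩ ⟨0, 0, 0, 0, 0, 0, 410923, 0, 0, 0, 0, 0, 0⟩ ⟨2048, 31, 687, 187, -271, 1194, 352620, 0, 0, 0, 0, 0, 0⟩))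
    (.leaf (.box ⟨2048, 12, 1573, 112, -120, 1334, 564424, 0, 0, 0, 0, 0, 0⟩ ⟨0, 0, 0, 0, 0, 0, 452620, 0, 0, 0, 0, 0, 0⟩ ⟨0, 0, 0, 0, 0, 0, 452620, 0, 0, 0, 0, 0, 0⟩ ⟨0, 0, 0, 0, 0, 0, 377786, 0, 0, 0, 0, 0, 0⟩ ⟨0, 0, 0, 0, 0, 0, 377786, 0, 0, 0, 0, 0, 0⟩ ⟨2048, 15, 776, 140, -210, 1104, 324186, 0, 0, 0, 0, 0, 0⟩))))

/-- A piece of the tree. -/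
noncomputable def tree35 : Tree LeafX :=
  .s0
    (.s2
    (.s1
    (.s3
    (.leaf (.box ⟨2048, -1, 26, 9, -46, 1471, 889742, 0, 0, 0, 0, 0, 0⟩ ⟨0, 0, 0, 0, 0, 0, 737284, 0, 0, 0, 0, 0, 0⟩ ⟨0, 0, 0, 0, 0, 0, 737284, 0, 0, 0, 0, 0, 0⟩ ⟨0, 0, 0, 0, 0, 0, 629430, 0, 0, 0, 0, 0, 0⟩ ⟨0, 0, 0, 0, 0, 0, 629430, 0, 0, 0, 0, 0, 0⟩ ⟨2048, -1, -562, 13, -72, 1426, 549104, 0, 0, 0, 0, 0, 0⟩))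
    (.leaf (.box ⟨2048, -1, -453, 12, -70, 1556, 608269, 0, 0, 0, 0, 0, 0⟩ ⟨0, 0, 0, 0, 0, 0, 487810, 0, 0, 0, 0, 0, 0⟩ ⟨0, 0, 0, 0, 0, 0, 487810, 0, 0, 0, 0, 0, 0⟩ ⟨0, 0, 0, 0, 0, 0, 407175, 0, 0, 0, 0, 0, 0⟩ ⟨0, 0, 0, 0, 0, 0, 407175, 0, 0, 0, 0, 0, 0⟩ ⟨2048, -1, -482, 20, -123, 1572, 349416, 0, 0, 0, 0, 0, 0⟩)))
    (.s3
    (.s0
    (.s3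
    (.s2
    (.leaf (.box ⟨3365, 0, -3521, 6, -62, 3055, 1217483, 0, 0, 0, 0, 0, 0⟩ ⟨0, 0, 0, 0, 0, 0, 1041968, 0, 0, 0, 0, 0, 0⟩ ⟨0, 0, 0, 0, 0, 0, 1041968, 0, 0, 0, 0, 0, 0⟩ ⟨0, 0, 0, 0, 0, 0, 910681, 0, 0, 0, 0, 0, 0⟩ ⟨0, 0, 0, 0, 0, 0, 910681, 0, 0, 0, 0, 0, 0⟩ ⟨2083, 0, -2191, 6, -58, 1895, 808776, 0, 0, 0, 0, 0, 0⟩))
    (.leaf (.box ⟨2957, -1, -2122, 6, -57, 2664, 1148818, 0, 0, 0, 0, 0, 0⟩ ⟨0, 0, 0, 0, 0, 0, 983209, 0, 0, 0, 0, 0, 0⟩ ⟨0, 0, 0, 0, 0, 0, 983209, 0, 0, 0, 0, 0, 0⟩ ⟨0, 0, 0, 0, 0, 0, 859331, 0, 0, 0, 0, 0, 0⟩ ⟨0, 0, 0, 0, 0, 0, 859331, 0, 0, 0, 0, 0, 0⟩ ⟨2048, -1, -1490, 7, -59, 1847, 763175, 0, 0, 0, 0, 0, 0⟩)))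
    (.s2
    (.leaf (.box ⟨2477, 0, -3045, 6, -62, 2355, 935335, 0, 0, 0, 0, 0, 0⟩ ⟨0, 0, 0, 0, 0, 0, 775069, 0, 0, 0, 0, 0, 0⟩ ⟨0, 0, 0, 0, 0, 0, 775069, 0, 0, 0, 0, 0, 0⟩ ⟨0, 0, 0, 0, 0, 0, 661691, 0, 0, 0, 0, 0, 0⟩ ⟨0, 0, 0, 0, 0, 0, 661691, 0, 0, 0, 0, 0, 0⟩ ⟨1704, 0, -2048, 7, -67, 1575, 577249, 0, 0, 0, 0, 0, 0⟩))
    (.leaf (.box ⟨2135, -1, -1963, 6, -56, 2031, 882689, 0, 0, 0, 0, 0, 0⟩ ⟨0, 0, 0, 0, 0, 0, 731459, 0, 0, 0, 0, 0, 0⟩ ⟨0, 0, 0, 0, 0, 0, 731459, 0, 0, 0, 0, 0, 0⟩ ⟨0, 0, 0, 0, 0, 0, 624469, 0, 0, 0, 0, 0, 0⟩ ⟨0, 0, 0, 0, 0, 0, 624469, 0, 0, 0, 0, 0, 0⟩ ⟨2048, -1, -1916, 9, -87, 1945, 544783, 0, 0, 0, 0, 0, 0⟩))))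
    (.leaf (.box ⟨2048, 0, -1125, 7, -54, 1836, 898096, 0, 0, 0, 0, 0, 0⟩ ⟨0, 0, 0, 0, 0, 0, 744206, 0, 0, 0, 0, 0, 0⟩ ⟨0, 0, 0, 0, 0, 0, 744206, 0, 0, 0, 0, 0, 0⟩ ⟨0, 0, 0, 0, 0, 0, 635340, 0, 0, 0, 0, 0, 0⟩ ⟨0, 0, 0, 0, 0, 0, 635340, 0, 0, 0, 0, 0, 0⟩ ⟨2048, -1, -1148, 11, -88, 1849, 554259, 0, 0, 0, 0, 0, 0⟩)))
    (.s3
    (.leaf (.box ⟨2048, -1, -2014, 9, -57, 1614, 716746, 0, 0, 0, 0, 0, 0⟩ ⟨0, 0, 0, 0, 0, 0, 582424, 0, 0, 0, 0, 0, 0⟩ ⟨0, 0, 0, 0, 0, 0, 582424, 0, 0, 0, 0, 0, 0⟩ ⟨0, 0, 0, 0, 0, 0, 490502, 0, 0, 0, 0, 0, 0⟩ ⟨0, 0, 0, 0, 0, 0, 490502, 0, 0, 0, 0, 0, 0⟩ ⟨2048, -1, -2035, 15, -100, 1683, 423639, 0, 0, 0, 0, 0, 0⟩))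
    (.leaf (.box ⟨2048, -1, -1783, 11, -63, 1534, 603377, 0, 0, 0, 0, 0, 0⟩ ⟨0, 0, 0, 0, 0, 0, 483894, 0, 0, 0, 0, 0, 0⟩ ⟨0, 0, 0, 0, 0, 0, 483894, 0, 0, 0, 0, 0, 0⟩ ⟨0, 0, 0, 0, 0, 0, 403910, 0, 0, 0, 0, 0, 0⟩ ⟨0, 0, 0, 0, 0, 0, 403910, 0, 0, 0, 0, 0, 0⟩ ⟨1800, -1, -2048, 16, -105, 1456, 346616, 0, 0, 0, 0, 0, 0⟩)))))
    (.s3
    (.s1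
    (.leaf (.box ⟨2048, -2, 595, 14, -50, 1624, 815513, 0, 0, 0, 0, 0, 0⟩ ⟨0, 0, 0, 0, 0, 0, 675779, 0, 0, 0, 0, 0, 0⟩ ⟨0, 0, 0, 0, 0, 0, 675779, 0, 0, 0, 0, 0, 0⟩ ⟨0, 0, 0, 0, 0, 0, 576926, 0, 0, 0, 0, 0, 0⟩ ⟨0, 0, 0, 0, 0, 0, 576926, 0, 0, 0, 0, 0, 0⟩ ⟨2048, -3, 542, 21, -79, 1572, 503302, 0, 0, 0, 0, 0, 0⟩))
    (.leaf (.box ⟨2048, -2, -752, 12, -43, 1507, 806127, 0, 0, 0, 0, 0, 0⟩ ⟨0, 0, 0, 0, 0, 0, 667998, 0, 0, 0, 0, 0, 0⟩ ⟨0, 0, 0, 0, 0, 0, 667998, 0, 0, 0, 0, 0, 0⟩ ⟨0, 0, 0, 0, 0, 0, 570280, 0, 0, 0, 0, 0, 0⟩ ⟨0, 0, 0, 0, 0, 0, 570280, 0, 0, 0, 0, 0, 0⟩ ⟨2048, -3, -1259, 20, -76, 1652, 497503, 0, 0, 0, 0, 0, 0⟩)))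
    (.leaf (.box ⟨2048, -2, -1031, 17, -52, 1220, 551142, 0, 0, 0, 0, 0, 0⟩ ⟨0, 0, 0, 0, 0, 0, 442001, 0, 0, 0, 0, 0, 0⟩ ⟨0, 0, 0, 0, 0, 0, 442001, 0, 0, 0, 0, 0, 0⟩ ⟨0, 0, 0, 0, 0, 0, 368940, 0, 0, 0, 0, 0, 0⟩ ⟨0, 0, 0, 0, 0, 0, 368940, 0, 0, 0, 0, 0, 0⟩ ⟨2048, -4, -1077, 29, -89, 1195, 316606, 0, 0, 0, 0, 0, 0⟩))))
    (.s2
    (.leaf (.box ⟨2048, 0, 74, 17, -66, 1342, 626823, 0, 0, 0, 0, 0, 0⟩ ⟨0, 0, 0, 0, 0, 0, 502651, 0, 0, 0, 0, 0, 0⟩ ⟨0, 0, 0, 0, 0, 0, 502651, 0, 0, 0, 0, 0, 0⟩ ⟨0, 0, 0, 0, 0, 0, 419541, 0, 0, 0, 0, 0, 0⟩ ⟨0, 0, 0, 0, 0, 0, 419541, 0, 0, 0, 0, 0, 0⟩ ⟨2048, 0, -394, 31, -122, 1419, 360014, 0, 0, 0, 0, 0, 0⟩))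
    (.leaf (.box ⟨2048, -1, 262, 19, -62, 1247, 582396, 0, 0, 0, 0, 0, 0⟩ ⟨0, 0, 0, 0, 0, 0, 467029, 0, 0, 0, 0, 0, 0⟩ ⟨0, 0, 0, 0, 0, 0, 467029, 0, 0, 0, 0, 0, 0⟩ ⟨0, 0, 0, 0, 0, 0, 389811, 0, 0, 0, 0, 0, 0⟩ ⟨0, 0, 0, 0, 0, 0, 389811, 0, 0, 0, 0, 0, 0⟩ ⟨2048, -3, -226, 38, -125, 1449, 334504, 0, 0, 0, 0, 0, 0⟩)))

/-- A piece of the tree. -/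
noncomputable def tree36 : Tree LeafX :=
  .s2
    (.s3
    (.s2
    (.s0
    (.s3
    (.s2
    (.leaf (.box ⟨3776, 0, -7401, 6, -60, 3257, 1253111, 0, 0, 0, 0, 0, 0⟩ ⟨0, 0, 0, 0, 0, 0, 1072447, 0, 0, 0, 0, 0, 0⟩ ⟨0, 0, 0, 0, 0, 0, 1072447, 0, 0, 0, 0, 0, 0⟩ ⟨0, 0, 0, 0, 0, 0, 937312, 0, 0, 0, 0, 0, 0⟩ ⟨0, 0, 0, 0, 0, 0, 937312, 0, 0, 0, 0, 0, 0⟩ ⟨2437, 0, -4795, 6, -59, 2108, 832421, 0, 0, 0, 0, 0, 0⟩))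
    (.leaf (.box ⟨3662, 0, -6658, 6, -60, 3148, 1212329, 0, 0, 0, 0, 0, 0⟩ ⟨0, 0, 0, 0, 0, 0, 1037551, 0, 0, 0, 0, 0, 0⟩ ⟨0, 0, 0, 0, 0, 0, 1037551, 0, 0, 0, 0, 0, 0⟩ ⟨0, 0, 0, 0, 0, 0, 906818, 0, 0, 0, 0, 0, 0⟩ ⟨0, 0, 0, 0, 0, 0, 906818, 0, 0, 0, 0, 0, 0⟩ ⟨3230, 0, -6500, 6, -86, 2968, 805343, 0, 0, 0, 0, 0, 0⟩)))
    (.leaf (.box ⟨3589, 0, -7237, 6, -78, 3156, 931303, 0, 0, 0, 0, 0, 0⟩ ⟨0, 0, 0, 0, 0, 0, 771718, 0, 0, 0, 0, 0, 0⟩ ⟨0, 0, 0, 0, 0, 0, 771718, 0, 0, 0, 0, 0, 0⟩ ⟨0, 0, 0, 0, 0, 0, 658824, 0, 0, 0, 0, 0, 0⟩ ⟨0, 0, 0, 0, 0, 0, 658824, 0, 0, 0, 0, 0, 0⟩ ⟨1906, 0, -3880, 6, -68, 1686, 574744, 0, 0, 0, 0, 0, 0⟩)))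
    (.s3
    (.leaf (.box ⟨3126, 0, -4625, 6, -60, 2984, 1226785, 0, 0, 0, 0, 0, 0⟩ ⟨0, 0, 0, 0, 0, 0, 1049928, 0, 0, 0, 0, 0, 0⟩ ⟨0, 0, 0, 0, 0, 0, 1049928, 0, 0, 0, 0, 0, 0⟩ ⟨0, 0, 0, 0, 0, 0, 917638, 0, 0, 0, 0, 0, 0⟩ ⟨0, 0, 0, 0, 0, 0, 917638, 0, 0, 0, 0, 0, 0⟩ ⟨2329, 0, -3478, 6, -68, 2237, 814954, 0, 0, 0, 0, 0, 0⟩))
    (.leaf (.box ⟨2366, 0, -3971, 6, -62, 2370, 942472, 0, 0, 0, 0, 0, 0⟩ ⟨0, 0, 0, 0, 0, 0, 780982, 0, 0, 0, 0, 0, 0⟩ ⟨0, 0, 0, 0, 0, 0, 780982, 0, 0, 0, 0, 0, 0⟩ ⟨0, 0, 0, 0, 0, 0, 666738, 0, 0, 0, 0, 0, 0⟩ ⟨0, 0, 0, 0, 0, 0, 666738, 0, 0, 0, 0, 0, 0⟩ ⟨1711, 0, -2905, 6, -73, 1725, 581652, 0, 0, 0, 0, 0, 0⟩))))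
    (.s3
    (.s0
    (.leaf (.box ⟨3763, -1, -5601, 6, -60, 2994, 1140885, 0, 0, 0, 0, 0, 0⟩ ⟨0, 0, 0, 0, 0, 0, 976416, 0, 0, 0, 0, 0, 0⟩ ⟨0, 0, 0, 0, 0, 0, 976416, 0, 0, 0, 0, 0, 0⟩ ⟨0, 0, 0, 0, 0, 0, 853392, 0, 0, 0, 0, 0, 0⟩ ⟨0, 0, 0, 0, 0, 0, 853392, 0, 0, 0, 0, 0, 0⟩ ⟨2239, -1, -3367, 6, -54, 1788, 757899, 0, 0, 0, 0, 0, 0⟩))
    (.leaf (.box ⟨2281, -1, -2758, 6, -46, 2161, 1157842, 0, 0, 0, 0, 0, 0⟩ ⟨0, 0, 0, 0, 0, 0, 990934, 0, 0, 0, 0, 0, 0⟩ ⟨0, 0, 0, 0, 0, 0, 990934, 0, 0, 0, 0, 0, 0⟩ ⟨0, 0, 0, 0, 0, 0, 866084, 0, 0, 0, 0, 0, 0⟩ ⟨0, 0, 0, 0, 0, 0, 866084, 0, 0, 0, 0, 0, 0⟩ ⟨1852, -1, -2178, 6, -54, 1692, 769174, 0, 0, 0, 0, 0, 0⟩)))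
    (.leaf (.box ⟨1989, -1, -2869, 6, -40, 1488, 876551, 0, 0, 0, 0, 0, 0⟩ ⟨0, 0, 0, 0, 0, 0, 726366, 0, 0, 0, 0, 0, 0⟩ ⟨0, 0, 0, 0, 0, 0, 726366, 0, 0, 0, 0, 0, 0⟩ ⟨0, 0, 0, 0, 0, 0, 620118, 0, 0, 0, 0, 0, 0⟩ ⟨0, 0, 0, 0, 0, 0, 620118, 0, 0, 0, 0, 0, 0⟩ ⟨1397, -1, -2048, 7, -46, 1050, 540985, 0, 0, 0, 0, 0, 0⟩))))
    (.s2
    (.s0
    (.s2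
    (.leaf (.box ⟨1954, 0, -5185, 6, -72, 2083, 657577, 0, 0, 0, 0, 0, 0⟩ ⟨0, 0, 0, 0, 0, 0, 527298, 0, 0, 0, 0, 0, 0⟩ ⟨0, 0, 0, 0, 0, 0, 527298, 0, 0, 0, 0, 0, 0⟩ ⟨0, 0, 0, 0, 0, 0, 440104, 0, 0, 0, 0, 0, 0⟩ ⟨0, 0, 0, 0, 0, 0, 440104, 0, 0, 0, 0, 0, 0⟩ ⟨1179, 0, -3174, 6, -77, 1272, 377655, 0, 0, 0, 0, 0, 0⟩))
    (.leaf (.box ⟨2076, 0, -5146, 6, -78, 2179, 636302, 0, 0, 0, 0, 0, 0⟩ ⟨0, 0, 0, 0, 0, 0, 510253, 0, 0, 0, 0, 0, 0⟩ ⟨0, 0, 0, 0, 0, 0, 510253, 0, 0, 0, 0, 0, 0⟩ ⟨0, 0, 0, 0, 0, 0, 425887, 0, 0, 0, 0, 0, 0⟩ ⟨0, 0, 0, 0, 0, 0, 425887, 0, 0, 0, 0, 0, 0⟩ ⟨1158, 0, -2917, 6, -77, 1227, 365460, 0, 0, 0, 0, 0, 0⟩)))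
    (.leaf (.box ⟨1533, 0, -2957, 6, -60, 1600, 643977, 0, 0, 0, 0, 0, 0⟩ ⟨0, 0, 0, 0, 0, 0, 516418, 0, 0, 0, 0, 0, 0⟩ ⟨0, 0, 0, 0, 0, 0, 516418, 0, 0, 0, 0, 0, 0⟩ ⟨0, 0, 0, 0, 0, 0, 431038, 0, 0, 0, 0, 0, 0⟩ ⟨0, 0, 0, 0, 0, 0, 431038, 0, 0, 0, 0, 0, 0⟩ ⟨1009, 0, -2048, 6, -70, 1067, 369884, 0, 0, 0, 0, 0, 0⟩)))
    (.s3
    (.leaf (.box ⟨1626, -1, -2130, 6, -39, 1178, 711727, 0, 0, 0, 0, 0, 0⟩ ⟨0, 0, 0, 0, 0, 0, 578338, 0, 0, 0, 0, 0, 0⟩ ⟨0, 0, 0, 0, 0, 0, 578338, 0, 0, 0, 0, 0, 0⟩ ⟨0, 0, 0, 0, 0, 0, 487056, 0, 0, 0, 0, 0, 0⟩ ⟨0, 0, 0, 0, 0, 0, 487056, 0, 0, 0, 0, 0, 0⟩ ⟨1267, -1, -2048, 8, -54, 979, 420660, 0, 0, 0, 0, 0, 0⟩))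
    (.leaf (.box ⟨1368, -1, -2048, 6, -41, 1059, 599121, 0, 0, 0, 0, 0, 0⟩ ⟨0, 0, 0, 0, 0, 0, 480471, 0, 0, 0, 0, 0, 0⟩ ⟨0, 0, 0, 0, 0, 0, 480471, 0, 0, 0, 0, 0, 0⟩ ⟨0, 0, 0, 0, 0, 0, 401048, 0, 0, 0, 0, 0, 0⟩ ⟨0, 0, 0, 0, 0, 0, 401048, 0, 0, 0, 0, 0, 0⟩ ⟨1310, -1, -2048, 10, -70, 1037, 344157, 0, 0, 0, 0, 0, 0⟩)))))
    (.s3
    (.s3
    (.leaf (.box ⟨2048, -1, -1932, 8, -29, 1427, 1038571, 0, 0, 0, 0, 0, 0⟩ ⟨0, 0, 0, 0, 0, 0, 888857, 0, 0, 0, 0, 0, 0⟩ ⟨0, 0, 0, 0, 0, 0, 888857, 0, 0, 0, 0, 0, 0⟩ ⟨0, 0, 0, 0, 0, 0, 776868, 0, 0, 0, 0, 0, 0⟩ ⟨0, 0, 0, 0, 0, 0, 776868, 0, 0, 0, 0, 0, 0⟩ ⟨2048, -2, -1960, 12, -44, 1420, 689940, 0, 0, 0, 0, 0, 0⟩))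
    (.leaf (.box ⟨1769, -2, -2048, 10, -35, 1327, 798013, 0, 0, 0, 0, 0, 0⟩ ⟨0, 0, 0, 0, 0, 0, 661295, 0, 0, 0, 0, 0, 0⟩ ⟨0, 0, 0, 0, 0, 0, 661295, 0, 0, 0, 0, 0, 0⟩ ⟨0, 0, 0, 0, 0, 0, 564570, 0, 0, 0, 0, 0, 0⟩ ⟨0, 0, 0, 0, 0, 0, 564570, 0, 0, 0, 0, 0, 0⟩ ⟨1720, -3, -2048, 15, -55, 1286, 492530, 0, 0, 0, 0, 0, 0⟩)))
    (.leaf (.box ⟨1425, -2, -2048, 11, -43, 1137, 545363, 0, 0, 0, 0, 0, 0⟩ ⟨0, 0, 0, 0, 0, 0, 437359, 0, 0, 0, 0, 0, 0⟩ ⟨0, 0, 0, 0, 0, 0, 437359, 0, 0, 0, 0, 0, 0⟩ ⟨0, 0, 0, 0, 0, 0, 365062, 0, 0, 0, 0, 0, 0⟩ ⟨0, 0, 0, 0, 0, 0, 365062, 0, 0, 0, 0, 0, 0⟩ ⟨1455, -3, -2048, 19, -72, 1089, 313276, 0, 0, 0, 0, 0, 0⟩)))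

theorem parts1 :
    (runPathS conQ supQ (fun n Qs i d x => leafR conQ seg n Qs i d x) [.d0 false, .d1 false, .d2 false, .d0 false, .d1 false, .d2 false, .d0 true, .d1 true, .d0 true, .d1 true, .d0 false, .d1 true, .d2 false] tree20 0 0 0
      (joinS (lay.B * lay.size) rootQ) = true) ∧
    (runPathS conQ supQ (fun n Qs i d x => leafR conQ seg n Qs i d x) [.d0 false, .d1 false, .d2 false, .d0 false, .d1 false, .d2 false, .d0 true, .d1 true, .d0 true, .d1 true, .d0 false, .d1 true, .d2 true] tree21 0 0 0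
      (joinS (lay.B * lay.size) rootQ) = true) ∧
    (runPathS conQ supQ (fun n Qs i d x => leafR conQ seg n Qs i d x) [.d0 false, .d1 false, .d2 false, .d0 false, .d1 false, .d2 false, .d0 true, .d1 true, .d0 true, .d1 true, .d0 true] tree22 0 0 0
      (joinS (lay.B * lay.size) rootQ) = true) ∧
    (runPathS conQ supQ (fun n Qs i d x => leafR conQ seg n Qs i d x) [.d0 false, .d1 false, .d2 false, .d0 false, .d1 false, .d2 true, .d0 false] tree23 0 0 0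
      (joinS (lay.B * lay.size) rootQ) = true) ∧
    (runPathS conQ supQ (fun n Qs i d x => leafR conQ seg n Qs i d x) [.d0 false, .d1 false, .d2 false, .d0 false, .d1 false, .d2 true, .d0 true] tree24 0 0 0
      (joinS (lay.B * lay.size) rootQ) = true) ∧
    (runPathS conQ supQ (fun n Qs i d x => leafR conQ seg n Qs i d x) [.d0 false, .d1 false, .d2 false, .d0 false, .d1 true, .d2 false, .d0 false] tree25 0 0 0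
      (joinS (lay.B * lay.size) rootQ) = true) ∧
    (runPathS conQ supQ (fun n Qs i d x => leafR conQ seg n Qs i d x) [.d0 false, .d1 false, .d2 false, .d0 false, .d1 true, .d2 false, .d0 true, .d0 false] tree26 0 0 0
      (joinS (lay.B * lay.size) rootQ) = true) ∧
    (runPathS conQ supQ (fun n Qs i d x => leafR conQ seg n Qs i d x) [.d0 false, .d1 false, .d2 false, .d0 false, .d1 true, .d2 false, .d0 true, .d0 true, .d1 false, .d1 false, .d0 false, .d1 false] tree27 0 0 0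
      (joinS (lay.B * lay.size) rootQ) = true) ∧
    (runPathS conQ supQ (fun n Qs i d x => leafR conQ seg n Qs i d x) [.d0 false, .d1 false, .d2 false, .d0 false, .d1 true, .d2 false, .d0 true, .d0 true, .d1 false, .d1 false, .d0 false, .d1 true] tree28 0 0 0
      (joinS (lay.B * lay.size) rootQ) = true) ∧
    (runPathS conQ supQ (fun n Qs i d x => leafR conQ seg n Qs i d x) [.d0 false, .d1 false, .d2 false, .d0 false, .d1 true, .d2 false, .d0 true, .d0 true, .d1 false, .d1 false, .d0 true, .d1 false] tree29 0 0 0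
      (joinS (lay.B * lay.size) rootQ) = true) ∧
    (runPathS conQ supQ (fun n Qs i d x => leafR conQ seg n Qs i d x) [.d0 false, .d1 false, .d2 false, .d0 false, .d1 true, .d2 false, .d0 true, .d0 true, .d1 false, .d1 false, .d0 true, .d1 true] tree30 0 0 0
      (joinS (lay.B * lay.size) rootQ) = true) ∧
    (runPathS conQ supQ (fun n Qs i d x => leafR conQ seg n Qs i d x) [.d0 false, .d1 false, .d2 false, .d0 false, .d1 true, .d2 false, .d0 true, .d0 true, .d1 false, .d1 true] tree31 0 0 0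
      (joinS (lay.B * lay.size) rootQ) = true) ∧
    (runPathS conQ supQ (fun n Qs i d x => leafR conQ seg n Qs i d x) [.d0 false, .d1 false, .d2 false, .d0 false, .d1 true, .d2 false, .d0 true, .d0 true, .d1 true] tree32 0 0 0
      (joinS (lay.B * lay.size) rootQ) = true) ∧
    (runPathS conQ supQ (fun n Qs i d x => leafR conQ seg n Qs i d x) [.d0 false, .d1 false, .d2 false, .d0 false, .d1 true, .d2 true] tree33 0 0 0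
      (joinS (lay.B * lay.size) rootQ) = true) ∧
    (runPathS conQ supQ (fun n Qs i d x => leafR conQ seg n Qs i d x) [.d0 false, .d1 false, .d2 false, .d0 true, .d1 false] tree34 0 0 0
      (joinS (lay.B * lay.size) rootQ) = true) ∧
    (runPathS conQ supQ (fun n Qs i d x => leafR conQ seg n Qs i d x) [.d0 false, .d1 false, .d2 false, .d0 true, .d1 true, .d0 false, .d1 false, .d0 false, .d1 false] tree35 0 0 0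
      (joinS (lay.B * lay.size) rootQ) = true) ∧
    (runPathS conQ supQ (fun n Qs i d x => leafR conQ seg n Qs i d x) [.d0 false, .d1 false, .d2 false, .d0 true, .d1 true, .d0 false, .d1 false, .d0 false, .d1 true, .d0 false, .d1 false] tree36 0 0 0
      (joinS (lay.B * lay.size) rootQ) = true) :=
  ⟨by decide +kernel,
  by decide +kernel,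
  by decide +kernel,
  by decide +kernel,
  by decide +kernel,
  by decide +kernel,
  by decide +kernel,
  by decide +kernel,
  by decide +kernel,
  by decide +kernel,
  by decide +kernel,
  by decide +kernel,
  by decide +kernel,
  by decide +kernel,
  by decide +kernel,
  by decide +kernel,
  by decide +kernel⟩

end Vale.Agent.P098.Six.S1
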