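import Vale.Agent.P098.Six.S1.Root

/-!
# P098, six dimensions: checked pieces of the tree
-/

namespace Vale.Agent.P098.Six.S1

/-- A piece of the tree. -/
noncomputable def tree69 : Tree LeafX :=
  .s2
    (.s0
    (.leaf (.box ⟨843, -5, -2823, 6, -15, 555, 637901, 0, 0, 0, 0, 0, 0⟩ ⟨0, 0, 0, 0, 0, 0, 511626, 0, 0, 0, 0, 0, 0⟩ ⟨0, 0, 0, 0, 0, 0, 511626, 0, 0, 0, 0, 0, 0⟩ ⟨0, 0, 0, 0, 0, 0, 427082, 0, 0, 0, 0, 0, 0⟩ ⟨0, 0, 0, 0, 0, 0, 427082, 0, 0, 0, 0, 0, 0⟩ ⟨630, -6, -2048, 7, -19, 399, 366517, 0, 0, 0, 0, 0, 0⟩))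
    (.s3
    (.leaf (.box ⟨1216, -4, -3871, 6, -19, 924, 947409, 0, 0, 0, 0, 0, 0⟩ ⟨0, 0, 0, 0, 0, 0, 785213, 0, 0, 0, 0, 0, 0⟩ ⟨0, 0, 0, 0, 0, 0, 785213, 0, 0, 0, 0, 0, 0⟩ ⟨0, 0, 0, 0, 0, 0, 670434, 0, 0, 0, 0, 0, 0⟩ ⟨0, 0, 0, 0, 0, 0, 670434, 0, 0, 0, 0, 0, 0⟩ ⟨782, -4, -2553, 6, -19, 553, 584931, 0, 0, 0, 0, 0, 0⟩))
    (.leaf (.box ⟨831, -4, -2877, 6, -19, 657, 651267, 0, 0, 0, 0, 0, 0⟩ ⟨0, 0, 0, 0, 0, 0, 522712, 0, 0, 0, 0, 0, 0⟩ ⟨0, 0, 0, 0, 0, 0, 522712, 0, 0, 0, 0, 0, 0⟩ ⟨0, 0, 0, 0, 0, 0, 436542, 0, 0, 0, 0, 0, 0⟩ ⟨0, 0, 0, 0, 0, 0, 436542, 0, 0, 0, 0, 0, 0⟩ ⟨616, -4, -2048, 7, -23, 461, 374761, 0, 0, 0, 0, 0, 0⟩))))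
    (.s0
    (.leaf (.box ⟨799, -8, -2760, 6, -16, 499, 596719, 0, 0, 0, 0, 0, 0⟩ ⟨0, 0, 0, 0, 0, 0, 478637, 0, 0, 0, 0, 0, 0⟩ ⟨0, 0, 0, 0, 0, 0, 478637, 0, 0, 0, 0, 0, 0⟩ ⟨0, 0, 0, 0, 0, 0, 399567, 0, 0, 0, 0, 0, 0⟩ ⟨0, 0, 0, 0, 0, 0, 399567, 0, 0, 0, 0, 0, 0⟩ ⟨641, -12, -2048, 9, -20, 365, 342918, 0, 0, 0, 0, 0, 0⟩))
    (.s1
    (.s2
    (.leaf (.box ⟨891, -5, -3596, 6, -29, 842, 632353, 0, 0, 0, 0, 0, 0⟩ ⟨0, 0, 0, 0, 0, 0, 507183, 0, 0, 0, 0, 0, 0⟩ ⟨0, 0, 0, 0, 0, 0, 507183, 0, 0, 0, 0, 0, 0⟩ ⟨0, 0, 0, 0, 0, 0, 423378, 0, 0, 0, 0, 0, 0⟩ ⟨0, 0, 0, 0, 0, 0, 423378, 0, 0, 0, 0, 0, 0⟩ ⟨525, -5, -2100, 6, -29, 475, 363340, 0, 0, 0, 0, 0, 0⟩))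
    (.leaf (.box ⟨847, -6, -3524, 6, -29, 781, 615357, 0, 0, 0, 0, 0, 0⟩ ⟨0, 0, 0, 0, 0, 0, 493568, 0, 0, 0, 0, 0, 0⟩ ⟨0, 0, 0, 0, 0, 0, 493568, 0, 0, 0, 0, 0, 0⟩ ⟨0, 0, 0, 0, 0, 0, 412022, 0, 0, 0, 0, 0, 0⟩ ⟨0, 0, 0, 0, 0, 0, 412022, 0, 0, 0, 0, 0, 0⟩ ⟨524, -7, -2048, 7, -28, 448, 353601, 0, 0, 0, 0, 0, 0⟩)))
    (.leaf (.box ⟨931, -7, -3764, 6, -25, 754, 607414, 0, 0, 0, 0, 0, 0⟩ ⟨0, 0, 0, 0, 0, 0, 487223, 0, 0, 0, 0, 0, 0⟩ ⟨0, 0, 0, 0, 0, 0, 487223, 0, 0, 0, 0, 0, 0⟩ ⟨0, 0, 0, 0, 0, 0, 406740, 0, 0, 0, 0, 0, 0⟩ ⟨0, 0, 0, 0, 0, 0, 406740, 0, 0, 0, 0, 0, 0⟩ ⟨544, -8, -2048, 7, -23, 405, 349076, 0, 0, 0, 0, 0, 0⟩))))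

/-- A piece of the tree. -/
noncomputable def tree70 : Tree LeafX :=
  .s0
    (.leaf (.box ⟨2048, -69, -1972, 15, -3, 263, 537996, 0, 0, 0, 0, 0, 0⟩ ⟨0, 0, 0, 0, 0, 0, 431584, 0, 0, 0, 0, 0, 0⟩ ⟨0, 0, 0, 0, 0, 0, 431584, 0, 0, 0, 0, 0, 0⟩ ⟨0, 0, 0, 0, 0, 0, 360315, 0, 0, 0, 0, 0, 0⟩ ⟨0, 0, 0, 0, 0, 0, 360315, 0, 0, 0, 0, 0, 0⟩ ⟨2048, -122, -1989, 26, -5, 255, 309248, 0, 0, 0, 0, 0, 0⟩))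
    (.s0
    (.leaf (.box ⟨944, -47, -2048, 14, -2, 253, 555398, 0, 0, 0, 0, 0, 0⟩ ⟨0, 0, 0, 0, 0, 0, 445584, 0, 0, 0, 0, 0, 0⟩ ⟨0, 0, 0, 0, 0, 0, 445584, 0, 0, 0, 0, 0, 0⟩ ⟨0, 0, 0, 0, 0, 0, 372026, 0, 0, 0, 0, 0, 0⟩ ⟨0, 0, 0, 0, 0, 0, 372026, 0, 0, 0, 0, 0, 0⟩ ⟨966, -83, -2048, 25, -3, 246, 319313, 0, 0, 0, 0, 0, 0⟩))
    (.leaf (.box ⟨719, -28, -2048, 13, -6, 331, 569216, 0, 0, 0, 0, 0, 0⟩ ⟨0, 0, 0, 0, 0, 0, 456692, 0, 0, 0, 0, 0, 0⟩ ⟨0, 0, 0, 0, 0, 0, 456692, 0, 0, 0, 0, 0, 0⟩ ⟨0, 0, 0, 0, 0, 0, 381313, 0, 0, 0, 0, 0, 0⟩ ⟨0, 0, 0, 0, 0, 0, 381313, 0, 0, 0, 0, 0, 0⟩ ⟨773, -55, -2048, 26, -21, 325, 327292, 0, 0, 0, 0, 0, 0⟩)))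

/-- A piece of the tree. -/
noncomputable def tree71 : Tree LeafX :=
  .s0
    (.s3
    (.s1
    (.s3
    (.s2
    (.leaf (.box ⟨1199, -1, -3093, 6, -32, 1468, 1305852, 0, 0, 0, 0, 0, 0⟩ ⟨0, 0, 0, 0, 0, 0, 1117697, 0, 0, 0, 0, 0, 0⟩ ⟨0, 0, 0, 0, 0, 0, 1117697, 0, 0, 0, 0, 0, 0⟩ ⟨0, 0, 0, 0, 0, 0, 976935, 0, 0, 0, 0, 0, 0⟩ ⟨0, 0, 0, 0, 0, 0, 976935, 0, 0, 0, 0, 0, 0⟩ ⟨821, -1, -2109, 6, -33, 996, 867661, 0, 0, 0, 0, 0, 0⟩))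
    (.leaf (.box ⟨1417, -2, -3260, 6, -35, 1418, 1239508, 0, 0, 0, 0, 0, 0⟩ ⟨0, 0, 0, 0, 0, 0, 1060973, 0, 0, 0, 0, 0, 0⟩ ⟨0, 0, 0, 0, 0, 0, 1060973, 0, 0, 0, 0, 0, 0⟩ ⟨0, 0, 0, 0, 0, 0, 927393, 0, 0, 0, 0, 0, 0⟩ ⟨0, 0, 0, 0, 0, 0, 927393, 0, 0, 0, 0, 0, 0⟩ ⟨863, -2, -2192, 6, -31, 843, 823688, 0, 0, 0, 0, 0, 0⟩)))
    (.leaf (.box ⟨946, -1, -2548, 6, -30, 985, 954460, 0, 0, 0, 0, 0, 0⟩ ⟨0, 0, 0, 0, 0, 0, 791234, 0, 0, 0, 0, 0, 0⟩ ⟨0, 0, 0, 0, 0, 0, 791234, 0, 0, 0, 0, 0, 0⟩ ⟨0, 0, 0, 0, 0, 0, 675683, 0, 0, 0, 0, 0, 0⟩ ⟨0, 0, 0, 0, 0, 0, 675683, 0, 0, 0, 0, 0, 0⟩ ⟨761, -2, -2048, 9, -39, 785, 589580, 0, 0, 0, 0, 0, 0⟩)))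
    (.s2
    (.s3
    (.leaf (.box ⟨1258, -1, -3458, 6, -28, 1359, 1287116, 0, 0, 0, 0, 0, 0⟩ ⟨0, 0, 0, 0, 0, 0, 1101695, 0, 0, 0, 0, 0, 0⟩ ⟨0, 0, 0, 0, 0, 0, 1101695, 0, 0, 0, 0, 0, 0⟩ ⟨0, 0, 0, 0, 0, 0, 962970, 0, 0, 0, 0, 0, 0⟩ ⟨0, 0, 0, 0, 0, 0, 962970, 0, 0, 0, 0, 0, 0⟩ ⟨734, -1, -2494, 6, -29, 922, 855274, 0, 0, 0, 0, 0, 0⟩))
    (.leaf (.box ⟨1036, -1, -2931, 6, -29, 1106, 990722, 0, 0, 0, 0, 0, 0⟩ ⟨0, 0, 0, 0, 0, 0, 821238, 0, 0, 0, 0, 0, 0⟩ ⟨0, 0, 0, 0, 0, 0, 821238, 0, 0, 0, 0, 0, 0⟩ ⟨0, 0, 0, 0, 0, 0, 701270, 0, 0, 0, 0, 0, 0⟩ ⟨0, 0, 0, 0, 0, 0, 701270, 0, 0, 0, 0, 0, 0⟩ ⟨734, -2, -2048, 7, -33, 767, 611885, 0, 0, 0, 0, 0, 0⟩)))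
    (.s0
    (.s3
    (.leaf (.box ⟨1847, -3, -6397, 6, -47, 2109, 1218514, 0, 0, 0, 0, 0, 0⟩ ⟨1427, -3, -4908, 6, -42, 1615, 1045941, 0, 0, 0, 0, 0, 0⟩ ⟨1427, -3, -4908, 6, -42, 1615, 1045941, 0, 0, 0, 0, 0, 0⟩ ⟨1505, -3, -5132, 6, -50, 1686, 912793, 0, 0, 0, 0, 0, 0⟩ ⟨1505, -3, -5132, 6, -50, 1686, 912793, 0, 0, 0, 0, 0, 0⟩ ⟨1192, -3, -4040, 6, -45, 1325, 809815, 0, 0, 0, 0, 0, 0⟩))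
    (.leaf (.box ⟨1310, -3, -4693, 6, -43, 1487, 938894, 0, 0, 0, 0, 0, 0⟩ ⟨0, 0, 0, 0, 0, 0, 778415, 0, 0, 0, 0, 0, 0⟩ ⟨0, 0, 0, 0, 0, 0, 778415, 0, 0, 0, 0, 0, 0⟩ ⟨0, 0, 0, 0, 0, 0, 664787, 0, 0, 0, 0, 0, 0⟩ ⟨0, 0, 0, 0, 0, 0, 664787, 0, 0, 0, 0, 0, 0⟩ ⟨907, -3, -3195, 6, -46, 1002, 580106, 0, 0, 0, 0, 0, 0⟩)))
    (.leaf (.box ⟨1237, -2, -3906, 6, -45, 1468, 963519, 0, 0, 0, 0, 0, 0⟩ ⟨0, 0, 0, 0, 0, 0, 798570, 0, 0, 0, 0, 0, 0⟩ ⟨0, 0, 0, 0, 0, 0, 798570, 0, 0, 0, 0, 0, 0⟩ ⟨0, 0, 0, 0, 0, 0, 681842, 0, 0, 0, 0, 0, 0⟩ ⟨0, 0, 0, 0, 0, 0, 681842, 0, 0, 0, 0, 0, 0⟩ ⟨880, -2, -2706, 6, -50, 1010, 594886, 0, 0, 0, 0, 0, 0⟩)))))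
    (.s2
    (.s1
    (.leaf (.box ⟨777, -1, -2048, 7, -35, 870, 687449, 0, 0, 0, 0, 0, 0⟩ ⟨0, 0, 0, 0, 0, 0, 551510, 0, 0, 0, 0, 0, 0⟩ ⟨0, 0, 0, 0, 0, 0, 551510, 0, 0, 0, 0, 0, 0⟩ ⟨0, 0, 0, 0, 0, 0, 460457, 0, 0, 0, 0, 0, 0⟩ ⟨0, 0, 0, 0, 0, 0, 460457, 0, 0, 0, 0, 0, 0⟩ ⟨800, -1, -2048, 11, -60, 858, 395208, 0, 0, 0, 0, 0, 0⟩))
    (.leaf (.box ⟨757, -1, -2120, 6, -29, 757, 678243, 0, 0, 0, 0, 0, 0⟩ ⟨0, 0, 0, 0, 0, 0, 544202, 0, 0, 0, 0, 0, 0⟩ ⟨0, 0, 0, 0, 0, 0, 544202, 0, 0, 0, 0, 0, 0⟩ ⟨0, 0, 0, 0, 0, 0, 454398, 0, 0, 0, 0, 0, 0⟩ ⟨0, 0, 0, 0, 0, 0, 454398, 0, 0, 0, 0, 0, 0⟩ ⟨753, -2, -2048, 10, -47, 722, 390035, 0, 0, 0, 0, 0, 0⟩)))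
    (.s2
    (.s1
    (.leaf (.box ⟨771, -2, -2048, 7, -36, 822, 668263, 0, 0, 0, 0, 0, 0⟩ ⟨0, 0, 0, 0, 0, 0, 536193, 0, 0, 0, 0, 0, 0⟩ ⟨0, 0, 0, 0, 0, 0, 536193, 0, 0, 0, 0, 0, 0⟩ ⟨0, 0, 0, 0, 0, 0, 447711, 0, 0, 0, 0, 0, 0⟩ ⟨0, 0, 0, 0, 0, 0, 447711, 0, 0, 0, 0, 0, 0⟩ ⟨781, -3, -2048, 11, -61, 809, 384295, 0, 0, 0, 0, 0, 0⟩))
    (.leaf (.box ⟨747, -2, -2148, 6, -30, 722, 658414, 0, 0, 0, 0, 0, 0⟩ ⟨0, 0, 0, 0, 0, 0, 528377, 0, 0, 0, 0, 0, 0⟩ ⟨0, 0, 0, 0, 0, 0, 528377, 0, 0, 0, 0, 0, 0⟩ ⟨0, 0, 0, 0, 0, 0, 441233, 0, 0, 0, 0, 0, 0⟩ ⟨0, 0, 0, 0, 0, 0, 441233, 0, 0, 0, 0, 0, 0⟩ ⟨728, -3, -2048, 9, -49, 677, 378764, 0, 0, 0, 0, 0, 0⟩)))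
    (.leaf (.box ⟨819, -3, -2048, 8, -28, 638, 643421, 0, 0, 0, 0, 0, 0⟩ ⟨0, 0, 0, 0, 0, 0, 516415, 0, 0, 0, 0, 0, 0⟩ ⟨0, 0, 0, 0, 0, 0, 516415, 0, 0, 0, 0, 0, 0⟩ ⟨0, 0, 0, 0, 0, 0, 431283, 0, 0, 0, 0, 0, 0⟩ ⟨0, 0, 0, 0, 0, 0, 431283, 0, 0, 0, 0, 0, 0⟩ ⟨836, -5, -2048, 13, -51, 658, 370247, 0, 0, 0, 0, 0, 0⟩)))))
    (.s3
    (.leaf (.box ⟨988, -1, -2048, 8, -33, 986, 996520, 0, 0, 0, 0, 0, 0⟩ ⟨0, 0, 0, 0, 0, 0, 825924, 0, 0, 0, 0, 0, 0⟩ ⟨0, 0, 0, 0, 0, 0, 825924, 0, 0, 0, 0, 0, 0⟩ ⟨0, 0, 0, 0, 0, 0, 705199, 0, 0, 0, 0, 0, 0⟩ ⟨0, 0, 0, 0, 0, 0, 705199, 0, 0, 0, 0, 0, 0⟩ ⟨1006, -2, -2048, 13, -51, 929, 615266, 0, 0, 0, 0, 0, 0⟩))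
    (.leaf (.box ⟨975, -2, -2048, 12, -43, 903, 685239, 0, 0, 0, 0, 0, 0⟩ ⟨0, 0, 0, 0, 0, 0, 550003, 0, 0, 0, 0, 0, 0⟩ ⟨0, 0, 0, 0, 0, 0, 550003, 0, 0, 0, 0, 0, 0⟩ ⟨0, 0, 0, 0, 0, 0, 459348, 0, 0, 0, 0, 0, 0⟩ ⟨0, 0, 0, 0, 0, 0, 459348, 0, 0, 0, 0, 0, 0⟩ ⟨965, -8, -2048, 47, -102, 891, 394348, 0, 0, 0, 0, 0, 0⟩)))

/-- A piece of the tree. -/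
noncomputable def tree72 : Tree LeafX :=
  .s1
    (.s0
    (.s2
    (.s3
    (.leaf (.box ⟨934, -2, -3794, 6, -27, 1145, 975947, 0, 0, 0, 0, 0, 0⟩ ⟨0, 0, 0, 0, 0, 0, 808839, 0, 0, 0, 0, 0, 0⟩ ⟨0, 0, 0, 0, 0, 0, 808839, 0, 0, 0, 0, 0, 0⟩ ⟨0, 0, 0, 0, 0, 0, 690592, 0, 0, 0, 0, 0, 0⟩ ⟨0, 0, 0, 0, 0, 0, 690592, 0, 0, 0, 0, 0, 0⟩ ⟨637, -2, -2783, 6, -30, 794, 602508, 0, 0, 0, 0, 0, 0⟩))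
    (.leaf (.box ⟨768, -2, -3306, 6, -31, 938, 670249, 0, 0, 0, 0, 0, 0⟩ ⟨0, 0, 0, 0, 0, 0, 537873, 0, 0, 0, 0, 0, 0⟩ ⟨0, 0, 0, 0, 0, 0, 537873, 0, 0, 0, 0, 0, 0⟩ ⟨0, 0, 0, 0, 0, 0, 449162, 0, 0, 0, 0, 0, 0⟩ ⟨0, 0, 0, 0, 0, 0, 449162, 0, 0, 0, 0, 0, 0⟩ ⟨514, -3, -2048, 7, -33, 573, 385570, 0, 0, 0, 0, 0, 0⟩)))
    (.s3
    (.s2
    (.leaf (.box ⟨1161, -4, -4816, 6, -36, 1371, 944926, 0, 0, 0, 0, 0, 0⟩ ⟨0, 0, 0, 0, 0, 0, 783164, 0, 0, 0, 0, 0, 0⟩ ⟨0, 0, 0, 0, 0, 0, 783164, 0, 0, 0, 0, 0, 0⟩ ⟨0, 0, 0, 0, 0, 0, 668690, 0, 0, 0, 0, 0, 0⟩ ⟨0, 0, 0, 0, 0, 0, 668690, 0, 0, 0, 0, 0, 0⟩ ⟨795, -4, -3280, 6, -38, 884, 583413, 0, 0, 0, 0, 0, 0⟩))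
    (.leaf (.box ⟨1195, -5, -4985, 6, -37, 1330, 921529, 0, 0, 0, 0, 0, 0⟩ ⟨0, 0, 0, 0, 0, 0, 763799, 0, 0, 0, 0, 0, 0⟩ ⟨0, 0, 0, 0, 0, 0, 763799, 0, 0, 0, 0, 0, 0⟩ ⟨0, 0, 0, 0, 0, 0, 652172, 0, 0, 0, 0, 0, 0⟩ ⟨0, 0, 0, 0, 0, 0, 652172, 0, 0, 0, 0, 0, 0⟩ ⟨733, -5, -2964, 6, -35, 785, 569012, 0, 0, 0, 0, 0, 0⟩)))
    (.leaf (.box ⟨917, -4, -3546, 6, -35, 916, 634377, 0, 0, 0, 0, 0, 0⟩ ⟨0, 0, 0, 0, 0, 0, 509261, 0, 0, 0, 0, 0, 0⟩ ⟨0, 0, 0, 0, 0, 0, 509261, 0, 0, 0, 0, 0, 0⟩ ⟨0, 0, 0, 0, 0, 0, 425367, 0, 0, 0, 0, 0, 0⟩ ⟨0, 0, 0, 0, 0, 0, 425367, 0, 0, 0, 0, 0, 0⟩ ⟨580, -4, -2169, 6, -37, 551, 365204, 0, 0, 0, 0, 0, 0⟩))))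
    (.s3
    (.s3
    (.s2
    (.leaf (.box ⟨927, -2, -4064, 6, -29, 1466, 1300359, 0, 0, 0, 0, 0, 0⟩ ⟨0, 0, 0, 0, 0, 0, 1113075, 0, 0, 0, 0, 0, 0⟩ ⟨0, 0, 0, 0, 0, 0, 1113075, 0, 0, 0, 0, 0, 0⟩ ⟨0, 0, 0, 0, 0, 0, 972946, 0, 0, 0, 0, 0, 0⟩ ⟨0, 0, 0, 0, 0, 0, 972946, 0, 0, 0, 0, 0, 0⟩ ⟨692, -2, -2984, 6, -32, 1071, 864154, 0, 0, 0, 0, 0, 0⟩))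
    (.leaf (.box ⟨1536, -3, -5599, 6, -42, 1828, 1232641, 0, 0, 0, 0, 0, 0⟩ ⟨0, 0, 0, 0, 0, 0, 1055193, 0, 0, 0, 0, 0, 0⟩ ⟨0, 0, 0, 0, 0, 0, 1055193, 0, 0, 0, 0, 0, 0⟩ ⟨0, 0, 0, 0, 0, 0, 922405, 0, 0, 0, 0, 0, 0⟩ ⟨0, 0, 0, 0, 0, 0, 922405, 0, 0, 0, 0, 0, 0⟩ ⟨1098, -3, -3943, 6, -44, 1281, 819302, 0, 0, 0, 0, 0, 0⟩)))
    (.leaf (.box ⟨872, -3, -2619, 6, -24, 865, 950569, 0, 0, 0, 0, 0, 0⟩ ⟨0, 0, 0, 0, 0, 0, 788209, 0, 0, 0, 0, 0, 0⟩ ⟨0, 0, 0, 0, 0, 0, 788209, 0, 0, 0, 0, 0, 0⟩ ⟨0, 0, 0, 0, 0, 0, 673221, 0, 0, 0, 0, 0, 0⟩ ⟨0, 0, 0, 0, 0, 0, 673221, 0, 0, 0, 0, 0, 0⟩ ⟨567, -3, -2048, 7, -29, 639, 587511, 0, 0, 0, 0, 0, 0⟩)))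
    (.s2
    (.leaf (.box ⟨574, -2, -2453, 6, -29, 808, 686032, 0, 0, 0, 0, 0, 0⟩ ⟨512, -2, -2147, 6, -31, 704, 554046, 0, 0, 0, 0, 0, 0⟩ ⟨512, -2, -2147, 6, -31, 704, 554046, 0, 0, 0, 0, 0, 0⟩ ⟨495, -2, -2048, 7, -36, 669, 461803, 0, 0, 0, 0, 0, 0⟩ ⟨495, -2, -2048, 7, -36, 669, 461803, 0, 0, 0, 0, 0, 0⟩ ⟨500, -3, -2048, 9, -42, 666, 394678, 0, 0, 0, 0, 0, 0⟩))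
    (.leaf (.box ⟨885, -3, -3266, 6, -40, 972, 651967, 0, 0, 0, 0, 0, 0⟩ ⟨0, 0, 0, 0, 0, 0, 523402, 0, 0, 0, 0, 0, 0⟩ ⟨0, 0, 0, 0, 0, 0, 523402, 0, 0, 0, 0, 0, 0⟩ ⟨0, 0, 0, 0, 0, 0, 437189, 0, 0, 0, 0, 0, 0⟩ ⟨0, 0, 0, 0, 0, 0, 437189, 0, 0, 0, 0, 0, 0⟩ ⟨570, -4, -2048, 7, -43, 599, 375361, 0, 0, 0, 0, 0, 0⟩)))))
    (.s0
    (.s2
    (.leaf (.box ⟨739, -3, -2937, 6, -23, 756, 658909, 0, 0, 0, 0, 0, 0⟩ ⟨0, 0, 0, 0, 0, 0, 528486, 0, 0, 0, 0, 0, 0⟩ ⟨0, 0, 0, 0, 0, 0, 528486, 0, 0, 0, 0, 0, 0⟩ ⟨0, 0, 0, 0, 0, 0, 441163, 0, 0, 0, 0, 0, 0⟩ ⟨0, 0, 0, 0, 0, 0, 441163, 0, 0, 0, 0, 0, 0⟩ ⟨496, -4, -2048, 8, -27, 499, 378605, 0, 0, 0, 0, 0, 0⟩))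
    (.s2
    (.leaf (.box ⟨761, -5, -3183, 6, -27, 770, 637023, 0, 0, 0, 0, 0, 0⟩ ⟨0, 0, 0, 0, 0, 0, 510958, 0, 0, 0, 0, 0, 0⟩ ⟨0, 0, 0, 0, 0, 0, 510958, 0, 0, 0, 0, 0, 0⟩ ⟨0, 0, 0, 0, 0, 0, 426546, 0, 0, 0, 0, 0, 0⟩ ⟨0, 0, 0, 0, 0, 0, 426546, 0, 0, 0, 0, 0, 0⟩ ⟨527, -5, -2065, 6, -29, 473, 366069, 0, 0, 0, 0, 0, 0⟩))
    (.leaf (.box ⟨823, -6, -3508, 6, -30, 797, 620583, 0, 0, 0, 0, 0, 0⟩ ⟨0, 0, 0, 0, 0, 0, 497793, 0, 0, 0, 0, 0, 0⟩ ⟨0, 0, 0, 0, 0, 0, 497793, 0, 0, 0, 0, 0, 0⟩ ⟨0, 0, 0, 0, 0, 0, 415568, 0, 0, 0, 0, 0, 0⟩ ⟨0, 0, 0, 0, 0, 0, 415568, 0, 0, 0, 0, 0, 0⟩ ⟨585, -9, -2048, 9, -27, 424, 356655, 0, 0, 0, 0, 0, 0⟩))))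
    (.s3
    (.s2
    (.leaf (.box ⟨819, -3, -3570, 6, -26, 1106, 985519, 0, 0, 0, 0, 0, 0⟩ ⟨0, 0, 0, 0, 0, 0, 816811, 0, 0, 0, 0, 0, 0⟩ ⟨0, 0, 0, 0, 0, 0, 816811, 0, 0, 0, 0, 0, 0⟩ ⟨0, 0, 0, 0, 0, 0, 697422, 0, 0, 0, 0, 0, 0⟩ ⟨0, 0, 0, 0, 0, 0, 697422, 0, 0, 0, 0, 0, 0⟩ ⟨533, -3, -2232, 6, -26, 687, 608482, 0, 0, 0, 0, 0, 0⟩))
    (.leaf (.box ⟨1167, -5, -4360, 6, -34, 1221, 931826, 0, 0, 0, 0, 0, 0⟩ ⟨868, -5, -3418, 6, -31, 914, 775956, 0, 0, 0, 0, 0, 0⟩ ⟨868, -5, -3418, 6, -31, 914, 775956, 0, 0, 0, 0, 0, 0⟩ ⟨779, -5, -3055, 6, -32, 814, 661773, 0, 0, 0, 0, 0, 0⟩ ⟨779, -5, -3055, 6, -32, 814, 661773, 0, 0, 0, 0, 0, 0⟩ ⟨655, -5, -2686, 6, -33, 726, 575457, 0, 0, 0, 0, 0,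 0⟩)))
    (.leaf (.box ⟨566, -4, -2051, 6, -19, 520, 642707, 0, 0, 0, 0, 0, 0⟩ ⟨0, 0, 0, 0, 0, 0, 516090, 0, 0, 0, 0, 0, 0⟩ ⟨0, 0, 0, 0, 0, 0, 516090, 0, 0, 0, 0, 0, 0⟩ ⟨0, 0, 0, 0, 0, 0, 431151, 0, 0, 0, 0, 0, 0⟩ ⟨0, 0, 0, 0, 0, 0, 431151, 0, 0, 0, 0, 0, 0⟩ ⟨532, -6, -2048, 11, -34, 525, 370219, 0, 0, 0, 0, 0, 0⟩))))

/-- A piece of the tree. -/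
noncomputable def tree73 : Tree LeafX :=
  .s2
    (.s3
    (.s2
    (.leaf (.box ⟨776, -1, -2048, 6, -22, 858, 1051235, 0, 0, 0, 0, 0, 0⟩ ⟨0, 0, 0, 0, 0, 0, 871229, 0, 0, 0, 0, 0, 0⟩ ⟨0, 0, 0, 0, 0, 0, 871229, 0, 0, 0, 0, 0, 0⟩ ⟨0, 0, 0, 0, 0, 0, 743856, 0, 0, 0, 0, 0, 0⟩ ⟨0, 0, 0, 0, 0, 0, 743856, 0, 0, 0, 0, 0, 0⟩ ⟨792, -2, -2048, 10, -36, 853, 648976, 0, 0, 0, 0, 0, 0⟩))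
    (.leaf (.box ⟨730, -2, -2048, 6, -22, 758, 1011189, 0, 0, 0, 0, 0, 0⟩ ⟨0, 0, 0, 0, 0, 0, 838090, 0, 0, 0, 0, 0, 0⟩ ⟨0, 0, 0, 0, 0, 0, 838090, 0, 0, 0, 0, 0, 0⟩ ⟨0, 0, 0, 0, 0, 0, 715593, 0, 0, 0, 0, 0, 0⟩ ⟨0, 0, 0, 0, 0, 0, 715593, 0, 0, 0, 0, 0, 0⟩ ⟨708, -3, -2048, 10, -36, 771, 624337, 0, 0, 0, 0, 0, 0⟩)))
    (.leaf (.box ⟨821, -2, -2048, 9, -31, 783, 695545, 0, 0, 0, 0, 0, 0⟩ ⟨0, 0, 0, 0, 0, 0, 558300, 0, 0, 0, 0, 0, 0⟩ ⟨0, 0, 0, 0, 0, 0, 558300, 0, 0, 0, 0, 0, 0⟩ ⟨0, 0, 0, 0, 0, 0, 466292, 0, 0, 0, 0, 0, 0⟩ ⟨0, 0, 0, 0, 0, 0, 466292, 0, 0, 0, 0, 0, 0⟩ ⟨844, -4, -2048, 15, -53, 772, 400318, 0, 0, 0, 0, 0, 0⟩)))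
    (.s3
    (.s1
    (.leaf (.box ⟨813, -3, -2059, 6, -27, 810, 977245, 0, 0, 0, 0, 0, 0⟩ ⟨0, 0, 0, 0, 0, 0, 809991, 0, 0, 0, 0, 0, 0⟩ ⟨0, 0, 0, 0, 0, 0, 809991, 0, 0, 0, 0, 0, 0⟩ ⟨0, 0, 0, 0, 0, 0, 691620, 0, 0, 0, 0, 0, 0⟩ ⟨0, 0, 0, 0, 0, 0, 691620, 0, 0, 0, 0, 0, 0⟩ ⟨692, -3, -2048, 8, -41, 762, 603435, 0, 0, 0, 0, 0, 0⟩))
    (.s2
    (.leaf (.box ⟨859, -3, -2719, 6, -30, 976, 980817, 0, 0, 0, 0, 0, 0⟩ ⟨0, 0, 0, 0, 0, 0, 812962, 0, 0, 0, 0, 0, 0⟩ ⟨0, 0, 0, 0, 0, 0, 812962, 0, 0, 0, 0, 0, 0⟩ ⟨0, 0, 0, 0, 0, 0, 694163, 0, 0, 0, 0, 0, 0⟩ ⟨0, 0, 0, 0, 0, 0, 694163, 0, 0, 0, 0, 0, 0⟩ ⟨667, -4, -2048, 8, -36, 730, 605658, 0, 0, 0, 0, 0, 0⟩))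
    (.leaf (.box ⟨767, -4, -2481, 6, -27, 816, 960123, 0, 0, 0, 0, 0, 0⟩ ⟨0, 0, 0, 0, 0, 0, 795844, 0, 0, 0, 0, 0, 0⟩ ⟨0, 0, 0, 0, 0, 0, 795844, 0, 0, 0, 0, 0, 0⟩ ⟨0, 0, 0, 0, 0, 0, 679569, 0, 0, 0, 0, 0, 0⟩ ⟨0, 0, 0, 0, 0, 0, 679569, 0, 0, 0, 0, 0, 0⟩ ⟨654, -5, -2048, 8, -35, 669, 592938, 0, 0, 0, 0, 0, 0⟩))))
    (.leaf (.box ⟨901, -4, -2048, 9, -32, 697, 662376, 0, 0, 0, 0, 0, 0⟩ ⟨0, 0, 0, 0, 0, 0, 531904, 0, 0, 0, 0, 0, 0⟩ ⟨0, 0, 0, 0, 0, 0, 531904, 0, 0, 0, 0, 0, 0⟩ ⟨0, 0, 0, 0, 0, 0, 444373, 0, 0, 0, 0, 0, 0⟩ ⟨0, 0, 0, 0, 0, 0, 444373, 0, 0, 0, 0, 0, 0⟩ ⟨918, -8, -2048, 16, -55, 685, 381579, 0, 0, 0, 0, 0, 0⟩)))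

/-- A piece of the tree. -/
noncomputable def tree74 : Tree LeafX :=
  .s0
    (.s1
    (.s0
    (.leaf (.box ⟨643, -8, -2048, 7, -12, 401, 604421, 0, 0, 0, 0, 0, 0⟩ ⟨0, 0, 0, 0, 0, 0, 484890, 0, 0, 0, 0, 0, 0⟩ ⟨0, 0, 0, 0, 0, 0, 484890, 0, 0, 0, 0, 0, 0⟩ ⟨0, 0, 0, 0, 0, 0, 404830, 0, 0, 0, 0, 0, 0⟩ ⟨0, 0, 0, 0, 0, 0, 404830, 0, 0, 0, 0, 0, 0⟩ ⟨663, -15, -2048, 12, -20, 396, 347460, 0, 0, 0, 0, 0, 0⟩))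
    (.s3
    (.s2
    (.leaf (.box ⟨692, -4, -2608, 6, -14, 691, 962397, 0, 0, 0, 0, 0, 0⟩ ⟨0, 0, 0, 0, 0, 0, 797726, 0, 0, 0, 0, 0, 0⟩ ⟨0, 0, 0, 0, 0, 0, 797726, 0, 0, 0, 0, 0, 0⟩ ⟨0, 0, 0, 0, 0, 0, 681174, 0, 0, 0, 0, 0, 0⟩ ⟨0, 0, 0, 0, 0, 0, 681174, 0, 0, 0, 0, 0, 0⟩ ⟨553, -6, -2048, 8, -18, 539, 594337, 0, 0, 0, 0, 0, 0⟩))
    (.leaf (.box ⟨856, -7, -3024, 6, -19, 725, 905633, 0, 0, 0, 0, 0, 0⟩ ⟨0, 0, 0, 0, 0, 0, 750765, 0, 0, 0, 0, 0, 0⟩ ⟨0, 0, 0, 0, 0, 0, 750765, 0, 0, 0, 0, 0, 0⟩ ⟨0, 0, 0, 0, 0, 0, 641129, 0, 0, 0, 0, 0, 0⟩ ⟨0, 0, 0, 0, 0, 0, 641129, 0, 0, 0, 0, 0, 0⟩ ⟨622, -10, -2048, 8, -19, 450, 559433, 0, 0, 0, 0, 0, 0⟩)))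
    (.leaf (.box ⟨598, -8, -2048, 8, -15, 450, 626976, 0, 0, 0, 0, 0, 0⟩ ⟨0, 0, 0, 0, 0, 0, 503731, 0, 0, 0, 0, 0, 0⟩ ⟨0, 0, 0, 0, 0, 0, 503731, 0, 0, 0, 0, 0, 0⟩ ⟨0, 0, 0, 0, 0, 0, 420978, 0, 0, 0, 0, 0, 0⟩ ⟨0, 0, 0, 0, 0, 0, 420978, 0, 0, 0, 0, 0, 0⟩ ⟨584, -12, -2048, 13, -25, 451, 361578, 0, 0, 0, 0, 0, 0⟩))))
    (.leaf (.box ⟨672, -16, -2048, 10, -9, 380, 589497, 0, 0, 0, 0, 0, 0⟩ ⟨0, 0, 0, 0, 0, 0, 472986, 0, 0, 0, 0, 0, 0⟩ ⟨0, 0, 0, 0, 0, 0, 472986, 0, 0, 0, 0, 0, 0⟩ ⟨0, 0, 0, 0, 0, 0, 394930, 0, 0, 0, 0, 0, 0⟩ ⟨0, 0, 0, 0, 0, 0, 394930, 0, 0, 0, 0, 0, 0⟩ ⟨683, -38, -2048, 23, -22, 382, 338987, 0, 0, 0, 0, 0, 0⟩)))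
    (.s1
    (.s3
    (.s2
    (.s1
    (.leaf (.box ⟨678, -3, -2207, 6, -19, 759, 997400, 0, 0, 0, 0, 0, 0⟩ ⟨0, 0, 0, 0, 0, 0, 826702, 0, 0, 0, 0, 0, 0⟩ ⟨0, 0, 0, 0, 0, 0, 826702, 0, 0, 0, 0, 0, 0⟩ ⟨0, 0, 0, 0, 0, 0, 705894, 0, 0, 0, 0, 0, 0⟩ ⟨0, 0, 0, 0, 0, 0, 705894, 0, 0, 0, 0, 0, 0⟩ ⟨650, -4, -2048, 9, -28, 700, 615891, 0, 0, 0, 0, 0, 0⟩))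
    (.leaf (.box ⟨643, -4, -2228, 6, -16, 696, 984964, 0, 0, 0, 0, 0, 0⟩ ⟨0, 0, 0, 0, 0, 0, 816439, 0, 0, 0, 0, 0, 0⟩ ⟨0, 0, 0, 0, 0, 0, 816439, 0, 0, 0, 0, 0, 0⟩ ⟨0, 0, 0, 0, 0, 0, 697156, 0, 0, 0, 0, 0, 0⟩ ⟨0, 0, 0, 0, 0, 0, 697156, 0, 0, 0, 0, 0, 0⟩ ⟨616, -5, -2048, 9, -24, 636, 608285, 0, 0, 0, 0, 0, 0⟩)))
    (.s3
    (.s2
    (.leaf (.box ⟨827, -5, -2565, 6, -18, 798, 1240142, 0, 0, 0, 0, 0, 0⟩ ⟨0, 0, 0, 0, 0, 0, 1061752, 0, 0, 0, 0, 0, 0⟩ ⟨0, 0, 0, 0, 0, 0, 1061752, 0, 0, 0, 0, 0, 0⟩ ⟨0, 0, 0, 0, 0, 0, 928229, 0, 0, 0, 0, 0, 0⟩ ⟨0, 0, 0, 0, 0, 0, 928229, 0, 0, 0, 0, 0, 0⟩ ⟨575, -6, -2048, 8, -19, 607, 824537, 0, 0, 0, 0, 0, 0⟩))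
    (.leaf (.box ⟨790, -6, -2508, 6, -18, 717, 1211799, 0, 0, 0, 0, 0, 0⟩ ⟨0, 0, 0, 0, 0, 0, 1037543, 0, 0, 0, 0, 0, 0⟩ ⟨0, 0, 0, 0, 0, 0, 1037543, 0, 0, 0, 0, 0, 0⟩ ⟨0, 0, 0, 0, 0, 0, 907102, 0, 0, 0, 0, 0, 0⟩ ⟨0, 0, 0, 0, 0, 0, 907102, 0, 0, 0, 0, 0, 0⟩ ⟨572, -6, -2048, 7, -21, 560, 805796, 0, 0, 0, 0, 0, 0⟩)))
    (.s2
    (.leaf (.box ⟨660, -5, -2084, 6, -18, 624, 958310, 0, 0, 0, 0, 0, 0⟩ ⟨0, 0, 0, 0, 0, 0, 794908, 0, 0, 0, 0, 0, 0⟩ ⟨0, 0, 0, 0, 0, 0, 794908, 0, 0, 0, 0, 0, 0⟩ ⟨0, 0, 0, 0, 0, 0, 679112, 0, 0, 0, 0, 0, 0⟩ ⟨0, 0, 0, 0, 0, 0, 679112, 0, 0, 0, 0, 0, 0⟩ ⟨660, -7, -2048, 9, -28, 607, 592762, 0, 0, 0, 0, 0, 0⟩))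
    (.leaf (.box ⟨641, -6, -2086, 6, -18, 576, 937214, 0, 0, 0, 0, 0, 0⟩ ⟨0, 0, 0, 0, 0, 0, 777524, 0, 0, 0, 0, 0, 0⟩ ⟨0, 0, 0, 0, 0, 0, 777524, 0, 0, 0, 0, 0, 0⟩ ⟨0, 0, 0, 0, 0, 0, 664330, 0, 0, 0, 0, 0, 0⟩ ⟨0, 0, 0, 0, 0, 0, 664330, 0, 0, 0, 0, 0, 0⟩ ⟨642, -8, -2048, 9, -28, 559, 579905, 0, 0, 0, 0, 0, 0⟩)))))
    (.s0
    (.s3
    (.leaf (.box ⟨589, -5, -2048, 7, -16, 520, 765998, 0, 0, 0, 0, 0, 0⟩ ⟨0, 0, 0, 0, 0, 0, 623610, 0, 0, 0, 0, 0, 0⟩ ⟨0, 0, 0, 0, 0, 0, 623610, 0, 0, 0, 0, 0, 0⟩ ⟨0, 0, 0, 0, 0, 0, 525860, 0, 0, 0, 0, 0, 0⟩ ⟨0, 0, 0, 0, 0, 0, 525860, 0, 0, 0, 0, 0, 0⟩ ⟨595, -9, -2048, 12, -27, 513, 454601, 0, 0, 0, 0, 0, 0⟩))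
    (.leaf (.box ⟨580, -6, -2048, 8, -18, 505, 649026, 0, 0, 0, 0, 0, 0⟩ ⟨0, 0, 0, 0, 0, 0, 521859, 0, 0, 0, 0, 0, 0⟩ ⟨0, 0, 0, 0, 0, 0, 521859, 0, 0, 0, 0, 0, 0⟩ ⟨0, 0, 0, 0, 0, 0, 436361, 0, 0, 0, 0, 0, 0⟩ ⟨0, 0, 0, 0, 0, 0, 436361, 0, 0, 0, 0, 0, 0⟩ ⟨590, -10, -2048, 13, -30, 496, 374933, 0, 0, 0, 0, 0, 0⟩)))
    (.s3
    (.leaf (.box ⟨742, -5, -2048, 9, -22, 637, 790946, 0, 0, 0, 0, 0, 0⟩ ⟨0, 0, 0, 0, 0, 0, 643947, 0, 0, 0, 0, 0, 0⟩ ⟨0, 0, 0, 0, 0, 0, 643947, 0, 0, 0, 0, 0, 0⟩ ⟨0, 0, 0, 0, 0, 0, 543024, 0, 0, 0, 0, 0, 0⟩ ⟨0, 0, 0, 0, 0, 0, 543024, 0, 0, 0, 0, 0, 0⟩ ⟨627, -9, -2048, 14, -33, 580, 469449, 0, 0, 0, 0, 0, 0⟩))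
    (.leaf (.box ⟨723, -6, -2048, 10, -24, 616, 670258, 0, 0, 0, 0, 0, 0⟩ ⟨0, 0, 0, 0, 0, 0, 538960, 0, 0, 0, 0, 0, 0⟩ ⟨0, 0, 0, 0, 0, 0, 538960, 0, 0, 0, 0, 0, 0⟩ ⟨0, 0, 0, 0, 0, 0, 450677, 0, 0, 0, 0, 0, 0⟩ ⟨0, 0, 0, 0, 0, 0, 450677, 0, 0, 0, 0, 0, 0⟩ ⟨744, -11, -2048, 18, -41, 604, 387244, 0, 0, 0, 0, 0, 0⟩)))))
    (.s3
    (.s0
    (.leaf (.box ⟨560, -8, -2048, 7, -10, 471, 905913, 0, 0, 0, 0, 0, 0⟩ ⟨0, 0, 0, 0, 0, 0, 751118, 0, 0, 0, 0, 0, 0⟩ ⟨0, 0, 0, 0, 0, 0, 751118, 0, 0, 0, 0, 0, 0⟩ ⟨0, 0, 0, 0, 0, 0, 641503, 0, 0, 0, 0, 0, 0⟩ ⟨0, 0, 0, 0, 0, 0, 641503, 0, 0, 0, 0, 0, 0⟩ ⟨553, -22, -2048, 18, -23, 476, 559807, 0, 0, 0, 0, 0, 0⟩))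
    (.s2
    (.leaf (.box ⟨450, -5, -2048, 7, -12, 607, 987733, 0, 0, 0, 0, 0, 0⟩ ⟨0, 0, 0, 0, 0, 0, 818838, 0, 0, 0, 0, 0, 0⟩ ⟨0, 0, 0, 0, 0, 0, 818838, 0, 0, 0, 0, 0, 0⟩ ⟨0, 0, 0, 0, 0, 0, 699268, 0, 0, 0, 0, 0, 0⟩ ⟨0, 0, 0, 0, 0, 0, 699268, 0, 0, 0, 0, 0, 0⟩ ⟨460, -8, -2048, 10, -20, 602, 610168, 0, 0, 0, 0, 0, 0⟩))
    (.leaf (.box ⟨597, -7, -2355, 6, -18, 625, 933777, 0, 0, 0, 0, 0, 0⟩ ⟨0, 0, 0, 0, 0, 0, 774231, 0, 0, 0, 0, 0, 0⟩ ⟨0, 0, 0, 0, 0, 0, 774231, 0, 0, 0, 0, 0, 0⟩ ⟨0, 0, 0, 0, 0, 0, 661249, 0, 0, 0, 0, 0, 0⟩ ⟨0, 0, 0, 0, 0, 0, 661249, 0, 0, 0, 0, 0, 0⟩ ⟨515, -9, -2048, 8, -24, 520, 577042, 0, 0, 0, 0, 0, 0⟩))))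
    (.s2
    (.leaf (.box ⟨581, -7, -2048, 9, -14, 538, 666609, 0, 0, 0, 0, 0, 0⟩ ⟨0, 0, 0, 0, 0, 0, 535588, 0, 0, 0, 0, 0, 0⟩ ⟨0, 0, 0, 0, 0, 0, 535588, 0, 0, 0, 0, 0, 0⟩ ⟨0, 0, 0, 0, 0, 0, 447611, 0, 0, 0, 0, 0, 0⟩ ⟨0, 0, 0, 0, 0, 0, 447611, 0, 0, 0, 0, 0, 0⟩ ⟨615, -13, -2048, 16, -24, 528, 384458, 0, 0, 0, 0, 0, 0⟩))
    (.leaf (.box ⟨612, -12, -2048, 9, -18, 483, 630194, 0, 0, 0, 0, 0, 0⟩ ⟨0, 0, 0, 0, 0, 0, 506665, 0, 0, 0, 0, 0, 0⟩ ⟨0, 0, 0, 0, 0, 0, 506665, 0, 0, 0, 0, 0, 0⟩ ⟨0, 0, 0, 0, 0, 0, 423627, 0, 0, 0, 0, 0, 0⟩ ⟨0, 0, 0, 0, 0, 0, 423627, 0, 0, 0, 0, 0, 0⟩ ⟨628, -21, -2048, 16, -28, 442, 363974, 0, 0, 0, 0, 0, 0⟩)))))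

/-- A piece of the tree. -/
noncomputable def tree75 : Tree LeafX :=
  .s1
    (.s0
    (.s3
    (.s2
    (.leaf (.box ⟨1398, -1, -2048, 15, -44, 1300, 1079096, 0, 0, 0, 0, 0, 0⟩ ⟨0, 0, 0, 0, 0, 0, 894372, 0, 0, 0, 0, 0, 0⟩ ⟨0, 0, 0, 0, 0, 0, 894372, 0, 0, 0, 0, 0, 0⟩ ⟨0, 0, 0, 0, 0, 0, 763648, 0, 0, 0, 0, 0, 0⟩ ⟨0, 0, 0, 0, 0, 0, 763648, 0, 0, 0, 0, 0, 0⟩ ⟨1422, -2, -2048, 24, -71, 1292, 666264, 0, 0, 0, 0, 0, 0⟩))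
    (.leaf (.box ⟨1189, -3, -2048, 14, -39, 1015, 1033644, 0, 0, 0, 0, 0, 0⟩ ⟨0, 0, 0, 0, 0, 0, 856792, 0, 0, 0, 0, 0, 0⟩ ⟨0, 0, 0, 0, 0, 0, 856792, 0, 0, 0, 0, 0, 0⟩ ⟨0, 0, 0, 0, 0, 0, 731615, 0, 0, 0, 0, 0, 0⟩ ⟨0, 0, 0, 0, 0, 0, 731615, 0, 0, 0, 0, 0, 0⟩ ⟨1208, -5, -2048, 22, -57, 919, 638352, 0, 0, 0, 0, 0, 0⟩)))
    (.leaf (.box ⟨1177, -3, -2048, 19, -48, 908, 713240, 0, 0, 0, 0, 0, 0⟩ ⟨0, 0, 0, 0, 0, 0, 572765, 0, 0, 0, 0, 0, 0⟩ ⟨0, 0, 0, 0, 0, 0, 572765, 0, 0, 0, 0, 0, 0⟩ ⟨0, 0, 0, 0, 0, 0, 478519, 0, 0, 0, 0, 0, 0⟩ ⟨0, 0, 0, 0, 0, 0, 478519, 0, 0, 0, 0, 0, 0⟩ ⟨1176, -5, -2048, 33, -82, 896, 410906, 0, 0, 0, 0, 0, 0⟩)))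
    (.leaf (.box ⟨1996, -3, -2048, 31, -83, 1426, 774944, 0, 0, 0, 0, 0, 0⟩ ⟨0, 0, 0, 0, 0, 0, 621623, 0, 0, 0, 0, 0, 0⟩ ⟨0, 0, 0, 0, 0, 0, 621623, 0, 0, 0, 0, 0, 0⟩ ⟨0, 0, 0, 0, 0, 0, 518950, 0, 0, 0, 0, 0, 0⟩ ⟨0, 0, 0, 0, 0, 0, 518950, 0, 0, 0, 0, 0, 0⟩ ⟨2037, -5, -2048, 53, -143, 1410, 445385, 0, 0, 0, 0, 0, 0⟩)))
    (.s2
    (.s3
    (.s1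
    (.leaf (.box ⟨803, -3, -2048, 12, -29, 888, 1044488, 0, 0, 0, 0, 0, 0⟩ ⟨0, 0, 0, 0, 0, 0, 865784, 0, 0, 0, 0, 0, 0⟩ ⟨0, 0, 0, 0, 0, 0, 865784, 0, 0, 0, 0, 0, 0⟩ ⟨0, 0, 0, 0, 0, 0, 739296, 0, 0, 0, 0, 0, 0⟩ ⟨0, 0, 0, 0, 0, 0, 739296, 0, 0, 0, 0, 0, 0⟩ ⟨828, -5, -2048, 20, -46, 883, 645055, 0, 0, 0, 0, 0, 0⟩))
    (.leaf (.box ⟨963, -7, -2048, 14, -24, 815, 1017394, 0, 0, 0, 0, 0, 0⟩ ⟨0, 0, 0, 0, 0, 0, 843431, 0, 0, 0, 0, 0, 0⟩ ⟨0, 0, 0, 0, 0, 0, 843431, 0, 0, 0, 0, 0, 0⟩ ⟨0, 0, 0, 0, 0, 0, 720272, 0, 0, 0, 0, 0, 0⟩ ⟨0, 0, 0, 0, 0, 0, 720272, 0, 0, 0, 0, 0, 0⟩ ⟨729, -9, -2048, 20, -35, 748, 628498, 0, 0, 0, 0, 0, 0⟩)))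
    (.s1
    (.leaf (.box ⟨1038, -5, -2048, 18, -41, 897, 720823, 0, 0, 0, 0, 0, 0⟩ ⟨0, 0, 0, 0, 0, 0, 578867, 0, 0, 0, 0, 0, 0⟩ ⟨0, 0, 0, 0, 0, 0, 578867, 0, 0, 0, 0, 0, 0⟩ ⟨0, 0, 0, 0, 0, 0, 483623, 0, 0, 0, 0, 0, 0⟩ ⟨0, 0, 0, 0, 0, 0, 483623, 0, 0, 0, 0, 0, 0⟩ ⟨1069, -8, -2048, 31, -69, 885, 415293, 0, 0, 0, 0, 0, 0⟩))
    (.leaf (.box ⟨911, -8, -2048, 18, -30, 758, 704773, 0, 0, 0, 0, 0, 0⟩ ⟨0, 0, 0, 0, 0, 0, 566284, 0, 0, 0, 0, 0, 0⟩ ⟨0, 0, 0, 0, 0, 0, 566284, 0, 0, 0, 0, 0, 0⟩ ⟨0, 0, 0, 0, 0, 0, 473283, 0, 0, 0, 0, 0, 0⟩ ⟨0, 0, 0, 0, 0, 0, 473283, 0, 0, 0, 0, 0, 0⟩ ⟨941, -15, -2048, 32, -51, 746, 406520, 0, 0, 0, 0, 0, 0⟩))))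
    (.s3
    (.s1
    (.s3
    (.leaf (.box ⟨858, -4, -2048, 9, -24, 787, 1297168, 0, 0, 0, 0, 0, 0⟩ ⟨0, 0, 0, 0, 0, 0, 1110652, 0, 0, 0, 0, 0, 0⟩ ⟨0, 0, 0, 0, 0, 0, 1110652, 0, 0, 0, 0, 0, 0⟩ ⟨0, 0, 0, 0, 0, 0, 971030, 0, 0, 0, 0, 0, 0⟩ ⟨0, 0, 0, 0, 0, 0, 971030, 0, 0, 0, 0, 0, 0⟩ ⟨870, -7, -2048, 14, -38, 784, 862592, 0, 0, 0, 0, 0, 0⟩))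
    (.leaf (.box ⟨845, -5, -2048, 11, -30, 758, 1003467, 0, 0, 0, 0, 0, 0⟩ ⟨0, 0, 0, 0, 0, 0, 832521, 0, 0, 0, 0, 0, 0⟩ ⟨0, 0, 0, 0, 0, 0, 832521, 0, 0, 0, 0, 0, 0⟩ ⟨0, 0, 0, 0, 0, 0, 711340, 0, 0, 0, 0, 0, 0⟩ ⟨0, 0, 0, 0, 0, 0, 711340, 0, 0, 0, 0, 0, 0⟩ ⟨868, -9, -2048, 20, -47, 752, 620954, 0, 0, 0, 0, 0, 0⟩)))
    (.s2
    (.s0
    (.leaf (.box ⟨576, -6, -2048, 7, -21, 670, 984968, 0, 0, 0, 0, 0, 0⟩ ⟨0, 0, 0, 0, 0, 0, 816623, 0, 0, 0, 0, 0, 0⟩ ⟨0, 0, 0, 0, 0, 0, 816623, 0, 0, 0, 0, 0, 0⟩ ⟨0, 0, 0, 0, 0, 0, 697423, 0, 0, 0, 0, 0, 0⟩ ⟨0, 0, 0, 0, 0, 0, 697423, 0, 0, 0, 0, 0, 0⟩ ⟨600, -9, -2048, 11, -34, 666, 608589, 0, 0, 0, 0, 0, 0⟩))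
    (.leaf (.box ⟨571, -4, -2048, 7, -30, 810, 1062943, 0, 0, 0, 0, 0, 0⟩ ⟨0, 0, 0, 0, 0, 0, 881274, 0, 0, 0, 0, 0, 0⟩ ⟨0, 0, 0, 0, 0, 0, 881274, 0, 0, 0, 0, 0, 0⟩ ⟨0, 0, 0, 0, 0, 0, 752639, 0, 0, 0, 0, 0, 0⟩ ⟨0, 0, 0, 0, 0, 0, 752639, 0, 0, 0, 0, 0, 0⟩ ⟨592, -7, -2048, 12, -48, 806, 656773, 0, 0, 0, 0, 0, 0⟩)))
    (.s0
    (.leaf (.box ⟨561, -7, -2048, 7, -21, 609, 966637, 0, 0, 0, 0, 0, 0⟩ ⟨0, 0, 0, 0, 0, 0, 801484, 0, 0, 0, 0, 0, 0⟩ ⟨0, 0, 0, 0, 0, 0, 801484, 0, 0, 0, 0, 0, 0⟩ ⟨0, 0, 0, 0, 0, 0, 684530, 0, 0, 0, 0, 0, 0⟩ ⟨0, 0, 0, 0, 0, 0, 684530, 0, 0, 0, 0, 0, 0⟩ ⟨582, -11, -2048, 11, -34, 605, 597361, 0, 0, 0, 0, 0, 0⟩))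
    (.leaf (.box ⟨567, -5, -2048, 7, -29, 725, 1049807, 0, 0, 0, 0, 0, 0⟩ ⟨0, 0, 0, 0, 0, 0, 870449, 0, 0, 0, 0, 0, 0⟩ ⟨0, 0, 0, 0, 0, 0, 870449, 0, 0, 0, 0, 0, 0⟩ ⟨0, 0, 0, 0, 0, 0, 743434, 0, 0, 0, 0, 0, 0⟩ ⟨0, 0, 0, 0, 0, 0, 743434, 0, 0, 0, 0, 0, 0⟩ ⟨605, -8, -2048, 11, -47, 721, 648766, 0, 0, 0, 0, 0, 0⟩)))))
    (.s2
    (.leaf (.box ⟨883, -12, -2048, 22, -37, 701, 684142, 0, 0, 0, 0, 0, 0⟩ ⟨0, 0, 0, 0, 0, 0, 549918, 0, 0, 0, 0, 0, 0⟩ ⟨0, 0, 0, 0, 0, 0, 549918, 0, 0, 0, 0, 0, 0⟩ ⟨0, 0, 0, 0, 0, 0, 459724, 0, 0, 0, 0, 0, 0⟩ ⟨0, 0, 0, 0, 0, 0, 459724, 0, 0, 0, 0, 0, 0⟩ ⟨881, -22, -2048, 40, -61, 679, 394946, 0, 0, 0, 0, 0, 0⟩))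
    (.leaf (.box ⟨842, -20, -2048, 30, -51, 637, 672888, 0, 0, 0, 0, 0, 0⟩ ⟨0, 0, 0, 0, 0, 0, 541042, 0, 0, 0, 0, 0, 0⟩ ⟨0, 0, 0, 0, 0, 0, 541042, 0, 0, 0, 0, 0, 0⟩ ⟨0, 0, 0, 0, 0, 0, 452399, 0, 0, 0, 0, 0, 0⟩ ⟨0, 0, 0, 0, 0, 0, 452399, 0, 0, 0, 0, 0, 0⟩ ⟨893, -26, -2048, 40, -61, 629, 388712, 0, 0, 0, 0, 0, 0⟩)))))

/-- A piece of the tree. -/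
noncomputable def tree76 : Tree LeafX :=
  .s1
    (.s3
    (.s0
    (.s3
    (.leaf (.box ⟨2048, -46, -835, 8, -2, 127, 958792, 0, 0, 0, 0, 0, 0⟩ ⟨0, 0, 0, 0, 0, 0, 820758, 0, 0, 0, 0, 0, 0⟩ ⟨0, 0, 0, 0, 0, 0, 820758, 0, 0, 0, 0, 0, 0⟩ ⟨0, 0, 0, 0, 0, 0, 717466, 0, 0, 0, 0, 0, 0⟩ ⟨0, 0, 0, 0, 0, 0, 717466, 0, 0, 0, 0, 0, 0⟩ ⟨2048, -65, -839, 12, -3, 124, 637266, 0, 0, 0, 0, 0, 0⟩))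
    (.leaf (.box ⟨2048, -38, -1144, 9, -4, 185, 739254, 0, 0, 0, 0, 0, 0⟩ ⟨0, 0, 0, 0, 0, 0, 612968, 0, 0, 0, 0, 0, 0⟩ ⟨0, 0, 0, 0, 0, 0, 612968, 0, 0, 0, 0, 0, 0⟩ ⟨0, 0, 0, 0, 0, 0, 523533, 0, 0, 0, 0, 0, 0⟩ ⟨0, 0, 0, 0, 0, 0, 523533, 0, 0, 0, 0, 0, 0⟩ ⟨2048, -51, -1190, 12, -7, 184, 456873, 0, 0, 0, 0, 0, 0⟩)))
    (.leaf (.box ⟨2048, -33, -1300, 11, -5, 223, 756981, 0, 0, 0, 0, 0, 0⟩ ⟨0, 0, 0, 0, 0, 0, 627431, 0, 0, 0, 0, 0, 0⟩ ⟨0, 0, 0, 0, 0, 0, 627431, 0, 0, 0, 0, 0, 0⟩ ⟨0, 0, 0, 0, 0, 0, 535744, 0, 0, 0, 0, 0, 0⟩ ⟨0, 0, 0, 0, 0, 0, 535744, 0, 0, 0, 0, 0, 0⟩ ⟨2048, -53, -1460, 18, -8, 230, 467436, 0, 0, 0, 0, 0, 0⟩)))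
    (.leaf (.box ⟨2048, -44, -1397, 16, -8, 240, 506943, 0, 0, 0, 0, 0, 0⟩ ⟨0, 0, 0, 0, 0, 0, 406955, 0, 0, 0, 0, 0, 0⟩ ⟨0, 0, 0, 0, 0, 0, 406955, 0, 0, 0, 0, 0, 0⟩ ⟨0, 0, 0, 0, 0, 0, 339911, 0, 0, 0, 0, 0, 0⟩ ⟨0, 0, 0, 0, 0, 0, 339911, 0, 0, 0, 0, 0, 0⟩ ⟨2048, -72, -1446, 26, -14, 238, 291833, 0, 0, 0, 0, 0, 0⟩)))
    (.s3
    (.s2
    (.leaf (.box ⟨2048, -171, -776, 15, -3, 131, 738873, 0, 0, 0, 0, 0, 0⟩ ⟨0, 0, 0, 0, 0, 0, 612538, 0, 0, 0, 0, 0, 0⟩ ⟨0, 0, 0, 0, 0, 0, 612538, 0, 0, 0, 0, 0, 0⟩ ⟨0, 0, 0, 0, 0, 0, 523097, 0, 0, 0, 0, 0, 0⟩ ⟨0, 0, 0, 0, 0, 0, 523097, 0, 0, 0, 0, 0, 0⟩ ⟨2048, -257, -803, 22, -4, 128, 456447, 0, 0, 0, 0, 0, 0⟩))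
    (.s3
    (.s0
    (.leaf (.box ⟨2048, -213, 278, 18, -9, 203, 916418, 0, 0, 0, 0, 0, 0⟩ ⟨0, 0, 0, 0, 0, 0, 784686, 0, 0, 0, 0, 0, 0⟩ ⟨0, 0, 0, 0, 0, 0, 784686, 0, 0, 0, 0, 0, 0⟩ ⟨0, 0, 0, 0, 0, 0, 686066, 0, 0, 0, 0, 0, 0⟩ ⟨0, 0, 0, 0, 0, 0, 686066, 0, 0, 0, 0, 0, 0⟩ ⟨2048, -323, 254, 27, -13, 190, 609467, 0, 0, 0, 0, 0, 0⟩))
    (.leaf (.box ⟨2048, -102, -1751, 13, -7, 323, 941021, 0, 0, 0, 0, 0, 0⟩ ⟨0, 0, 0, 0, 0, 0, 805783, 0, 0, 0, 0, 0, 0⟩ ⟨0, 0, 0, 0, 0, 0, 805783, 0, 0, 0, 0, 0, 0⟩ ⟨0, 0, 0, 0, 0, 0, 704532, 0, 0, 0, 0, 0, 0⟩ ⟨0, 0, 0, 0, 0, 0, 704532, 0, 0, 0, 0, 0, 0⟩ ⟨2048, -150, -1698, 19, -10, 305, 625885, 0, 0, 0, 0, 0, 0⟩)))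
    (.leaf (.box ⟨2048, -184, -590, 23, -7, 170, 709456, 0, 0, 0, 0, 0, 0⟩ ⟨0, 0, 0, 0, 0, 0, 588672, 0, 0, 0, 0, 0, 0⟩ ⟨0, 0, 0, 0, 0, 0, 588672, 0, 0, 0, 0, 0, 0⟩ ⟨0, 0, 0, 0, 0, 0, 503031, 0, 0, 0, 0, 0, 0⟩ ⟨0, 0, 0, 0, 0, 0, 503031, 0, 0, 0, 0, 0, 0⟩ ⟨2048, -277, -589, 34, -9, 158, 439143, 0, 0, 0, 0, 0, 0⟩))))
    (.s3
    (.leaf (.box ⟨2048, -185, -830, 24, -6, 175, 580406, 0, 0, 0, 0, 0, 0⟩ ⟨0, 0, 0, 0, 0, 0, 472646, 0, 0, 0, 0, 0, 0⟩ ⟨0, 0, 0, 0, 0, 0, 472646, 0, 0, 0, 0, 0, 0⟩ ⟨0, 0, 0, 0, 0, 0, 398634, 0, 0, 0, 0, 0, 0⟩ ⟨0, 0, 0, 0, 0, 0, 398634, 0, 0, 0, 0, 0, 0⟩ ⟨2048, -302, -836, 38, -9, 160, 344663, 0, 0, 0, 0, 0, 0⟩))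
    (.s2
    (.leaf (.box ⟨2048, -128, -1433, 17, -7, 239, 515480, 0, 0, 0, 0, 0, 0⟩ ⟨0, 0, 0, 0, 0, 0, 414510, 0, 0, 0, 0, 0, 0⟩ ⟨0, 0, 0, 0, 0, 0, 414510, 0, 0, 0, 0, 0, 0⟩ ⟨0, 0, 0, 0, 0, 0, 346616, 0, 0, 0, 0, 0, 0⟩ ⟨0, 0, 0, 0, 0, 0, 346616, 0, 0, 0, 0, 0, 0⟩ ⟨2048, -208, -1532, 27, -10, 229, 297833, 0, 0, 0, 0, 0, 0⟩))
    (.leaf (.box ⟨2048, -177, -982, 28, -12, 235, 492240, 0, 0, 0, 0, 0, 0⟩ ⟨0, 0, 0, 0, 0, 0, 395942, 0, 0, 0, 0, 0, 0⟩ ⟨0, 0, 0, 0, 0, 0, 395942, 0, 0, 0, 0, 0, 0⟩ ⟨0, 0, 0, 0, 0, 0, 331157, 0, 0, 0, 0, 0, 0⟩ ⟨0, 0, 0, 0, 0, 0, 331157, 0, 0, 0, 0, 0, 0⟩ ⟨2048, -286, -1046, 45, -18, 224, 284591, 0, 0, 0, 0, 0, 0⟩)))))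

/-- A piece of the tree. -/
noncomputable def tree77 : Tree LeafX :=
  .s0
    (.s2
    (.s3
    (.s1
    (.s1
    (.leaf (.box ⟨1562, -6, -4053, 6, -20, 799, 836777, 0, 0, 0, 0, 0, 0⟩ ⟨0, 0, 0, 0, 0, 0, 693485, 0, 0, 0, 0, 0, 0⟩ ⟨0, 0, 0, 0, 0, 0, 693485, 0, 0, 0, 0, 0, 0⟩ ⟨0, 0, 0, 0, 0, 0, 592093, 0, 0, 0, 0, 0, 0⟩ ⟨0, 0, 0, 0, 0, 0, 592093, 0, 0, 0, 0, 0, 0⟩ ⟨920, -6, -2459, 6, -20, 480, 516567, 0, 0, 0, 0, 0, 0⟩))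
    (.leaf (.box ⟨1750, -9, -4393, 6, -17, 724, 827043, 0, 0, 0, 0, 0, 0⟩ ⟨1229, -9, -3079, 6, -14, 506, 688636, 0, 0, 0, 0, 0, 0⟩ ⟨1229, -9, -3079, 6, -14, 506, 688636, 0, 0, 0, 0, 0, 0⟩ ⟨1162, -9, -2940, 6, -16, 482, 587249, 0, 0, 0, 0, 0, 0⟩ ⟨1162, -9, -2940, 6, -16, 482, 587249, 0, 0, 0, 0, 0, 0⟩ ⟨968, -9, -2459, 6, -15, 402, 510605, 0, 0, 0, 0, 0, 0⟩)))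
    (.leaf (.box ⟨1085, -16, -2295, 6, -6, 311, 808489, 0, 0, 0, 0, 0, 0⟩ ⟨0, 0, 0, 0, 0, 0, 670134, 0, 0, 0, 0, 0, 0⟩ ⟨0, 0, 0, 0, 0, 0, 670134, 0, 0, 0, 0, 0, 0⟩ ⟨0, 0, 0, 0, 0, 0, 572212, 0, 0, 0, 0, 0, 0⟩ ⟨0, 0, 0, 0, 0, 0, 572212, 0, 0, 0, 0, 0, 0⟩ ⟨954, -23, -2048, 9, -8, 274, 499258, 0, 0, 0, 0, 0, 0⟩)))
    (.s1
    (.leaf (.box ⟨857, -7, -2288, 6, -13, 371, 568324, 0, 0, 0, 0, 0, 0⟩ ⟨0, 0, 0, 0, 0, 0, 456117, 0, 0, 0, 0, 0, 0⟩ ⟨0, 0, 0, 0, 0, 0, 456117, 0, 0, 0, 0, 0, 0⟩ ⟨0, 0, 0, 0, 0, 0, 380911, 0, 0, 0, 0, 0, 0⟩ ⟨0, 0, 0, 0, 0, 0, 380911, 0, 0, 0, 0, 0, 0⟩ ⟨777, -10, -2048, 9, -20, 326, 326995, 0, 0, 0, 0, 0, 0⟩))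
    (.s2
    (.s3
    (.leaf (.box ⟨780, -14, -2484, 6, -8, 336, 676840, 0, 0, 0, 0, 0, 0⟩ ⟨0, 0, 0, 0, 0, 0, 550595, 0, 0, 0, 0, 0, 0⟩ ⟨0, 0, 0, 0, 0, 0, 550595, 0, 0, 0, 0, 0, 0⟩ ⟨0, 0, 0, 0, 0, 0, 464041, 0, 0, 0, 0, 0, 0⟩ ⟨0, 0, 0, 0, 0, 0, 464041, 0, 0, 0, 0, 0, 0⟩ ⟨658, -19, -2048, 8, -10, 271, 401003, 0, 0, 0, 0, 0, 0⟩))
    (.leaf (.box ⟨609, -14, -2268, 6, -8, 309, 571932, 0, 0, 0, 0, 0, 0⟩ ⟨0, 0, 0, 0, 0, 0, 459373, 0, 0, 0, 0, 0, 0⟩ ⟨0, 0, 0, 0, 0, 0, 459373, 0, 0, 0, 0, 0, 0⟩ ⟨0, 0, 0, 0, 0, 0, 383832, 0, 0, 0, 0, 0, 0⟩ ⟨0, 0, 0, 0, 0, 0, 383832, 0, 0, 0, 0, 0, 0⟩ ⟨564, -20, -2048, 9, -12, 271, 329627, 0, 0, 0, 0, 0, 0⟩)))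
    (.leaf (.box ⟨698, -14, -2423, 6, -10, 335, 557219, 0, 0, 0, 0, 0, 0⟩ ⟨0, 0, 0, 0, 0, 0, 447397, 0, 0, 0, 0, 0, 0⟩ ⟨0, 0, 0, 0, 0, 0, 447397, 0, 0, 0, 0, 0, 0⟩ ⟨0, 0, 0, 0, 0, 0, 373737, 0, 0, 0, 0, 0, 0⟩ ⟨0, 0, 0, 0, 0, 0, 373737, 0, 0, 0, 0, 0, 0⟩ ⟨602, -21, -2048, 9, -13, 276, 320903, 0, 0, 0, 0, 0, 0⟩)))))
    (.leaf (.box ⟨831, -13, -2048, 9, -12, 317, 537822, 0, 0, 0, 0, 0, 0⟩ ⟨0, 0, 0, 0, 0, 0, 431410, 0, 0, 0, 0, 0, 0⟩ ⟨0, 0, 0, 0, 0, 0, 431410, 0, 0, 0, 0, 0, 0⟩ ⟨0, 0, 0, 0, 0, 0, 360151, 0, 0, 0, 0, 0, 0⟩ ⟨0, 0, 0, 0, 0, 0, 360151, 0, 0, 0, 0, 0, 0⟩ ⟨829, -24, -2048, 16, -20, 313, 309095, 0, 0, 0, 0, 0, 0⟩)))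
    (.s1
    (.s1
    (.s3
    (.s0
    (.leaf (.box ⟨1657, -4, -5698, 6, -38, 1363, 864209, 0, 0, 0, 0, 0, 0⟩ ⟨0, 0, 0, 0, 0, 0, 716243, 0, 0, 0, 0, 0, 0⟩ ⟨0, 0, 0, 0, 0, 0, 716243, 0, 0, 0, 0, 0, 0⟩ ⟨0, 0, 0, 0, 0, 0, 611538, 0, 0, 0, 0, 0, 0⟩ ⟨0, 0, 0, 0, 0, 0, 611538, 0, 0, 0, 0, 0, 0⟩ ⟨1018, -4, -3550, 6, -38, 841, 533541, 0, 0, 0, 0, 0, 0⟩))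
    (.s3
    (.leaf (.box ⟨1670, -4, -5509, 6, -35, 1510, 1161957, 0, 0, 0, 0, 0, 0⟩ ⟨0, 0, 0, 0, 0, 0, 994624, 0, 0, 0, 0, 0, 0⟩ ⟨0, 0, 0, 0, 0, 0, 994624, 0, 0, 0, 0, 0, 0⟩ ⟨0, 0, 0, 0, 0, 0, 869419, 0, 0, 0, 0, 0, 0⟩ ⟨0, 0, 0, 0, 0, 0, 869419, 0, 0, 0, 0, 0, 0⟩ ⟨1059, -4, -3492, 6, -33, 951, 772211, 0, 0, 0, 0, 0, 0⟩))
    (.leaf (.box ⟨1559, -3, -5368, 6, -42, 1423, 895195, 0, 0, 0, 0, 0, 0⟩ ⟨0, 0, 0, 0, 0, 0, 742169, 0, 0, 0, 0, 0, 0⟩ ⟨0, 0, 0, 0, 0, 0, 742169, 0, 0, 0, 0, 0, 0⟩ ⟨0, 0, 0, 0, 0, 0, 633822, 0, 0, 0, 0, 0, 0⟩ ⟨0, 0, 0, 0, 0, 0, 633822, 0, 0, 0, 0, 0, 0⟩ ⟨845, -3, -2892, 6, -36, 758, 553079, 0, 0, 0, 0, 0, 0⟩))))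
    (.s2
    (.leaf (.box ⟨762, -4, -2351, 6, -25, 597, 600569, 0, 0, 0, 0, 0, 0⟩ ⟨0, 0, 0, 0, 0, 0, 481966, 0, 0, 0, 0, 0, 0⟩ ⟨0, 0, 0, 0, 0, 0, 481966, 0, 0, 0, 0, 0, 0⟩ ⟨0, 0, 0, 0, 0, 0, 402482, 0, 0, 0, 0, 0, 0⟩ ⟨0, 0, 0, 0, 0, 0, 402482, 0, 0, 0, 0, 0, 0⟩ ⟨635, -5, -2048, 8, -36, 499, 345502, 0, 0, 0, 0, 0, 0⟩))
    (.leaf (.box ⟨699, -4, -2959, 6, -28, 682, 594015, 0, 0, 0, 0, 0, 0⟩ ⟨0, 0, 0, 0, 0, 0, 476718, 0, 0, 0, 0, 0, 0⟩ ⟨0, 0, 0, 0, 0, 0, 476718, 0, 0, 0, 0, 0, 0⟩ ⟨0, 0, 0, 0, 0, 0, 398106, 0, 0, 0, 0, 0, 0⟩ ⟨0, 0, 0, 0, 0, 0, 398106, 0, 0, 0, 0, 0, 0⟩ ⟨493, -4, -2048, 7, -33, 463, 341750, 0, 0, 0, 0, 0, 0⟩))))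
    (.s3
    (.s3
    (.leaf (.box ⟨1569, -5, -5164, 6, -25, 1140, 1108648, 0, 0, 0, 0, 0, 0⟩ ⟨0, 0, 0, 0, 0, 0, 949023, 0, 0, 0, 0, 0, 0⟩ ⟨0, 0, 0, 0, 0, 0, 949023, 0, 0, 0, 0, 0, 0⟩ ⟨0, 0, 0, 0, 0, 0, 829579, 0, 0, 0, 0, 0, 0⟩ ⟨0, 0, 0, 0, 0, 0, 829579, 0, 0, 0, 0, 0, 0⟩ ⟨654, -5, -2152, 6, -18, 481, 736840, 0, 0, 0, 0, 0, 0⟩))
    (.leaf (.box ⟨1070, -5, -3640, 6, -22, 783, 854573, 0, 0, 0, 0, 0, 0⟩ ⟨0, 0, 0, 0, 0, 0, 708555, 0, 0, 0, 0, 0, 0⟩ ⟨0, 0, 0, 0, 0, 0, 708555, 0, 0, 0, 0, 0, 0⟩ ⟨0, 0, 0, 0, 0, 0, 605155, 0, 0, 0, 0, 0, 0⟩ ⟨0, 0, 0, 0, 0, 0, 605155, 0, 0, 0, 0, 0, 0⟩ ⟨802, -5, -2704, 6, -26, 575, 528089, 0, 0, 0, 0, 0, 0⟩)))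
    (.leaf (.box ⟨849, -5, -2902, 6, -24, 604, 585870, 0, 0, 0, 0, 0, 0⟩ ⟨0, 0, 0, 0, 0, 0, 470279, 0, 0, 0, 0, 0, 0⟩ ⟨0, 0, 0, 0, 0, 0, 470279, 0, 0, 0, 0, 0, 0⟩ ⟨0, 0, 0, 0, 0, 0, 392784, 0, 0, 0, 0, 0, 0⟩ ⟨0, 0, 0, 0, 0, 0, 392784, 0, 0, 0, 0, 0, 0⟩ ⟨613, -6, -2048, 8, -29, 418, 337215, 0, 0, 0, 0, 0, 0⟩))))
    (.s3
    (.leaf (.box ⟨789, -9, -2409, 6, -12, 439, 828994, 0, 0, 0, 0, 0, 0⟩ ⟨0, 0, 0, 0, 0, 0, 687165, 0, 0, 0, 0, 0, 0⟩ ⟨0, 0, 0, 0, 0, 0, 687165, 0, 0, 0, 0, 0, 0⟩ ⟨0, 0, 0, 0, 0, 0, 586776, 0, 0, 0, 0, 0, 0⟩ ⟨0, 0, 0, 0, 0, 0, 586776, 0, 0, 0, 0, 0, 0⟩ ⟨698, -17, -2048, 12, -21, 370, 511980, 0, 0, 0, 0, 0, 0⟩))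
    (.leaf (.box ⟨605, -9, -2048, 7, -13, 360, 572244, 0, 0, 0, 0, 0, 0⟩ ⟨0, 0, 0, 0, 0, 0, 459565, 0, 0, 0, 0, 0, 0⟩ ⟨0, 0, 0, 0, 0, 0, 459565, 0, 0, 0, 0, 0, 0⟩ ⟨0, 0, 0, 0, 0, 0, 383960, 0, 0, 0, 0, 0, 0⟩ ⟨0, 0, 0, 0, 0, 0, 383960, 0, 0, 0, 0, 0, 0⟩ ⟨620, -16, -2048, 12, -22, 354, 329716, 0, 0, 0, 0, 0, 0⟩))))

/-- A piece of the tree. -/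
noncomputable def tree78 : Tree LeafX :=
  .s2
    (.leaf (.box ⟨923, -90, -2048, 23, -5, 239, 526538, 0, 0, 0, 0, 0, 0⟩ ⟨0, 0, 0, 0, 0, 0, 422468, 0, 0, 0, 0, 0, 0⟩ ⟨0, 0, 0, 0, 0, 0, 422468, 0, 0, 0, 0, 0, 0⟩ ⟨0, 0, 0, 0, 0, 0, 352748, 0, 0, 0, 0, 0, 0⟩ ⟨0, 0, 0, 0, 0, 0, 352748, 0, 0, 0, 0, 0, 0⟩ ⟨895, -115, -2048, 29, -18, 251, 302779, 0, 0, 0, 0, 0, 0⟩))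
    (.s2
    (.s3
    (.leaf (.box ⟨680, -36, -2048, 10, -7, 300, 758159, 0, 0, 0, 0, 0, 0⟩ ⟨0, 0, 0, 0, 0, 0, 628601, 0, 0, 0, 0, 0, 0⟩ ⟨0, 0, 0, 0, 0, 0, 628601, 0, 0, 0, 0, 0, 0⟩ ⟨0, 0, 0, 0, 0, 0, 536860, 0, 0, 0, 0, 0, 0⟩ ⟨0, 0, 0, 0, 0, 0, 536860, 0, 0, 0, 0, 0, 0⟩ ⟨684, -65, -2048, 18, -10, 296, 468486, 0, 0, 0, 0, 0, 0⟩))
    (.s2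
    (.leaf (.box ⟨431, -40, -2048, 12, -8, 289, 530853, 0, 0, 0, 0, 0, 0⟩ ⟨0, 0, 0, 0, 0, 0, 426748, 0, 0, 0, 0, 0, 0⟩ ⟨0, 0, 0, 0, 0, 0, 426748, 0, 0, 0, 0, 0, 0⟩ ⟨0, 0, 0, 0, 0, 0, 356780, 0, 0, 0, 0, 0, 0⟩ ⟨0, 0, 0, 0, 0, 0, 356780, 0, 0, 0, 0, 0, 0⟩ ⟨477, -72, -2048, 21, -13, 280, 306523, 0, 0, 0, 0, 0, 0⟩))
    (.leaf (.box ⟨366, -32, -2048, 10, -10, 298, 527165, 0, 0, 0, 0, 0, 0⟩ ⟨0, 0, 0, 0, 0, 0, 423804, 0, 0, 0, 0, 0, 0⟩ ⟨0, 0, 0, 0, 0, 0, 423804, 0, 0, 0, 0, 0, 0⟩ ⟨0, 0, 0, 0, 0, 0, 354330, 0, 0, 0, 0, 0, 0⟩ ⟨0, 0, 0, 0, 0, 0, 354330, 0, 0, 0, 0, 0, 0⟩ ⟨398, -56, -2048, 18, -15, 290, 304425, 0, 0, 0, 0, 0, 0⟩))))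
    (.leaf (.box ⟨517, -32, -2048, 11, -13, 318, 513282, 0, 0, 0, 0, 0, 0⟩ ⟨0, 0, 0, 0, 0, 0, 411849, 0, 0, 0, 0, 0, 0⟩ ⟨0, 0, 0, 0, 0, 0, 411849, 0, 0, 0, 0, 0, 0⟩ ⟨0, 0, 0, 0, 0, 0, 343890, 0, 0, 0, 0, 0, 0⟩ ⟨0, 0, 0, 0, 0, 0, 343890, 0, 0, 0, 0, 0, 0⟩ ⟨603, -58, -2048, 21, -21, 314, 295182, 0, 0, 0, 0, 0, 0⟩)))

/-- A piece of the tree. -/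
noncomputable def tree79 : Tree LeafX :=
  .s1
    (.s3
    (.s1
    (.s2
    (.leaf (.box ⟨899, -3, -2247, 6, -26, 795, 928777, 0, 0, 0, 0, 0, 0⟩ ⟨0, 0, 0, 0, 0, 0, 769765, 0, 0, 0, 0, 0, 0⟩ ⟨0, 0, 0, 0, 0, 0, 769765, 0, 0, 0, 0, 0, 0⟩ ⟨0, 0, 0, 0, 0, 0, 657241, 0, 0, 0, 0, 0, 0⟩ ⟨0, 0, 0, 0, 0, 0, 657241, 0, 0, 0, 0, 0, 0⟩ ⟨841, -3, -2048, 8, -38, 719, 573418, 0, 0, 0, 0, 0, 0⟩))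
    (.leaf (.box ⟨837, -3, -3006, 6, -29, 875, 926357, 0, 0, 0, 0, 0, 0⟩ ⟨0, 0, 0, 0, 0, 0, 767764, 0, 0, 0, 0, 0, 0⟩ ⟨0, 0, 0, 0, 0, 0, 767764, 0, 0, 0, 0, 0, 0⟩ ⟨0, 0, 0, 0, 0, 0, 655535, 0, 0, 0, 0, 0, 0⟩ ⟨0, 0, 0, 0, 0, 0, 655535, 0, 0, 0, 0, 0, 0⟩ ⟨578, -3, -2048, 7, -31, 592, 571932, 0, 0, 0, 0, 0, 0⟩)))
    (.s2
    (.s2
    (.leaf (.box ⟨1019, -3, -2987, 6, -29, 928, 920548, 0, 0, 0, 0, 0, 0⟩ ⟨0, 0, 0, 0, 0, 0, 762969, 0, 0, 0, 0, 0, 0⟩ ⟨0, 0, 0, 0, 0, 0, 762969, 0, 0, 0, 0, 0, 0⟩ ⟨0, 0, 0, 0, 0, 0, 651453, 0, 0, 0, 0, 0, 0⟩ ⟨0, 0, 0, 0, 0, 0, 651453, 0, 0, 0, 0, 0, 0⟩ ⟨717, -4, -2048, 7, -32, 631, 568378, 0, 0, 0, 0, 0, 0⟩))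
    (.leaf (.box ⟨851, -4, -2757, 6, -25, 781, 912380, 0, 0, 0, 0, 0, 0⟩ ⟨0, 0, 0, 0, 0, 0, 756211, 0, 0, 0, 0, 0, 0⟩ ⟨0, 0, 0, 0, 0, 0, 756211, 0, 0, 0, 0, 0, 0⟩ ⟨0, 0, 0, 0, 0, 0, 645689, 0, 0, 0, 0, 0, 0⟩ ⟨0, 0, 0, 0, 0, 0, 645689, 0, 0, 0, 0, 0, 0⟩ ⟨630, -4, -2048, 7, -30, 576, 563354, 0, 0, 0, 0, 0, 0⟩)))
    (.leaf (.box ⟨867, -4, -3460, 6, -28, 869, 910208, 0, 0, 0, 0, 0, 0⟩ ⟨0, 0, 0, 0, 0, 0, 754416, 0, 0, 0, 0, 0, 0⟩ ⟨0, 0, 0, 0, 0, 0, 754416, 0, 0, 0, 0, 0, 0⟩ ⟨0, 0, 0, 0, 0, 0, 644160, 0, 0, 0, 0, 0, 0⟩ ⟨0, 0, 0, 0, 0, 0, 644160, 0, 0, 0, 0, 0, 0⟩ ⟨565, -4, -2224, 6, -29, 555, 562022, 0, 0, 0, 0, 0, 0⟩))))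
    (.s2
    (.leaf (.box ⟨910, -4, -2048, 8, -29, 616, 627941, 0, 0, 0, 0, 0, 0⟩ ⟨0, 0, 0, 0, 0, 0, 504078, 0, 0, 0, 0, 0, 0⟩ ⟨0, 0, 0, 0, 0, 0, 504078, 0, 0, 0, 0, 0, 0⟩ ⟨0, 0, 0, 0, 0, 0, 421029, 0, 0, 0, 0, 0, 0⟩ ⟨0, 0, 0, 0, 0, 0, 421029, 0, 0, 0, 0, 0, 0⟩ ⟨855, -7, -2048, 14, -52, 592, 361474, 0, 0, 0, 0, 0, 0⟩))
    (.leaf (.box ⟨661, -3, -2048, 7, -24, 523, 626585, 0, 0, 0, 0, 0, 0⟩ ⟨0, 0, 0, 0, 0, 0, 503006, 0, 0, 0, 0, 0, 0⟩ ⟨0, 0, 0, 0, 0, 0, 503006, 0, 0, 0, 0, 0, 0⟩ ⟨0, 0, 0, 0, 0, 0, 420142, 0, 0, 0, 0, 0, 0⟩ ⟨0, 0, 0, 0, 0, 0, 420142, 0, 0, 0, 0, 0, 0⟩ ⟨643, -5, -2048, 11, -41, 515, 360718, 0, 0, 0, 0, 0, 0⟩))))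
    (.s3
    (.s1
    (.s3
    (.s2
    (.leaf (.box ⟨1208, -5, -3867, 6, -24, 1003, 1168560, 0, 0, 0, 0, 0, 0⟩ ⟨0, 0, 0, 0, 0, 0, 1000373, 0, 0, 0, 0, 0, 0⟩ ⟨0, 0, 0, 0, 0, 0, 1000373, 0, 0, 0, 0, 0, 0⟩ ⟨0, 0, 0, 0, 0, 0, 874507, 0, 0, 0, 0, 0, 0⟩ ⟨0, 0, 0, 0, 0, 0, 874507, 0, 0, 0, 0, 0, 0⟩ ⟨739, -5, -2583, 6, -23, 652, 776774, 0, 0, 0, 0, 0, 0⟩))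
    (.leaf (.box ⟨1157, -5, -5430, 6, -30, 1222, 1166025, 0, 0, 0, 0, 0, 0⟩ ⟨0, 0, 0, 0, 0, 0, 998211, 0, 0, 0, 0, 0, 0⟩ ⟨0, 0, 0, 0, 0, 0, 998211, 0, 0, 0, 0, 0, 0⟩ ⟨0, 0, 0, 0, 0, 0, 872624, 0, 0, 0, 0, 0, 0⟩ ⟨0, 0, 0, 0, 0, 0, 872624, 0, 0, 0, 0, 0, 0⟩ ⟨775, -5, -3575, 6, -29, 801, 775105, 0, 0, 0, 0, 0, 0⟩)))
    (.leaf (.box ⟨975, -5, -3004, 6, -22, 701, 896984, 0, 0, 0, 0, 0, 0⟩ ⟨0, 0, 0, 0, 0, 0, 743867, 0, 0, 0, 0, 0, 0⟩ ⟨0, 0, 0, 0, 0, 0, 743867, 0, 0, 0, 0, 0, 0⟩ ⟨0, 0, 0, 0, 0, 0, 635403, 0, 0, 0, 0, 0, 0⟩ ⟨0, 0, 0, 0, 0, 0, 635403, 0, 0, 0, 0, 0, 0⟩ ⟨644, -6, -2048, 7, -23, 473, 554543, 0, 0, 0, 0, 0, 0⟩)))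
    (.s2
    (.leaf (.box ⟨752, -7, -2656, 6, -18, 599, 884150, 0, 0, 0, 0, 0, 0⟩ ⟨0, 0, 0, 0, 0, 0, 732896, 0, 0, 0, 0, 0, 0⟩ ⟨0, 0, 0, 0, 0, 0, 732896, 0, 0, 0, 0, 0, 0⟩ ⟨0, 0, 0, 0, 0, 0, 625833, 0, 0, 0, 0, 0, 0⟩ ⟨0, 0, 0, 0, 0, 0, 625833, 0, 0, 0, 0, 0, 0⟩ ⟨580, -8, -2048, 8, -24, 450, 546062, 0, 0, 0, 0, 0, 0⟩))
    (.leaf (.box ⟨830, -6, -4196, 6, -26, 846, 882430, 0, 0, 0, 0, 0, 0⟩ ⟨0, 0, 0, 0, 0, 0, 731478, 0, 0, 0, 0, 0, 0⟩ ⟨0, 0, 0, 0, 0, 0, 731478, 0, 0, 0, 0, 0, 0⟩ ⟨0, 0, 0, 0, 0, 0, 624626, 0, 0, 0, 0, 0, 0⟩ ⟨0, 0, 0, 0, 0, 0, 624626, 0, 0, 0, 0, 0, 0⟩ ⟨490, -6, -2423, 6, -24, 486, 545012, 0, 0, 0, 0, 0, 0⟩))))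
    (.s3
    (.leaf (.box ⟨647, -6, -2048, 7, -17, 458, 721785, 0, 0, 0, 0, 0, 0⟩ ⟨0, 0, 0, 0, 0, 0, 587405, 0, 0, 0, 0, 0, 0⟩ ⟨0, 0, 0, 0, 0, 0, 587405, 0, 0, 0, 0, 0, 0⟩ ⟨0, 0, 0, 0, 0, 0, 495209, 0, 0, 0, 0, 0, 0⟩ ⟨0, 0, 0, 0, 0, 0, 495209, 0, 0, 0, 0, 0, 0⟩ ⟨661, -8, -2048, 9, -28, 448, 428027, 0, 0, 0, 0, 0, 0⟩))
    (.leaf (.box ⟨676, -6, -2048, 7, -18, 432, 610808, 0, 0, 0, 0, 0, 0⟩ ⟨0, 0, 0, 0, 0, 0, 490886, 0, 0, 0, 0, 0, 0⟩ ⟨0, 0, 0, 0, 0, 0, 490886, 0, 0, 0, 0, 0, 0⟩ ⟨0, 0, 0, 0, 0, 0, 410326, 0, 0, 0, 0, 0, 0⟩ ⟨0, 0, 0, 0, 0, 0, 410326, 0, 0, 0, 0, 0, 0⟩ ⟨678, -11, -2048, 12, -31, 424, 352479, 0, 0, 0, 0, 0, 0⟩))))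

/-- A piece of the tree. -/
noncomputable def tree80 : Tree LeafX :=
  .s1
    (.s3
    (.s0
    (.leaf (.box ⟨1115, -2, -2440, 6, -29, 823, 979043, 0, 0, 0, 0, 0, 0⟩ ⟨0, 0, 0, 0, 0, 0, 811474, 0, 0, 0, 0, 0, 0⟩ ⟨0, 0, 0, 0, 0, 0, 811474, 0, 0, 0, 0, 0, 0⟩ ⟨0, 0, 0, 0, 0, 0, 692882, 0, 0, 0, 0, 0, 0⟩ ⟨0, 0, 0, 0, 0, 0, 692882, 0, 0, 0, 0, 0, 0⟩ ⟨913, -3, -2048, 8, -38, 679, 604533, 0, 0, 0, 0, 0, 0⟩))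
    (.leaf (.box ⟨1027, -2, -2060, 6, -28, 756, 1021966, 0, 0, 0, 0, 0, 0⟩ ⟨0, 0, 0, 0, 0, 0, 847052, 0, 0, 0, 0, 0, 0⟩ ⟨0, 0, 0, 0, 0, 0, 847052, 0, 0, 0, 0, 0, 0⟩ ⟨0, 0, 0, 0, 0, 0, 723262, 0, 0, 0, 0, 0, 0⟩ ⟨0, 0, 0, 0, 0, 0, 723262, 0, 0, 0, 0, 0, 0⟩ ⟨1029, -3, -2048, 9, -44, 747, 631040, 0, 0, 0, 0, 0, 0⟩)))
    (.leaf (.box ⟨985, -4, -2048, 11, -35, 675, 674082, 0, 0, 0, 0, 0, 0⟩ ⟨0, 0, 0, 0, 0, 0, 541148, 0, 0, 0, 0, 0, 0⟩ ⟨0, 0, 0, 0, 0, 0, 541148, 0, 0, 0, 0, 0, 0⟩ ⟨0, 0, 0, 0, 0, 0, 452008, 0, 0, 0, 0, 0, 0⟩ ⟨0, 0, 0, 0, 0, 0, 452008, 0, 0, 0, 0, 0, 0⟩ ⟨988, -6, -2048, 18, -59, 664, 388081, 0, 0, 0, 0, 0, 0⟩)))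
    (.s2
    (.s3
    (.s2
    (.leaf (.box ⟨767, -4, -2048, 7, -23, 649, 949105, 0, 0, 0, 0, 0, 0⟩ ⟨0, 0, 0, 0, 0, 0, 786738, 0, 0, 0, 0, 0, 0⟩ ⟨0, 0, 0, 0, 0, 0, 786738, 0, 0, 0, 0, 0, 0⟩ ⟨0, 0, 0, 0, 0, 0, 671809, 0, 0, 0, 0, 0, 0⟩ ⟨0, 0, 0, 0, 0, 0, 671809, 0, 0, 0, 0, 0, 0⟩ ⟨790, -6, -2048, 10, -36, 645, 586178, 0, 0, 0, 0, 0, 0⟩))
    (.leaf (.box ⟨682, -4, -2071, 6, -21, 587, 946848, 0, 0, 0, 0, 0, 0⟩ ⟨0, 0, 0, 0, 0, 0, 784879, 0, 0, 0, 0, 0, 0⟩ ⟨0, 0, 0, 0, 0, 0, 784879, 0, 0, 0, 0, 0, 0⟩ ⟨0, 0, 0, 0, 0, 0, 670229, 0, 0, 0, 0, 0, 0⟩ ⟨0, 0, 0, 0, 0, 0, 670229, 0, 0, 0, 0, 0, 0⟩ ⟨688, -6, -2048, 9, -33, 577, 584804, 0, 0, 0, 0, 0, 0⟩)))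
    (.leaf (.box ⟨766, -5, -2048, 9, -28, 574, 653862, 0, 0, 0, 0, 0, 0⟩ ⟨0, 0, 0, 0, 0, 0, 525181, 0, 0, 0, 0, 0, 0⟩ ⟨0, 0, 0, 0, 0, 0, 525181, 0, 0, 0, 0, 0, 0⟩ ⟨0, 0, 0, 0, 0, 0, 438820, 0, 0, 0, 0, 0, 0⟩ ⟨0, 0, 0, 0, 0, 0, 438820, 0, 0, 0, 0, 0, 0⟩ ⟨778, -9, -2048, 15, -48, 565, 376850, 0, 0, 0, 0, 0, 0⟩)))
    (.s3
    (.s3
    (.leaf (.box ⟨927, -4, -3289, 6, -22, 817, 1233859, 0, 0, 0, 0, 0, 0⟩ ⟨0, 0, 0, 0, 0, 0, 1056356, 0, 0, 0, 0, 0, 0⟩ ⟨0, 0, 0, 0, 0, 0, 1056356, 0, 0, 0, 0, 0, 0⟩ ⟨0, 0, 0, 0, 0, 0, 923501, 0, 0, 0, 0, 0, 0⟩ ⟨0, 0, 0, 0, 0, 0, 923501, 0, 0, 0, 0, 0, 0⟩ ⟨760, -4, -2385, 6, -23, 556, 820330, 0, 0, 0, 0, 0, 0⟩))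
    (.leaf (.box ⟨729, -4, -2745, 6, -23, 665, 953221, 0, 0, 0, 0, 0, 0⟩ ⟨0, 0, 0, 0, 0, 0, 790653, 0, 0, 0, 0, 0, 0⟩ ⟨0, 0, 0, 0, 0, 0, 790653, 0, 0, 0, 0, 0, 0⟩ ⟨0, 0, 0, 0, 0, 0, 675457, 0, 0, 0, 0, 0, 0⟩ ⟨0, 0, 0, 0, 0, 0, 675457, 0, 0, 0, 0, 0, 0⟩ ⟨564, -5, -2048, 8, -28, 493, 589559, 0, 0, 0, 0, 0, 0⟩)))
    (.leaf (.box ⟨545, -4, -2048, 6, -24, 480, 654952, 0, 0, 0, 0, 0, 0⟩ ⟨0, 0, 0, 0, 0, 0, 526070, 0, 0, 0, 0, 0, 0⟩ ⟨0, 0, 0, 0, 0, 0, 526070, 0, 0, 0, 0, 0, 0⟩ ⟨0, 0, 0, 0, 0, 0, 439571, 0, 0, 0, 0, 0, 0⟩ ⟨0, 0, 0, 0, 0, 0, 439571, 0, 0, 0, 0, 0, 0⟩ ⟨551, -7, -2048, 11, -40, 474, 377500, 0, 0, 0, 0, 0, 0⟩))))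

/-- A piece of the tree. -/
noncomputable def tree81 : Tree LeafX :=
  .s1
    (.leaf (.box ⟨1510, -5, -2048, 24, -55, 881, 732221, 0, 0, 0, 0, 0, 0⟩ ⟨0, 0, 0, 0, 0, 0, 587315, 0, 0, 0, 0, 0, 0⟩ ⟨0, 0, 0, 0, 0, 0, 587315, 0, 0, 0, 0, 0, 0⟩ ⟨0, 0, 0, 0, 0, 0, 490287, 0, 0, 0, 0, 0, 0⟩ ⟨0, 0, 0, 0, 0, 0, 490287, 0, 0, 0, 0, 0, 0⟩ ⟨1525, -9, -2048, 42, -95, 873, 420772, 0, 0, 0, 0, 0, 0⟩))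
    (.s3
    (.s2
    (.leaf (.box ⟨1146, -5, -2048, 14, -34, 806, 1027079, 0, 0, 0, 0, 0, 0⟩ ⟨0, 0, 0, 0, 0, 0, 851377, 0, 0, 0, 0, 0, 0⟩ ⟨0, 0, 0, 0, 0, 0, 851377, 0, 0, 0, 0, 0, 0⟩ ⟨0, 0, 0, 0, 0, 0, 727007, 0, 0, 0, 0, 0, 0⟩ ⟨0, 0, 0, 0, 0, 0, 727007, 0, 0, 0, 0, 0, 0⟩ ⟨1165, -8, -2048, 22, -55, 802, 634342, 0, 0, 0, 0, 0, 0⟩))
    (.leaf (.box ⟨772, -4, -2048, 10, -26, 610, 1034654, 0, 0, 0, 0, 0, 0⟩ ⟨0, 0, 0, 0, 0, 0, 857679, 0, 0, 0, 0, 0, 0⟩ ⟨0, 0, 0, 0, 0, 0, 857679, 0, 0, 0, 0, 0, 0⟩ ⟨0, 0, 0, 0, 0, 0, 732403, 0, 0, 0, 0, 0, 0⟩ ⟨0, 0, 0, 0, 0, 0, 732403, 0, 0, 0, 0, 0, 0⟩ ⟨788, -7, -2048, 17, -42, 608, 639059, 0, 0, 0, 0, 0, 0⟩)))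
    (.leaf (.box ⟨1082, -7, -2048, 18, -40, 654, 707835, 0, 0, 0, 0, 0, 0⟩ ⟨0, 0, 0, 0, 0, 0, 568510, 0, 0, 0, 0, 0, 0⟩ ⟨0, 0, 0, 0, 0, 0, 568510, 0, 0, 0, 0, 0, 0⟩ ⟨0, 0, 0, 0, 0, 0, 475011, 0, 0, 0, 0, 0, 0⟩ ⟨0, 0, 0, 0, 0, 0, 475011, 0, 0, 0, 0, 0, 0⟩ ⟨1084, -12, -2048, 31, -68, 646, 407923, 0, 0, 0, 0, 0, 0⟩)))

/-- A piece of the tree. -/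
noncomputable def tree82 : Tree LeafX :=
  .s0
    (.s3
    (.s3
    (.leaf (.box ⟨679, -11, -2289, 6, -10, 444, 1085390, 0, 0, 0, 0, 0, 0⟩ ⟨0, 0, 0, 0, 0, 0, 929507, 0, 0, 0, 0, 0, 0⟩ ⟨0, 0, 0, 0, 0, 0, 929507, 0, 0, 0, 0, 0, 0⟩ ⟨0, 0, 0, 0, 0, 0, 812776, 0, 0, 0, 0, 0, 0⟩ ⟨0, 0, 0, 0, 0, 0, 812776, 0, 0, 0, 0, 0, 0⟩ ⟨638, -17, -2048, 9, -13, 395, 722092, 0, 0, 0, 0, 0, 0⟩))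
    (.leaf (.box ⟨687, -18, -2048, 10, -10, 363, 842223, 0, 0, 0, 0, 0, 0⟩ ⟨0, 0, 0, 0, 0, 0, 699114, 0, 0, 0, 0, 0, 0⟩ ⟨0, 0, 0, 0, 0, 0, 699114, 0, 0, 0, 0, 0, 0⟩ ⟨0, 0, 0, 0, 0, 0, 597575, 0, 0, 0, 0, 0, 0⟩ ⟨0, 0, 0, 0, 0, 0, 597575, 0, 0, 0, 0, 0, 0⟩ ⟨636, -22, -2048, 12, -17, 384, 521790, 0, 0, 0, 0, 0, 0⟩)))
    (.leaf (.box ⟨665, -23, -2048, 13, -14, 353, 581200, 0, 0, 0, 0, 0, 0⟩ ⟨0, 0, 0, 0, 0, 0, 467416, 0, 0, 0, 0, 0, 0⟩ ⟨0, 0, 0, 0, 0, 0, 467416, 0, 0, 0, 0, 0, 0⟩ ⟨0, 0, 0, 0, 0, 0, 390889, 0, 0, 0, 0, 0, 0⟩ ⟨0, 0, 0, 0, 0, 0, 390889, 0, 0, 0, 0, 0, 0⟩ ⟨635, -53, -2048, 30, -36, 370, 335895, 0, 0, 0, 0, 0, 0⟩)))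
    (.s1
    (.s3
    (.s3
    (.s2
    (.leaf (.box ⟨837, -6, -2740, 6, -17, 674, 1194062, 0, 0, 0, 0, 0, 0⟩ ⟨0, 0, 0, 0, 0, 0, 1022418, 0, 0, 0, 0, 0, 0⟩ ⟨0, 0, 0, 0, 0, 0, 1022418, 0, 0, 0, 0, 0, 0⟩ ⟨0, 0, 0, 0, 0, 0, 893919, 0, 0, 0, 0, 0, 0⟩ ⟨0, 0, 0, 0, 0, 0, 893919, 0, 0, 0, 0, 0, 0⟩ ⟨632, -9, -2048, 8, -19, 501, 794113, 0, 0, 0, 0, 0, 0⟩))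
    (.leaf (.box ⟨866, -6, -3924, 6, -22, 821, 1196530, 0, 0, 0, 0, 0, 0⟩ ⟨0, 0, 0, 0, 0, 0, 1024540, 0, 0, 0, 0, 0, 0⟩ ⟨0, 0, 0, 0, 0, 0, 1024540, 0, 0, 0, 0, 0, 0⟩ ⟨0, 0, 0, 0, 0, 0, 895779, 0, 0, 0, 0, 0, 0⟩ ⟨0, 0, 0, 0, 0, 0, 895779, 0, 0, 0, 0, 0, 0⟩ ⟨555, -6, -2506, 6, -21, 522, 795769, 0, 0, 0, 0, 0, 0⟩)))
    (.leaf (.box ⟨752, -6, -2264, 6, -17, 496, 920196, 0, 0, 0, 0, 0, 0⟩ ⟨0, 0, 0, 0, 0, 0, 763544, 0, 0, 0, 0, 0, 0⟩ ⟨0, 0, 0, 0, 0, 0, 763544, 0, 0, 0, 0, 0, 0⟩ ⟨0, 0, 0, 0, 0, 0, 652469, 0, 0, 0, 0, 0, 0⟩ ⟨0, 0, 0, 0, 0, 0, 652469, 0, 0, 0, 0, 0, 0⟩ ⟨685, -9, -2048, 9, -24, 445, 569606, 0, 0, 0, 0, 0, 0⟩)))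
    (.leaf (.box ⟨679, -8, -2048, 8, -20, 434, 633609, 0, 0, 0, 0, 0, 0⟩ ⟨0, 0, 0, 0, 0, 0, 509241, 0, 0, 0, 0, 0, 0⟩ ⟨0, 0, 0, 0, 0, 0, 509241, 0, 0, 0, 0, 0, 0⟩ ⟨0, 0, 0, 0, 0, 0, 425685, 0, 0, 0, 0, 0, 0⟩ ⟨0, 0, 0, 0, 0, 0, 425685, 0, 0, 0, 0, 0, 0⟩ ⟨662, -13, -2048, 13, -37, 455, 365683, 0, 0, 0, 0, 0, 0⟩)))
    (.s3
    (.leaf (.box ⟨622, -10, -2048, 7, -13, 404, 888076, 0, 0, 0, 0, 0, 0⟩ ⟨0, 0, 0, 0, 0, 0, 736392, 0, 0, 0, 0, 0, 0⟩ ⟨0, 0, 0, 0, 0, 0, 736392, 0, 0, 0, 0, 0, 0⟩ ⟨0, 0, 0, 0, 0, 0, 628965, 0, 0, 0, 0, 0, 0⟩ ⟨0, 0, 0, 0, 0, 0, 628965, 0, 0, 0, 0, 0, 0⟩ ⟨551, -15, -2048, 10, -23, 426, 548890, 0, 0, 0, 0, 0, 0⟩))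
    (.leaf (.box ⟨583, -14, -2048, 10, -17, 387, 619375, 0, 0, 0, 0, 0, 0⟩ ⟨0, 0, 0, 0, 0, 0, 498149, 0, 0, 0, 0, 0, 0⟩ ⟨0, 0, 0, 0, 0, 0, 498149, 0, 0, 0, 0, 0, 0⟩ ⟨0, 0, 0, 0, 0, 0, 416609, 0, 0, 0, 0, 0, 0⟩ ⟨0, 0, 0, 0, 0, 0, 416609, 0, 0, 0, 0, 0, 0⟩ ⟨591, -23, -2048, 16, -29, 382, 358007, 0, 0, 0, 0, 0, 0⟩))))

/-- A piece of the tree. -/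
noncomputable def tree83 : Tree LeafX :=
  .s2
    (.s1
    (.s3
    (.leaf (.box ⟨961, -8, -2048, 13, -28, 649, 990018, 0, 0, 0, 0, 0, 0⟩ ⟨0, 0, 0, 0, 0, 0, 820775, 0, 0, 0, 0, 0, 0⟩ ⟨0, 0, 0, 0, 0, 0, 820775, 0, 0, 0, 0, 0, 0⟩ ⟨0, 0, 0, 0, 0, 0, 700948, 0, 0, 0, 0, 0, 0⟩ ⟨0, 0, 0, 0, 0, 0, 700948, 0, 0, 0, 0, 0, 0⟩ ⟨817, -12, -2048, 20, -42, 607, 611651, 0, 0, 0, 0, 0, 0⟩))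
    (.leaf (.box ⟨913, -11, -2048, 18, -36, 611, 686772, 0, 0, 0, 0, 0, 0⟩ ⟨0, 0, 0, 0, 0, 0, 551931, 0, 0, 0, 0, 0, 0⟩ ⟨0, 0, 0, 0, 0, 0, 551931, 0, 0, 0, 0, 0, 0⟩ ⟨0, 0, 0, 0, 0, 0, 461350, 0, 0, 0, 0, 0, 0⟩ ⟨0, 0, 0, 0, 0, 0, 461350, 0, 0, 0, 0, 0, 0⟩ ⟨928, -19, -2048, 31, -61, 603, 396308, 0, 0, 0, 0, 0, 0⟩)))
    (.s0
    (.s3
    (.leaf (.box ⟨576, -7, -2048, 7, -19, 513, 960429, 0, 0, 0, 0, 0, 0⟩ ⟨0, 0, 0, 0, 0, 0, 796374, 0, 0, 0, 0, 0, 0⟩ ⟨0, 0, 0, 0, 0, 0, 796374, 0, 0, 0, 0, 0, 0⟩ ⟨0, 0, 0, 0, 0, 0, 680188, 0, 0, 0, 0, 0, 0⟩ ⟨0, 0, 0, 0, 0, 0, 680188, 0, 0, 0, 0, 0, 0⟩ ⟨589, -11, -2048, 10, -31, 510, 593587, 0, 0, 0, 0, 0, 0⟩))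
    (.leaf (.box ⟨539, -10, -2048, 9, -25, 485, 669512, 0, 0, 0, 0, 0, 0⟩ ⟨0, 0, 0, 0, 0, 0, 538435, 0, 0, 0, 0, 0, 0⟩ ⟨0, 0, 0, 0, 0, 0, 538435, 0, 0, 0, 0, 0, 0⟩ ⟨0, 0, 0, 0, 0, 0, 450280, 0, 0, 0, 0, 0, 0⟩ ⟨0, 0, 0, 0, 0, 0, 450280, 0, 0, 0, 0, 0, 0⟩ ⟨546, -16, -2048, 15, -42, 478, 386929, 0, 0, 0, 0, 0, 0⟩)))
    (.leaf (.box ⟨671, -9, -2048, 11, -35, 577, 715944, 0, 0, 0, 0, 0, 0⟩ ⟨0, 0, 0, 0, 0, 0, 574495, 0, 0, 0, 0, 0, 0⟩ ⟨0, 0, 0, 0, 0, 0, 574495, 0, 0, 0, 0, 0, 0⟩ ⟨0, 0, 0, 0, 0, 0, 479717, 0, 0, 0, 0, 0, 0⟩ ⟨0, 0, 0, 0, 0, 0, 479717, 0, 0, 0, 0, 0, 0⟩ ⟨697, -15, -2048, 19, -61, 574, 411782, 0, 0, 0, 0, 0, 0⟩))))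
    (.s0
    (.s3
    (.s1
    (.leaf (.box ⟨599, -5, -2395, 6, -22, 560, 999753, 0, 0, 0, 0, 0, 0⟩ ⟨0, 0, 0, 0, 0, 0, 828872, 0, 0, 0, 0, 0, 0⟩ ⟨0, 0, 0, 0, 0, 0, 828872, 0, 0, 0, 0, 0, 0⟩ ⟨0, 0, 0, 0, 0, 0, 707880, 0, 0, 0, 0, 0, 0⟩ ⟨0, 0, 0, 0, 0, 0, 707880, 0, 0, 0, 0, 0, 0⟩ ⟨625, -7, -2048, 10, -26, 443, 617710, 0, 0, 0, 0, 0, 0⟩))
    (.leaf (.box ⟨587, -6, -2829, 6, -23, 587, 972255, 0, 0, 0, 0, 0, 0⟩ ⟨0, 0, 0, 0, 0, 0, 806211, 0, 0, 0, 0, 0, 0⟩ ⟨0, 0, 0, 0, 0, 0, 806211, 0, 0, 0, 0, 0, 0⟩ ⟨0, 0, 0, 0, 0, 0, 688608, 0, 0, 0, 0, 0, 0⟩ ⟨0, 0, 0, 0, 0, 0, 688608, 0, 0, 0, 0, 0, 0⟩ ⟨448, -8, -2048, 8, -27, 424, 600947, 0, 0, 0, 0, 0, 0⟩)))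
    (.leaf (.box ⟨573, -8, -2048, 9, -24, 434, 678515, 0, 0, 0, 0, 0, 0⟩ ⟨0, 0, 0, 0, 0, 0, 545763, 0, 0, 0, 0, 0, 0⟩ ⟨0, 0, 0, 0, 0, 0, 545763, 0, 0, 0, 0, 0, 0⟩ ⟨0, 0, 0, 0, 0, 0, 456457, 0, 0, 0, 0, 0, 0⟩ ⟨0, 0, 0, 0, 0, 0, 456457, 0, 0, 0, 0, 0, 0⟩ ⟨578, -13, -2048, 15, -41, 430, 392267, 0, 0, 0, 0, 0, 0⟩)))
    (.s1
    (.s3
    (.leaf (.box ⟨632, -3, -2414, 6, -26, 629, 1106942, 0, 0, 0, 0, 0, 0⟩ ⟨0, 0, 0, 0, 0, 0, 917741, 0, 0, 0, 0, 0, 0⟩ ⟨0, 0, 0, 0, 0, 0, 917741, 0, 0, 0, 0, 0, 0⟩ ⟨0, 0, 0, 0, 0, 0, 783776, 0, 0, 0, 0, 0, 0⟩ ⟨0, 0, 0, 0, 0, 0, 783776, 0, 0, 0, 0, 0, 0⟩ ⟨543, -5, -2048, 9, -36, 531, 683939, 0, 0, 0, 0, 0, 0⟩))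
    (.leaf (.box ⟨513, -4, -2048, 7, -30, 512, 768638, 0, 0, 0, 0, 0, 0⟩ ⟨0, 0, 0, 0, 0, 0, 617811, 0, 0, 0, 0, 0, 0⟩ ⟨0, 0, 0, 0, 0, 0, 617811, 0, 0, 0, 0, 0, 0⟩ ⟨0, 0, 0, 0, 0, 0, 516466, 0, 0, 0, 0, 0, 0⟩ ⟨0, 0, 0, 0, 0, 0, 516466, 0, 0, 0, 0, 0, 0⟩ ⟨518, -7, -2048, 12, -51, 507, 443684, 0, 0, 0, 0, 0, 0⟩)))
    (.s2
    (.leaf (.box ⟨416, -5, -2048, 7, -30, 484, 734151, 0, 0, 0, 0, 0, 0⟩ ⟨0, 0, 0, 0, 0, 0, 589140, 0, 0, 0, 0, 0, 0⟩ ⟨0, 0, 0, 0, 0, 0, 589140, 0, 0, 0, 0, 0, 0⟩ ⟨0, 0, 0, 0, 0, 0, 491965, 0, 0, 0, 0, 0, 0⟩ ⟨0, 0, 0, 0, 0, 0, 491965, 0, 0, 0, 0, 0, 0⟩ ⟨432, -11, -2048, 13, -51, 482, 422308, 0, 0, 0, 0, 0, 0⟩))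
    (.leaf (.box ⟨351, -5, -2048, 6, -27, 443, 760069, 0, 0, 0, 0, 0, 0⟩ ⟨0, 0, 0, 0, 0, 0, 609941, 0, 0, 0, 0, 0, 0⟩ ⟨0, 0, 0, 0, 0, 0, 609941, 0, 0, 0, 0, 0, 0⟩ ⟨0, 0, 0, 0, 0, 0, 509337, 0, 0, 0, 0, 0, 0⟩ ⟨0, 0, 0, 0, 0, 0, 509337, 0, 0, 0, 0, 0, 0⟩ ⟨362, -8, -2048, 10, -46, 441, 437221, 0, 0, 0, 0, 0, 0⟩)))))

/-- A piece of the tree. -/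
noncomputable def tree84 : Tree LeafX :=
  .s0
    (.s1
    (.s2
    (.leaf (.box ⟨963, -65, -2048, 14, 7, 258, 540472, 0, 0, 0, 0, 0, 0⟩ ⟨0, 0, 0, 0, 0, 0, 433621, 0, 0, 0, 0, 0, 0⟩ ⟨0, 0, 0, 0, 0, 0, 433621, 0, 0, 0, 0, 0, 0⟩ ⟨0, 0, 0, 0, 0, 0, 362045, 0, 0, 0, 0, 0, 0⟩ ⟨0, 0, 0, 0, 0, 0, 362045, 0, 0, 0, 0, 0, 0⟩ ⟨1092, -120, -2048, 25, 12, 225, 310750, 0, 0, 0, 0, 0, 0⟩))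
    (.leaf (.box ⟨1791, -203, -2048, 24, 4, 278, 504031, 0, 0, 0, 0, 0, 0⟩ ⟨0, 0, 0, 0, 0, 0, 404438, 0, 0, 0, 0, 0, 0⟩ ⟨0, 0, 0, 0, 0, 0, 404438, 0, 0, 0, 0, 0, 0⟩ ⟨0, 0, 0, 0, 0, 0, 337709, 0, 0, 0, 0, 0, 0⟩ ⟨0, 0, 0, 0, 0, 0, 337709, 0, 0, 0, 0, 0, 0⟩ ⟨1757, -352, -2048, 41, 10, 250, 289881, 0, 0, 0, 0, 0, 0⟩)))
    (.s1
    (.s2
    (.leaf (.box ⟨788, -74, -2048, 13, 17, 191, 518972, 0, 0, 0, 0, 0, 0⟩ ⟨0, 0, 0, 0, 0, 0, 416408, 0, 0, 0, 0, 0, 0⟩ ⟨0, 0, 0, 0, 0, 0, 416408, 0, 0, 0, 0, 0, 0⟩ ⟨0, 0, 0, 0, 0, 0, 347694, 0, 0, 0, 0, 0, 0⟩ ⟨0, 0, 0, 0, 0, 0, 347694, 0, 0, 0, 0, 0, 0⟩ ⟨1055, -136, -2048, 24, 33, 200, 298445, 0, 0, 0, 0, 0, 0⟩))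
    (.leaf (.box ⟨1244, -180, -2048, 19, 17, 214, 486618, 0, 0, 0, 0, 0, 0⟩ ⟨0, 0, 0, 0, 0, 0, 390504, 0, 0, 0, 0, 0, 0⟩ ⟨0, 0, 0, 0, 0, 0, 390504, 0, 0, 0, 0, 0, 0⟩ ⟨0, 0, 0, 0, 0, 0, 326095, 0, 0, 0, 0, 0, 0⟩ ⟨0, 0, 0, 0, 0, 0, 326095, 0, 0, 0, 0, 0, 0⟩ ⟨1105, -319, -2048, 32, 32, 182, 279924, 0, 0, 0, 0, 0, 0⟩)))
    (.s2
    (.leaf (.box ⟨2048, -182, -2031, 29, 22, 141, 498823, 0, 0, 0, 0, 0, 0⟩ ⟨0, 0, 0, 0, 0, 0, 400259, 0, 0, 0, 0, 0, 0⟩ ⟨0, 0, 0, 0, 0, 0, 400259, 0, 0, 0, 0, 0, 0⟩ ⟨0, 0, 0, 0, 0, 0, 334219, 0, 0, 0, 0, 0, 0⟩ ⟨0, 0, 0, 0, 0, 0, 334219, 0, 0, 0, 0, 0, 0⟩ ⟨2048, -316, -1728, 50, 33, 110, 286885, 0, 0, 0, 0, 0, 0⟩))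
    (.leaf (.box ⟨2048, -371, -1693, 34, 22, 130, 470898, 0, 0, 0, 0, 0, 0⟩ ⟨2048, -480, -1628, 44, 26, 117, 380301, 0, 0, 0, 0, 0, 0⟩ ⟨2048, -480, -1628, 44, 26, 117, 380301, 0, 0, 0, 0, 0, 0⟩ ⟨2048, -606, -1337, 55, 26, 90, 316984, 0, 0, 0, 0, 0, 0⟩ ⟨2048, -606, -1337, 55, 26, 90, 316984, 0, 0, 0, 0, 0, 0⟩ ⟨2048, -677, -777, 61, 20, 54, 270908, 0, 0, 0, 0, 0, 0⟩)))))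
    (.s1
    (.s1
    (.s3
    (.leaf (.box ⟨794, -47, -2048, 11, 1, 282, 790818, 0, 0, 0, 0, 0, 0⟩ ⟨0, 0, 0, 0, 0, 0, 655697, 0, 0, 0, 0, 0, 0⟩ ⟨0, 0, 0, 0, 0, 0, 655697, 0, 0, 0, 0, 0, 0⟩ ⟨0, 0, 0, 0, 0, 0, 560012, 0, 0, 0, 0, 0, 0⟩ ⟨0, 0, 0, 0, 0, 0, 560012, 0, 0, 0, 0, 0, 0⟩ ⟨1048, -81, -2048, 19, 3, 298, 488697, 0, 0, 0, 0, 0, 0⟩))
    (.s2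
    (.s2
    (.leaf (.box ⟨420, -17, -2048, 7, 3, 292, 618860, 0, 0, 0, 0, 0, 0⟩ ⟨0, 0, 0, 0, 0, 0, 497101, 0, 0, 0, 0, 0, 0⟩ ⟨0, 0, 0, 0, 0, 0, 497101, 0, 0, 0, 0, 0, 0⟩ ⟨0, 0, 0, 0, 0, 0, 415377, 0, 0, 0, 0, 0, 0⟩ ⟨0, 0, 0, 0, 0, 0, 415377, 0, 0, 0, 0, 0, 0⟩ ⟨445, -33, -2048, 13, 6, 281, 356729, 0, 0, 0, 0, 0, 0⟩))
    (.leaf (.box ⟨451, -31, -2048, 9, 2, 280, 592211, 0, 0, 0, 0, 0, 0⟩ ⟨0, 0, 0, 0, 0, 0, 475860, 0, 0, 0, 0, 0, 0⟩ ⟨0, 0, 0, 0, 0, 0, 475860, 0, 0, 0, 0, 0, 0⟩ ⟨0, 0, 0, 0, 0, 0, 397721, 0, 0, 0, 0, 0, 0⟩ ⟨0, 0, 0, 0, 0, 0, 397721, 0, 0, 0, 0, 0, 0⟩ ⟨486, -54, -2048, 16, 5, 267, 341623, 0, 0, 0, 0, 0, 0⟩)))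
    (.leaf (.box ⟨461, -52, -2048, 11, 1, 268, 550325, 0, 0, 0, 0, 0, 0⟩ ⟨0, 0, 0, 0, 0, 0, 442474, 0, 0, 0, 0, 0, 0⟩ ⟨0, 0, 0, 0, 0, 0, 442474, 0, 0, 0, 0, 0, 0⟩ ⟨0, 0, 0, 0, 0, 0, 369968, 0, 0, 0, 0, 0, 0⟩ ⟨0, 0, 0, 0, 0, 0, 369968, 0, 0, 0, 0, 0, 0⟩ ⟨535, -108, -2048, 22, 4, 252, 317879, 0, 0, 0, 0, 0, 0⟩))))
    (.s0
    (.leaf (.box ⟨323, -52, -2048, 9, 9, 247, 523645, 0, 0, 0, 0, 0, 0⟩ ⟨0, 0, 0, 0, 0, 0, 420232, 0, 0, 0, 0, 0, 0⟩ ⟨0, 0, 0, 0, 0, 0, 420232, 0, 0, 0, 0, 0, 0⟩ ⟨0, 0, 0, 0, 0, 0, 350929, 0, 0, 0, 0, 0, 0⟩ ⟨0, 0, 0, 0, 0, 0, 350929, 0, 0, 0, 0, 0, 0⟩ ⟨346, -83, -2048, 15, 16, 232, 301247, 0, 0, 0, 0, 0, 0⟩))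
    (.leaf (.box ⟨358, -48, -2048, 12, 5, 293, 538602, 0, 0, 0, 0, 0, 0⟩ ⟨0, 0, 0, 0, 0, 0, 432265, 0, 0, 0, 0, 0, 0⟩ ⟨0, 0, 0, 0, 0, 0, 432265, 0, 0, 0, 0, 0, 0⟩ ⟨0, 0, 0, 0, 0, 0, 360993, 0, 0, 0, 0, 0, 0⟩ ⟨0, 0, 0, 0, 0, 0, 360993, 0, 0, 0, 0, 0, 0⟩ ⟨482, -80, -2048, 20, 11, 281, 309897, 0, 0, 0, 0, 0, 0⟩))))
    (.s0
    (.s2
    (.s1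
    (.leaf (.box ⟨472, -39, -2048, 9, 15, 225, 545021, 0, 0, 0, 0, 0, 0⟩ ⟨0, 0, 0, 0, 0, 0, 437365, 0, 0, 0, 0, 0, 0⟩ ⟨0, 0, 0, 0, 0, 0, 437365, 0, 0, 0, 0, 0, 0⟩ ⟨0, 0, 0, 0, 0, 0, 365223, 0, 0, 0, 0, 0, 0⟩ ⟨0, 0, 0, 0, 0, 0, 365223, 0, 0, 0, 0, 0, 0⟩ ⟨441, -76, -2048, 17, 27, 213, 313510, 0, 0, 0, 0, 0, 0⟩))
    (.leaf (.box ⟨746, -68, -2048, 15, 22, 195, 523636, 0, 0, 0, 0, 0, 0⟩ ⟨0, 0, 0, 0, 0, 0, 420241, 0, 0, 0, 0, 0, 0⟩ ⟨0, 0, 0, 0, 0, 0, 420241, 0, 0, 0, 0, 0, 0⟩ ⟨0, 0, 0, 0, 0, 0, 350945, 0, 0, 0, 0, 0, 0⟩ ⟨0, 0, 0, 0, 0, 0, 350945, 0, 0, 0, 0, 0, 0⟩ ⟨684, -116, -2048, 25, 38, 182, 301267, 0, 0, 0, 0, 0, 0⟩)))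
    (.leaf (.box ⟨945, -185, -2048, 25, 19, 224, 488141, 0, 0, 0, 0, 0, 0⟩ ⟨0, 0, 0, 0, 0, 0, 391828, 0, 0, 0, 0, 0, 0⟩ ⟨0, 0, 0, 0, 0, 0, 391828, 0, 0, 0, 0, 0, 0⟩ ⟨0, 0, 0, 0, 0, 0, 327258, 0, 0, 0, 0, 0, 0⟩ ⟨0, 0, 0, 0, 0, 0, 327258, 0, 0, 0, 0, 0, 0⟩ ⟨790, -319, -2048, 42, 35, 198, 280958, 0, 0, 0, 0, 0, 0⟩)))
    (.leaf (.box ⟨786, -104, -2048, 24, 16, 269, 504022, 0, 0, 0, 0, 0, 0⟩ ⟨0, 0, 0, 0, 0, 0, 404618, 0, 0, 0, 0, 0, 0⟩ ⟨0, 0, 0, 0, 0, 0, 404618, 0, 0, 0, 0, 0, 0⟩ ⟨0, 0, 0, 0, 0, 0, 337964, 0, 0, 0, 0, 0, 0⟩ ⟨0, 0, 0, 0, 0, 0, 337964, 0, 0, 0, 0, 0, 0⟩ ⟨686, -166, -2048, 38, 29, 253, 290164, 0, 0, 0, 0, 0, 0⟩))))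

theorem parts4 :
    (runPathS conQ supQ (fun n Qs i d x => leafR conQ seg n Qs i d x) [.d0 false, .d1 true, .d2 false, .d0 true, .d1 false, .d2 false, .d0 false, .d1 false, .d0 true, .d0 true, .d1 true] tree69 0 0 0
      (joinS (lay.B * lay.size) rootQ) = true) ∧
    (runPathS conQ supQ (fun n Qs i d x => leafR conQ seg n Qs i d x) [.d0 false, .d1 true, .d2 false, .d0 true, .d1 false, .d2 false, .d0 false, .d1 true] tree70 0 0 0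
      (joinS (lay.B * lay.size) rootQ) = true) ∧
    (runPathS conQ supQ (fun n Qs i d x => leafR conQ seg n Qs i d x) [.d0 false, .d1 true, .d2 false, .d0 true, .d1 false, .d2 false, .d0 true, .d0 false, .d1 false, .d1 false] tree71 0 0 0
      (joinS (lay.B * lay.size) rootQ) = true) ∧
    (runPathS conQ supQ (fun n Qs i d x => leafR conQ seg n Qs i d x) [.d0 false, .d1 true, .d2 false, .d0 true, .d1 false, .d2 false, .d0 true, .d0 false, .d1 false, .d1 true, .d0 false] tree72 0 0 0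
      (joinS (lay.B * lay.size) rootQ) = true) ∧
    (runPathS conQ supQ (fun n Qs i d x => leafR conQ seg n Qs i d x) [.d0 false, .d1 true, .d2 false, .d0 true, .d1 false, .d2 false, .d0 true, .d0 false, .d1 false, .d1 true, .d0 true] tree73 0 0 0
      (joinS (lay.B * lay.size) rootQ) = true) ∧
    (runPathS conQ supQ (fun n Qs i d x => leafR conQ seg n Qs i d x) [.d0 false, .d1 true, .d2 false, .d0 true, .d1 false, .d2 false, .d0 true, .d0 false, .d1 true] tree74 0 0 0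
      (joinS (lay.B * lay.size) rootQ) = true) ∧
    (runPathS conQ supQ (fun n Qs i d x => leafR conQ seg n Qs i d x) [.d0 false, .d1 true, .d2 false, .d0 true, .d1 false, .d2 false, .d0 true, .d0 true] tree75 0 0 0
      (joinS (lay.B * lay.size) rootQ) = true) ∧
    (runPathS conQ supQ (fun n Qs i d x => leafR conQ seg n Qs i d x) [.d0 false, .d1 true, .d2 false, .d0 true, .d1 false, .d2 true, .d0 false, .d0 false] tree76 0 0 0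
      (joinS (lay.B * lay.size) rootQ) = true) ∧
    (runPathS conQ supQ (fun n Qs i d x => leafR conQ seg n Qs i d x) [.d0 false, .d1 true, .d2 false, .d0 true, .d1 false, .d2 true, .d0 false, .d0 true, .d1 false] tree77 0 0 0
      (joinS (lay.B * lay.size) rootQ) = true) ∧
    (runPathS conQ supQ (fun n Qs i d x => leafR conQ seg n Qs i d x) [.d0 false, .d1 true, .d2 false, .d0 true, .d1 false, .d2 true, .d0 false, .d0 true, .d1 true] tree78 0 0 0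
      (joinS (lay.B * lay.size) rootQ) = true) ∧
    (runPathS conQ supQ (fun n Qs i d x => leafR conQ seg n Qs i d x) [.d0 false, .d1 true, .d2 false, .d0 true, .d1 false, .d2 true, .d0 true, .d1 false, .d0 false, .d0 false] tree79 0 0 0
      (joinS (lay.B * lay.size) rootQ) = true) ∧
    (runPathS conQ supQ (fun n Qs i d x => leafR conQ seg n Qs i d x) [.d0 false, .d1 true, .d2 false, .d0 true, .d1 false, .d2 true, .d0 true, .d1 false, .d0 false, .d0 true] tree80 0 0 0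
      (joinS (lay.B * lay.size) rootQ) = true) ∧
    (runPathS conQ supQ (fun n Qs i d x => leafR conQ seg n Qs i d x) [.d0 false, .d1 true, .d2 false, .d0 true, .d1 false, .d2 true, .d0 true, .d1 false, .d0 true] tree81 0 0 0
      (joinS (lay.B * lay.size) rootQ) = true) ∧
    (runPathS conQ supQ (fun n Qs i d x => leafR conQ seg n Qs i d x) [.d0 false, .d1 true, .d2 false, .d0 true, .d1 false, .d2 true, .d0 true, .d1 true, .d0 false] tree82 0 0 0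
      (joinS (lay.B * lay.size) rootQ) = true) ∧
    (runPathS conQ supQ (fun n Qs i d x => leafR conQ seg n Qs i d x) [.d0 false, .d1 true, .d2 false, .d0 true, .d1 false, .d2 true, .d0 true, .d1 true, .d0 true] tree83 0 0 0
      (joinS (lay.B * lay.size) rootQ) = true) ∧
    (runPathS conQ supQ (fun n Qs i d x => leafR conQ seg n Qs i d x) [.d0 false, .d1 true, .d2 false, .d0 true, .d1 true, .d2 false, .d0 false] tree84 0 0 0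
      (joinS (lay.B * lay.size) rootQ) = true) :=
  ⟨by decide +kernel,
  by decide +kernel,
  by decide +kernel,
  by decide +kernel,
  by decide +kernel,
  by decide +kernel,
  by decide +kernel,
  by decide +kernel,
  by decide +kernel,
  by decide +kernel,
  by decide +kernel,
  by decide +kernel,
  by decide +kernel,
  by decide +kernel,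
  by decide +kernel,
  by decide +kernel⟩

end Vale.Agent.P098.Six.S1
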