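import Vale.Agent.P098.Six.S1.Root

/-!
# P098, six dimensions: checked pieces of the tree
-/

namespace Vale.Agent.P098.Six.S1

/-- A piece of the tree. -/
noncomputable def tree85 : Tree LeafX :=
  .s0
    (.s1
    (.s0
    (.s2
    (.leaf (.box ⟨510, -27, -2048, 13, 0, 382, 601802, 0, 0, 0, 0, 0, 0⟩ ⟨0, 0, 0, 0, 0, 0, 482918, 0, 0, 0, 0, 0, 0⟩ ⟨0, 0, 0, 0, 0, 0, 482918, 0, 0, 0, 0, 0, 0⟩ ⟨0, 0, 0, 0, 0, 0, 403256, 0, 0, 0, 0, 0, 0⟩ ⟨0, 0, 0, 0, 0, 0, 403256, 0, 0, 0, 0, 0, 0⟩ ⟨577, -45, -2048, 22, 0, 373, 346154, 0, 0, 0, 0, 0, 0⟩))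
    (.leaf (.box ⟨501, -40, -2048, 13, -5, 363, 559477, 0, 0, 0, 0, 0, 0⟩ ⟨0, 0, 0, 0, 0, 0, 449047, 0, 0, 0, 0, 0, 0⟩ ⟨0, 0, 0, 0, 0, 0, 449047, 0, 0, 0, 0, 0, 0⟩ ⟨0, 0, 0, 0, 0, 0, 375024, 0, 0, 0, 0, 0, 0⟩ ⟨0, 0, 0, 0, 0, 0, 375024, 0, 0, 0, 0, 0, 0⟩ ⟨556, -78, -2048, 25, -7, 353, 321952, 0, 0, 0, 0, 0, 0⟩)))
    (.s2
    (.leaf (.box ⟨563, -22, -2048, 16, -7, 482, 628967, 0, 0, 0, 0, 0, 0⟩ ⟨0, 0, 0, 0, 0, 0, 504735, 0, 0, 0, 0, 0, 0⟩ ⟨0, 0, 0, 0, 0, 0, 504735, 0, 0, 0, 0, 0, 0⟩ ⟨0, 0, 0, 0, 0, 0, 421485, 0, 0, 0, 0, 0, 0⟩ ⟨0, 0, 0, 0, 0, 0, 421485, 0, 0, 0, 0, 0, 0⟩ ⟨588, -37, -2048, 26, -10, 457, 361808, 0, 0, 0, 0, 0, 0⟩))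
    (.s3
    (.leaf (.box ⟨496, -20, -2048, 10, -10, 463, 861418, 0, 0, 0, 0, 0, 0⟩ ⟨0, 0, 0, 0, 0, 0, 714462, 0, 0, 0, 0, 0, 0⟩ ⟨0, 0, 0, 0, 0, 0, 714462, 0, 0, 0, 0, 0, 0⟩ ⟨0, 0, 0, 0, 0, 0, 610340, 0, 0, 0, 0, 0, 0⟩ ⟨0, 0, 0, 0, 0, 0, 610340, 0, 0, 0, 0, 0, 0⟩ ⟨530, -35, -2048, 17, -16, 458, 532705, 0, 0, 0, 0, 0, 0⟩))
    (.leaf (.box ⟨486, -27, -2048, 13, -12, 433, 605162, 0, 0, 0, 0, 0, 0⟩ ⟨0, 0, 0, 0, 0, 0, 487217, 0, 0, 0, 0, 0, 0⟩ ⟨0, 0, 0, 0, 0, 0, 487217, 0, 0, 0, 0, 0, 0⟩ ⟨0, 0, 0, 0, 0, 0, 407748, 0, 0, 0, 0, 0, 0⟩ ⟨0, 0, 0, 0, 0, 0, 407748, 0, 0, 0, 0, 0, 0⟩ ⟨517, -48, -2048, 23, -19, 421, 350567, 0, 0, 0, 0, 0, 0⟩)))))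
    (.leaf (.box ⟨942, -88, -2048, 33, 5, 384, 526670, 0, 0, 0, 0, 0, 0⟩ ⟨0, 0, 0, 0, 0, 0, 422839, 0, 0, 0, 0, 0, 0⟩ ⟨0, 0, 0, 0, 0, 0, 422839, 0, 0, 0, 0, 0, 0⟩ ⟨0, 0, 0, 0, 0, 0, 353206, 0, 0, 0, 0, 0, 0⟩ ⟨0, 0, 0, 0, 0, 0, 353206, 0, 0, 0, 0, 0, 0⟩ ⟨885, -149, -2048, 55, 11, 371, 303264, 0, 0, 0, 0, 0, 0⟩)))
    (.s1
    (.s2
    (.s3
    (.leaf (.box ⟨834, -15, -2048, 18, -16, 689, 973824, 0, 0, 0, 0, 0, 0⟩ ⟨0, 0, 0, 0, 0, 0, 807538, 0, 0, 0, 0, 0, 0⟩ ⟨0, 0, 0, 0, 0, 0, 807538, 0, 0, 0, 0, 0, 0⟩ ⟨0, 0, 0, 0, 0, 0, 689758, 0, 0, 0, 0, 0, 0⟩ ⟨0, 0, 0, 0, 0, 0, 689758, 0, 0, 0, 0, 0, 0⟩ ⟨874, -24, -2048, 29, -25, 684, 601961, 0, 0, 0, 0, 0, 0⟩))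
    (.leaf (.box ⟨818, -19, -2048, 23, -20, 644, 680282, 0, 0, 0, 0, 0, 0⟩ ⟨0, 0, 0, 0, 0, 0, 547261, 0, 0, 0, 0, 0, 0⟩ ⟨0, 0, 0, 0, 0, 0, 547261, 0, 0, 0, 0, 0, 0⟩ ⟨0, 0, 0, 0, 0, 0, 457753, 0, 0, 0, 0, 0, 0⟩ ⟨0, 0, 0, 0, 0, 0, 457753, 0, 0, 0, 0, 0, 0⟩ ⟨868, -33, -2048, 40, -33, 632, 393408, 0, 0, 0, 0, 0, 0⟩)))
    (.s3
    (.s0
    (.s3
    (.leaf (.box ⟨526, -12, -2048, 8, -14, 569, 1197122, 0, 0, 0, 0, 0, 0⟩ ⟨0, 0, 0, 0, 0, 0, 1025482, 0, 0, 0, 0, 0, 0⟩ ⟨0, 0, 0, 0, 0, 0, 1025482, 0, 0, 0, 0, 0, 0⟩ ⟨0, 0, 0, 0, 0, 0, 896888, 0, 0, 0, 0, 0, 0⟩ ⟨0, 0, 0, 0, 0, 0, 896888, 0, 0, 0, 0, 0, 0⟩ ⟨548, -19, -2048, 13, -21, 566, 796951, 0, 0, 0, 0, 0, 0⟩))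
    (.leaf (.box ⟨537, -14, -2048, 10, -16, 548, 933046, 0, 0, 0, 0, 0, 0⟩ ⟨0, 0, 0, 0, 0, 0, 775090, 0, 0, 0, 0, 0, 0⟩ ⟨0, 0, 0, 0, 0, 0, 775090, 0, 0, 0, 0, 0, 0⟩ ⟨0, 0, 0, 0, 0, 0, 662871, 0, 0, 0, 0, 0, 0⟩ ⟨0, 0, 0, 0, 0, 0, 662871, 0, 0, 0, 0, 0, 0⟩ ⟨541, -24, -2048, 16, -26, 542, 579037, 0, 0, 0, 0, 0, 0⟩)))
    (.leaf (.box ⟨635, -12, -2048, 11, -25, 659, 997445, 0, 0, 0, 0, 0, 0⟩ ⟨0, 0, 0, 0, 0, 0, 827325, 0, 0, 0, 0, 0, 0⟩ ⟨0, 0, 0, 0, 0, 0, 827325, 0, 0, 0, 0, 0, 0⟩ ⟨0, 0, 0, 0, 0, 0, 706779, 0, 0, 0, 0, 0, 0⟩ ⟨0, 0, 0, 0, 0, 0, 706779, 0, 0, 0, 0, 0, 0⟩ ⟨661, -20, -2048, 18, -41, 656, 616894, 0, 0, 0, 0, 0, 0⟩)))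
    (.s2
    (.leaf (.box ⟨744, -25, -2048, 22, -27, 600, 658018, 0, 0, 0, 0, 0, 0⟩ ⟨0, 0, 0, 0, 0, 0, 529627, 0, 0, 0, 0, 0, 0⟩ ⟨0, 0, 0, 0, 0, 0, 529627, 0, 0, 0, 0, 0, 0⟩ ⟨0, 0, 0, 0, 0, 0, 443158, 0, 0, 0, 0, 0, 0⟩ ⟨0, 0, 0, 0, 0, 0, 443158, 0, 0, 0, 0, 0, 0⟩ ⟨793, -44, -2048, 39, -45, 590, 380961, 0, 0, 0, 0, 0, 0⟩))
    (.leaf (.box ⟨683, -29, -2048, 22, -28, 549, 646664, 0, 0, 0, 0, 0, 0⟩ ⟨0, 0, 0, 0, 0, 0, 520706, 0, 0, 0, 0, 0, 0⟩ ⟨0, 0, 0, 0, 0, 0, 520706, 0, 0, 0, 0, 0, 0⟩ ⟨0, 0, 0, 0, 0, 0, 435817, 0, 0, 0, 0, 0, 0⟩ ⟨0, 0, 0, 0, 0, 0, 435817, 0, 0, 0, 0, 0, 0⟩ ⟨728, -50, -2048, 38, -48, 541, 374726, 0, 0, 0, 0, 0, 0⟩)))))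
    (.leaf (.box ⟨806, -60, -2048, 40, -17, 560, 599794, 1320594730, 0, 0, 0, 0, 0⟩ ⟨0, 0, 0, 0, 0, 0, 481610, 0, 0, 0, 0, 0, 0⟩ ⟨0, 0, 0, 0, 0, 0, 481610, 0, 0, 0, 0, 0, 0⟩ ⟨0, 0, 0, 0, 0, 0, 402333, 0, 0, 0, 0, 0, 0⟩ ⟨0, 0, 0, 0, 0, 0, 402333, 0, 0, 0, 0, 0, 0⟩ ⟨906, -103, -2048, 69, -28, 552, 345466, 0, 0, 0, 0, 0, 0⟩)))

/-- A piece of the tree. -/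
noncomputable def tree86 : Tree LeafX :=
  .s0
    (.s3
    (.s2
    (.leaf (.box ⟨2048, -457, -500, 30, -1, 125, 656488, 0, 0, 1269473244, 0, 0, 0⟩ ⟨0, 0, 0, 0, 0, 0, 544446, 0, 0, 0, 0, 0, 0⟩ ⟨0, 0, 0, 0, 0, 0, 544446, 0, 0, 0, 0, 0, 0⟩ ⟨0, 0, 0, 0, 0, 0, 465072, 0, 0, 0, 0, 0, 0⟩ ⟨0, 0, 0, 0, 0, 0, 465072, 0, 0, 0, 0, 0, 0⟩ ⟨2048, -765, -613, 49, 3, 91, 405897, 5569750612, 0, 0, 0, 0, 0⟩))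
    (.s1
    (.leaf (.box ⟨2048, -385, -107, 33, -9, 153, 666867, 0, 0, 0, 0, 0, 0⟩ ⟨0, 0, 0, 0, 0, 0, 553027, 0, 0, 0, 0, 0, 0⟩ ⟨0, 0, 0, 0, 0, 0, 553027, 0, 0, 0, 0, 0, 0⟩ ⟨0, 0, 0, 0, 0, 0, 472386, 0, 0, 0, 0, 0, 0⟩ ⟨0, 0, 0, 0, 0, 0, 472386, 0, 0, 0, 0, 0, 0⟩ ⟨2048, -623, -86, 52, -14, 134, 412269, 0, 0, 0, 0, 0, 0⟩))
    (.leaf (.box ⟨2048, -511, -154, 42, -3, 112, 631656, 2964689350, 0, 0, 0, 0, 0⟩ ⟨0, 0, 0, 0, 0, 0, 523877, 0, 0, 0, 0, 0, 0⟩ ⟨0, 0, 0, 0, 0, 0, 523877, 0, 0, 0, 0, 0, 0⟩ ⟨0, 0, 0, 0, 0, 0, 447518, 0, 0, 0, 0, 0, 0⟩ ⟨0, 0, 0, 0, 0, 0, 447518, 0, 0, 0, 0, 0, 0⟩ ⟨2048, -731, -165, 60, -3, 64, 390586, 3893759403, 0, 0, 0, 121143484, 0⟩))))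
    (.s0
    (.leaf (.box ⟨2048, -698, -438, 57, -6, 198, 443260, 0, 0, 0, 0, 0, 0⟩ ⟨0, 0, 0, 0, 0, 0, 356814, 0, 0, 0, 0, 0, 0⟩ ⟨0, 0, 0, 0, 0, 0, 356814, 0, 0, 0, 0, 0, 0⟩ ⟨0, 0, 0, 0, 0, 0, 298584, 0, 0, 0, 0, 0, 0⟩ ⟨0, 0, 0, 0, 0, 0, 298584, 0, 0, 0, 0, 0, 0⟩ ⟨2048, -1303, -501, 104, -4, 146, 256692, 1229222509, 0, 0, 0, 0, 0⟩))
    (.s2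
    (.leaf (.box ⟨1602, -629, -2048, 57, 6, 313, 468143, 0, 0, 0, 0, 0, 0⟩ ⟨0, 0, 0, 0, 0, 0, 376961, 0, 0, 0, 0, 0, 0⟩ ⟨0, 0, 0, 0, 0, 0, 376961, 0, 0, 0, 0, 0, 0⟩ ⟨0, 0, 0, 0, 0, 0, 315508, 0, 0, 0, 0, 0, 0⟩ ⟨0, 0, 0, 0, 0, 0, 315508, 0, 0, 0, 0, 0, 0⟩ ⟨1518, -1193, -2048, 105, 17, 251, 271282, 0, 0, 0, 0, 0, 0⟩))
    (.s0
    (.leaf (.box ⟨1943, -725, -2048, 77, -21, 578, 454917, 0, 0, 0, 0, 0, 0⟩ ⟨0, 0, 0, 0, 0, 0, 366380, 0, 0, 0, 0, 0, 0⟩ ⟨0, 0, 0, 0, 0, 0, 366380, 0, 0, 0, 0, 0, 0⟩ ⟨0, 0, 0, 0, 0, 0, 306692, 0, 0, 0, 0, 0, 0⟩ ⟨0, 0, 0, 0, 0, 0, 306692, 0, 0, 0, 0, 0, 0⟩ ⟨2048, -1318, -2033, 139, -21, 470, 263726, 0, 0, 0, 0, 0, 0⟩))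
    (.s1
    (.leaf (.box ⟨872, -121, -2048, 16, -19, 423, 489275, 0, 0, 0, 0, 0, 0⟩ ⟨856, -156, -2048, 20, -22, 410, 396031, 0, 0, 0, 0, 0, 0⟩ ⟨856, -156, -2048, 20, -22, 410, 396031, 0, 0, 0, 0, 0, 0⟩ ⟨859, -195, -2048, 25, -24, 398, 330832, 0, 0, 0, 0, 0, 0⟩ ⟨859, -195, -2048, 25, -24, 398, 330832, 0, 0, 0, 0, 0, 0⟩ ⟨863, -246, -2048, 31, -26, 386, 283369, 0, 0, 0, 0, 0, 0⟩))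
    (.leaf (.box ⟨740, -310, -2048, 39, -3, 424, 464242, 0, 0, 0, 0, 0, 0⟩ ⟨0, 0, 0, 0, 0, 0, 373977, 0, 0, 0, 0, 0, 0⟩ ⟨0, 0, 0, 0, 0, 0, 373977, 0, 0, 0, 0, 0, 0⟩ ⟨0, 0, 0, 0, 0, 0, 313100, 0, 0, 0, 0, 0, 0⟩ ⟨0, 0, 0, 0, 0, 0, 313100, 0, 0, 0, 0, 0, 0⟩ ⟨718, -546, -2048, 69, 5, 358, 269267, 0, 0, 0, 0, 0, 0⟩)))))))
    (.s1
    (.s0
    (.s2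
    (.leaf (.box ⟨1024, -127, -2048, 15, -1, 282, 497643, 0, 0, 0, 0, 0, 0⟩ ⟨0, 0, 0, 0, 0, 0, 399414, 0, 0, 0, 0, 0, 0⟩ ⟨0, 0, 0, 0, 0, 0, 399414, 0, 0, 0, 0, 0, 0⟩ ⟨0, 0, 0, 0, 0, 0, 333570, 0, 0, 0, 0, 0, 0⟩ ⟨0, 0, 0, 0, 0, 0, 333570, 0, 0, 0, 0, 0, 0⟩ ⟨1056, -250, -2048, 29, 2, 260, 286363, 0, 0, 0, 0, 0, 0⟩))
    (.s2
    (.s1
    (.leaf (.box ⟨814, -66, -2048, 10, -10, 318, 504564, 0, 0, 0, 0, 0, 0⟩ ⟨0, 0, 0, 0, 0, 0, 404916, 0, 0, 0, 0, 0, 0⟩ ⟨0, 0, 0, 0, 0, 0, 404916, 0, 0, 0, 0, 0, 0⟩ ⟨0, 0, 0, 0, 0, 0, 338137, 0, 0, 0, 0, 0, 0⟩ ⟨0, 0, 0, 0, 0, 0, 338137, 0, 0, 0, 0, 0, 0⟩ ⟨885, -142, -2048, 21, -14, 305, 290265, 0, 0, 0, 0, 0, 0⟩))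
    (.leaf (.box ⟨903, -101, -2048, 14, -11, 358, 490559, 0, 0, 0, 0, 0, 0⟩ ⟨0, 0, 0, 0, 0, 0, 393742, 0, 0, 0, 0, 0, 0⟩ ⟨0, 0, 0, 0, 0, 0, 393742, 0, 0, 0, 0, 0, 0⟩ ⟨0, 0, 0, 0, 0, 0, 328841, 0, 0, 0, 0, 0, 0⟩ ⟨0, 0, 0, 0, 0, 0, 328841, 0, 0, 0, 0, 0, 0⟩ ⟨1034, -210, -2048, 28, -16, 339, 282308, 0, 0, 0, 0, 0, 0⟩)))
    (.leaf (.box ⟨914, -59, -2048, 11, -16, 361, 487424, 0, 0, 0, 0, 0, 0⟩ ⟨0, 0, 0, 0, 0, 0, 391232, 0, 0, 0, 0, 0, 0⟩ ⟨0, 0, 0, 0, 0, 0, 391232, 0, 0, 0, 0, 0, 0⟩ ⟨0, 0, 0, 0, 0, 0, 326749, 0, 0, 0, 0, 0, 0⟩ ⟨0, 0, 0, 0, 0, 0, 326749, 0, 0, 0, 0, 0, 0⟩ ⟨1065, -129, -2048, 24, -27, 352, 280514, 0, 0, 0, 0, 0, 0⟩))))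
    (.leaf (.box ⟨490, -78, -2048, 17, -8, 312, 512691, 0, 0, 0, 0, 0, 0⟩ ⟨0, 0, 0, 0, 0, 0, 411537, 0, 0, 0, 0, 0, 0⟩ ⟨0, 0, 0, 0, 0, 0, 411537, 0, 0, 0, 0, 0, 0⟩ ⟨0, 0, 0, 0, 0, 0, 343721, 0, 0, 0, 0, 0, 0⟩ ⟨0, 0, 0, 0, 0, 0, 343721, 0, 0, 0, 0, 0, 0⟩ ⟨589, -166, -2048, 35, -12, 303, 295093, 0, 0, 0, 0, 0, 0⟩)))
    (.s1
    (.leaf (.box ⟨1389, -285, -2048, 46, -4, 341, 473944, 0, 0, 0, 0, 0, 0⟩ ⟨0, 0, 0, 0, 0, 0, 380464, 0, 0, 0, 0, 0, 0⟩ ⟨0, 0, 0, 0, 0, 0, 380464, 0, 0, 0, 0, 0, 0⟩ ⟨0, 0, 0, 0, 0, 0, 317785, 0, 0, 0, 0, 0, 0⟩ ⟨0, 0, 0, 0, 0, 0, 317785, 0, 0, 0, 0, 0, 0⟩ ⟨1713, -602, -2048, 97, -3, 321, 272836, 0, 0, 0, 0, 0, 0⟩))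
    (.leaf (.box ⟨1356, -328, -2048, 54, 5, 343, 460274, 40998319, 0, 0, 0, 0, 0⟩ ⟨0, 0, 0, 0, 0, 0, 369519, 0, 0, 0, 0, 0, 0⟩ ⟨0, 0, 0, 0, 0, 0, 369519, 0, 0, 0, 0, 0, 0⟩ ⟨0, 0, 0, 0, 0, 0, 308658, 0, 0, 0, 0, 0, 0⟩ ⟨0, 0, 0, 0, 0, 0, 308658, 0, 0, 0, 0, 0, 0⟩ ⟨1736, -689, -2048, 113, 13, 315, 265010, 0, 0, 285839462, 0, 0, 0⟩))))

/-- A piece of the tree. -/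
noncomputable def tree87 : Tree LeafX :=
  .s0
    (.s1
    (.s3
    (.leaf (.box ⟨642, -40, -2048, 15, -11, 363, 793519, 0, 0, 0, 0, 0, 0⟩ ⟨0, 0, 0, 0, 0, 0, 658208, 0, 0, 0, 0, 0, 0⟩ ⟨0, 0, 0, 0, 0, 0, 658208, 0, 0, 0, 0, 0, 0⟩ ⟨0, 0, 0, 0, 0, 0, 562321, 0, 0, 0, 0, 0, 0⟩ ⟨0, 0, 0, 0, 0, 0, 562321, 0, 0, 0, 0, 0, 0⟩ ⟨630, -73, -2048, 28, -24, 383, 490818, 0, 0, 0, 0, 0, 0⟩))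
    (.leaf (.box ⟨587, -47, -2048, 19, -14, 347, 558758, 0, 0, 0, 0, 0, 0⟩ ⟨0, 0, 0, 0, 0, 0, 449979, 0, 0, 0, 0, 0, 0⟩ ⟨0, 0, 0, 0, 0, 0, 449979, 0, 0, 0, 0, 0, 0⟩ ⟨0, 0, 0, 0, 0, 0, 376653, 0, 0, 0, 0, 0, 0⟩ ⟨0, 0, 0, 0, 0, 0, 376653, 0, 0, 0, 0, 0, 0⟩ ⟨611, -90, -2048, 36, -22, 341, 323875, 0, 0, 0, 0, 0, 0⟩)))
    (.s2
    (.leaf (.box ⟨492, -101, -2048, 28, -8, 375, 515870, 0, 0, 0, 0, 0, 0⟩ ⟨0, 0, 0, 0, 0, 0, 414217, 0, 0, 0, 0, 0, 0⟩ ⟨0, 0, 0, 0, 0, 0, 414217, 0, 0, 0, 0, 0, 0⟩ ⟨0, 0, 0, 0, 0, 0, 346031, 0, 0, 0, 0, 0, 0⟩ ⟨0, 0, 0, 0, 0, 0, 346031, 0, 0, 0, 0, 0, 0⟩ ⟨979, -226, -2048, 62, -14, 417, 297120, 0, 0, 0, 0, 0, 0⟩))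
    (.s1
    (.leaf (.box ⟨284, -47, -2048, 17, -17, 353, 530972, 0, 0, 0, 0, 0, 0⟩ ⟨0, 0, 0, 0, 0, 0, 426292, 0, 0, 0, 0, 0, 0⟩ ⟨0, 0, 0, 0, 0, 0, 426292, 0, 0, 0, 0, 0, 0⟩ ⟨0, 0, 0, 0, 0, 0, 356090, 0, 0, 0, 0, 0, 0⟩ ⟨0, 0, 0, 0, 0, 0, 356090, 0, 0, 0, 0, 0, 0⟩ ⟨359, -93, -2048, 33, -29, 351, 305740, 0, 0, 0, 0, 0, 0⟩))
    (.leaf (.box ⟨292, -65, -2048, 22, -16, 362, 516812, 0, 0, 25448098, 0, 0, 0⟩ ⟨0, 0, 0, 0, 0, 0, 414978, 0, 0, 0, 0, 0, 0⟩ ⟨0, 0, 0, 0, 0, 0, 414978, 0, 0, 0, 0, 0, 0⟩ ⟨0, 0, 0, 0, 0, 0, 346669, 0, 0, 0, 0, 0, 0⟩ ⟨0, 0, 0, 0, 0, 0, 346669, 0, 0, 0, 0, 0, 0⟩ ⟨394, -128, -2048, 44, -26, 358, 297670, 0, 0, 0, 0, 0, 0⟩)))))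
    (.s1
    (.s2
    (.s0
    (.s3
    (.s1
    (.leaf (.box ⟨481, -11, -2048, 7, -17, 469, 935820, 0, 0, 0, 0, 0, 0⟩ ⟨0, 0, 0, 0, 0, 0, 776106, 0, 0, 0, 0, 0, 0⟩ ⟨0, 0, 0, 0, 0, 0, 776106, 0, 0, 0, 0, 0, 0⟩ ⟨0, 0, 0, 0, 0, 0, 662961, 0, 0, 0, 0, 0, 0⟩ ⟨0, 0, 0, 0, 0, 0, 662961, 0, 0, 0, 0, 0, 0⟩ ⟨494, -15, -2048, 10, -28, 467, 578607, 0, 0, 0, 0, 0, 0⟩))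
    (.leaf (.box ⟨446, -16, -2048, 8, -16, 448, 914235, 0, 0, 0, 0, 0, 0⟩ ⟨0, 0, 0, 0, 0, 0, 758343, 0, 0, 0, 0, 0, 0⟩ ⟨0, 0, 0, 0, 0, 0, 758343, 0, 0, 0, 0, 0, 0⟩ ⟨0, 0, 0, 0, 0, 0, 647870, 0, 0, 0, 0, 0, 0⟩ ⟨0, 0, 0, 0, 0, 0, 647870, 0, 0, 0, 0, 0, 0⟩ ⟨441, -21, -2048, 11, -26, 447, 565491, 0, 0, 0, 0, 0, 0⟩)))
    (.leaf (.box ⟨502, -20, -2048, 12, -21, 434, 644126, 0, 0, 0, 0, 0, 0⟩ ⟨0, 0, 0, 0, 0, 0, 518798, 0, 0, 0, 0, 0, 0⟩ ⟨0, 0, 0, 0, 0, 0, 518798, 0, 0, 0, 0, 0, 0⟩ ⟨0, 0, 0, 0, 0, 0, 434297, 0, 0, 0, 0, 0, 0⟩ ⟨0, 0, 0, 0, 0, 0, 434297, 0, 0, 0, 0, 0, 0⟩ ⟨512, -33, -2048, 20, -35, 428, 373466, 0, 0, 0, 0, 0, 0⟩)))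
    (.s2
    (.s1
    (.leaf (.box ⟨501, -11, -2048, 10, -34, 556, 696967, 0, 0, 0, 0, 0, 0⟩ ⟨0, 0, 0, 0, 0, 0, 559362, 0, 0, 0, 0, 0, 0⟩ ⟨0, 0, 0, 0, 0, 0, 559362, 0, 0, 0, 0, 0, 0⟩ ⟨0, 0, 0, 0, 0, 0, 467134, 0, 0, 0, 0, 0, 0⟩ ⟨0, 0, 0, 0, 0, 0, 467134, 0, 0, 0, 0, 0, 0⟩ ⟨537, -21, -2048, 19, -58, 554, 401014, 0, 0, 0, 0, 0, 0⟩))
    (.leaf (.box ⟨436, -14, -2048, 10, -32, 523, 680978, 0, 0, 0, 0, 0, 0⟩ ⟨0, 0, 0, 0, 0, 0, 546633, 0, 0, 0, 0, 0, 0⟩ ⟨0, 0, 0, 0, 0, 0, 546633, 0, 0, 0, 0, 0, 0⟩ ⟨0, 0, 0, 0, 0, 0, 456561, 0, 0, 0, 0, 0, 0⟩ ⟨0, 0, 0, 0, 0, 0, 456561, 0, 0, 0, 0, 0, 0⟩ ⟨473, -29, -2048, 20, -55, 521, 391973, 0, 0, 0, 0, 0, 0⟩)))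
    (.s1
    (.leaf (.box ⟨421, -9, -2048, 8, -31, 492, 701102, 0, 0, 0, 0, 0, 0⟩ ⟨0, 0, 0, 0, 0, 0, 562707, 0, 0, 0, 0, 0, 0⟩ ⟨0, 0, 0, 0, 0, 0, 562707, 0, 0, 0, 0, 0, 0⟩ ⟨0, 0, 0, 0, 0, 0, 469943, 0, 0, 0, 0, 0, 0⟩ ⟨0, 0, 0, 0, 0, 0, 469943, 0, 0, 0, 0, 0, 0⟩ ⟨452, -18, -2048, 16, -53, 491, 403434, 0, 0, 0, 0, 0, 0⟩))
    (.leaf (.box ⟨373, -13, -2048, 9, -30, 465, 686055, 0, 0, 0, 0, 0, 0⟩ ⟨0, 0, 0, 0, 0, 0, 550737, 0, 0, 0, 0, 0, 0⟩ ⟨0, 0, 0, 0, 0, 0, 550737, 0, 0, 0, 0, 0, 0⟩ ⟨0, 0, 0, 0, 0, 0, 460005, 0, 0, 0, 0, 0, 0⟩ ⟨0, 0, 0, 0, 0, 0, 460005, 0, 0, 0, 0, 0, 0⟩ ⟨396, -25, -2048, 17, -51, 464, 394939, 0, 0, 0, 0, 0, 0⟩)))))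
    (.s3
    (.s1
    (.leaf (.box ⟨453, -10, -2048, 8, -19, 417, 949896, 0, 0, 0, 0, 0, 0⟩ ⟨0, 0, 0, 0, 0, 0, 787812, 0, 0, 0, 0, 0, 0⟩ ⟨0, 0, 0, 0, 0, 0, 787812, 0, 0, 0, 0, 0, 0⟩ ⟨0, 0, 0, 0, 0, 0, 672980, 0, 0, 0, 0, 0, 0⟩ ⟨0, 0, 0, 0, 0, 0, 672980, 0, 0, 0, 0, 0, 0⟩ ⟨480, -17, -2048, 14, -30, 416, 587364, 0, 0, 0, 0, 0, 0⟩))
    (.leaf (.box ⟨405, -13, -2048, 9, -19, 400, 930877, 0, 0, 0, 0, 0, 0⟩ ⟨0, 0, 0, 0, 0, 0, 772180, 0, 0, 0, 0, 0, 0⟩ ⟨0, 0, 0, 0, 0, 0, 772180, 0, 0, 0, 0, 0, 0⟩ ⟨0, 0, 0, 0, 0, 0, 659712, 0, 0, 0, 0, 0, 0⟩ ⟨0, 0, 0, 0, 0, 0, 659712, 0, 0, 0, 0, 0, 0⟩ ⟨390, -20, -2048, 14, -32, 417, 575840, 0, 0, 0, 0, 0, 0⟩)))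
    (.leaf (.box ⟨468, -17, -2048, 13, -25, 395, 656683, 0, 0, 0, 0, 0, 0⟩ ⟨0, 0, 0, 0, 0, 0, 529005, 0, 0, 0, 0, 0, 0⟩ ⟨0, 0, 0, 0, 0, 0, 529005, 0, 0, 0, 0, 0, 0⟩ ⟨0, 0, 0, 0, 0, 0, 442894, 0, 0, 0, 0, 0, 0⟩ ⟨0, 0, 0, 0, 0, 0, 442894, 0, 0, 0, 0, 0, 0⟩ ⟨442, -29, -2048, 22, -43, 401, 380892, 0, 0, 0, 0, 0, 0⟩))))
    (.s1
    (.s2
    (.s3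
    (.leaf (.box ⟨496, -25, -2048, 13, -20, 469, 894247, 0, 0, 0, 0, 0, 0⟩ ⟨0, 0, 0, 0, 0, 0, 741893, 0, 0, 0, 0, 0, 0⟩ ⟨0, 0, 0, 0, 0, 0, 741893, 0, 0, 0, 0, 0, 0⟩ ⟨0, 0, 0, 0, 0, 0, 633895, 0, 0, 0, 0, 0, 0⟩ ⟨0, 0, 0, 0, 0, 0, 633895, 0, 0, 0, 0, 0, 0⟩ ⟨590, -41, -2048, 21, -31, 444, 553344, 0, 0, 0, 0, 0, 0⟩))
    (.leaf (.box ⟨473, -32, -2048, 17, -25, 444, 633046, 0, 0, 0, 0, 0, 0⟩ ⟨0, 0, 0, 0, 0, 0, 510178, 0, 0, 0, 0, 0, 0⟩ ⟨0, 0, 0, 0, 0, 0, 510178, 0, 0, 0, 0, 0, 0⟩ ⟨0, 0, 0, 0, 0, 0, 427252, 0, 0, 0, 0, 0, 0⟩ ⟨0, 0, 0, 0, 0, 0, 427252, 0, 0, 0, 0, 0, 0⟩ ⟨494, -56, -2048, 29, -41, 438, 367515, 0, 0, 0, 0, 0, 0⟩)))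
    (.s3
    (.leaf (.box ⟨341, -18, -2048, 11, -19, 394, 913866, 0, 0, 0, 0, 0, 0⟩ ⟨0, 0, 0, 0, 0, 0, 758201, 0, 0, 0, 0, 0, 0⟩ ⟨0, 0, 0, 0, 0, 0, 758201, 0, 0, 0, 0, 0, 0⟩ ⟨0, 0, 0, 0, 0, 0, 647848, 0, 0, 0, 0, 0, 0⟩ ⟨0, 0, 0, 0, 0, 0, 647848, 0, 0, 0, 0, 0, 0⟩ ⟨352, -29, -2048, 17, -31, 394, 565536, 0, 0, 0, 0, 0, 0⟩))
    (.leaf (.box ⟨322, -23, -2048, 14, -25, 381, 647974, 0, 0, 0, 0, 0, 0⟩ ⟨0, 0, 0, 0, 0, 0, 522360, 0, 0, 0, 0, 0, 0⟩ ⟨0, 0, 0, 0, 0, 0, 522360, 0, 0, 0, 0, 0, 0⟩ ⟨0, 0, 0, 0, 0, 0, 437540, 0, 0, 0, 0, 0, 0⟩ ⟨0, 0, 0, 0, 0, 0, 437540, 0, 0, 0, 0, 0, 0⟩ ⟨332, -41, -2048, 25, -42, 379, 376417, 0, 0, 0, 0, 0, 0⟩))))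
    (.leaf (.box ⟨646, -54, -2048, 27, -27, 416, 595252, 0, 0, 0, 0, 0, 0⟩ ⟨0, 0, 0, 0, 0, 0, 478002, 0, 0, 0, 0, 0, 0⟩ ⟨0, 0, 0, 0, 0, 0, 478002, 0, 0, 0, 0, 0, 0⟩ ⟨0, 0, 0, 0, 0, 0, 399341, 0, 0, 0, 0, 0, 0⟩ ⟨0, 0, 0, 0, 0, 0, 399341, 0, 0, 0, 0, 0, 0⟩ ⟨679, -98, -2048, 50, -47, 416, 342911, 0, 0, 0, 0, 0, 0⟩))))

/-- A piece of the tree. -/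
noncomputable def tree88 : Tree LeafX :=
  .s2
    (.s0
    (.s0
    (.s1
    (.leaf (.box ⟨2048, -11, 1163, 9, -5, 58, 340772, 0, 0, 0, 0, 0, 0⟩ ⟨0, 0, 0, 0, 0, 0, 273285, 0, 0, 0, 0, 0, 0⟩ ⟨0, 0, 0, 0, 0, 0, 273285, 0, 0, 0, 0, 0, 0⟩ ⟨0, 0, 0, 0, 0, 0, 228109, 0, 0, 0, 0, 0, 0⟩ ⟨0, 0, 0, 0, 0, 0, 228109, 0, 0, 0, 0, 0, 0⟩ ⟨2048, -21, 1150, 16, -9, 57, 195750, 0, 0, 0, 0, 0, 0⟩))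
    (.leaf (.box ⟨2048, -74, 994, 16, -7, 53, 343783, 0, 0, 0, 0, 0, 0⟩ ⟨0, 0, 0, 0, 0, 0, 275739, 0, 0, 0, 0, 0, 0⟩ ⟨0, 0, 0, 0, 0, 0, 275739, 0, 0, 0, 0, 0, 0⟩ ⟨0, 0, 0, 0, 0, 0, 230179, 0, 0, 0, 0, 0, 0⟩ ⟨0, 0, 0, 0, 0, 0, 230179, 0, 0, 0, 0, 0, 0⟩ ⟨2048, -129, 1024, 27, -12, 52, 197540, 0, 0, 0, 0, 0, 0⟩)))
    (.leaf (.box ⟨2048, -88, 1870, 33, -16, 198, 400310, 0, 0, 0, 0, 0, 0⟩ ⟨0, 0, 0, 0, 0, 0, 321026, 0, 0, 0, 0, 0, 0⟩ ⟨0, 0, 0, 0, 0, 0, 321026, 0, 0, 0, 0, 0, 0⟩ ⟨0, 0, 0, 0, 0, 0, 267956, 0, 0, 0, 0, 0, 0⟩ ⟨0, 0, 0, 0, 0, 0, 267956, 0, 0, 0, 0, 0, 0⟩ ⟨2048, -151, 1776, 55, -26, 184, 229942, 0, 0, 0, 0, 0, 0⟩)))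
    (.s1
    (.s3
    (.leaf (.box ⟨2048, -28, 153, 16, -4, 143, 626521, 0, 0, 0, 0, 0, 0⟩ ⟨0, 0, 0, 0, 0, 0, 519288, 0, 0, 0, 0, 0, 0⟩ ⟨0, 0, 0, 0, 0, 0, 519288, 0, 0, 0, 0, 0, 0⟩ ⟨0, 0, 0, 0, 0, 0, 443398, 0, 0, 0, 0, 0, 0⟩ ⟨0, 0, 0, 0, 0, 0, 443398, 0, 0, 0, 0, 0, 0⟩ ⟨2048, -44, 129, 25, -6, 136, 386860, 0, 0, 0, 0, 0, 0⟩))
    (.leaf (.box ⟨2048, -37, 88, 24, -8, 192, 431362, 0, 0, 0, 0, 0, 0⟩ ⟨0, 0, 0, 0, 0, 0, 346136, 0, 0, 0, 0, 0, 0⟩ ⟨0, 0, 0, 0, 0, 0, 346136, 0, 0, 0, 0, 0, 0⟩ ⟨0, 0, 0, 0, 0, 0, 289031, 0, 0, 0, 0, 0, 0⟩ ⟨0, 0, 0, 0, 0, 0, 289031, 0, 0, 0, 0, 0, 0⟩ ⟨2048, -62, 36, 40, -13, 182, 248099, 0, 0, 0, 0, 0, 0⟩)))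
    (.leaf (.box ⟨2048, -235, 290, 48, -9, 107, 424767, 0, 0, 0, 0, 0, 0⟩ ⟨0, 0, 0, 0, 0, 0, 340792, 0, 0, 0, 0, 0, 0⟩ ⟨0, 0, 0, 0, 0, 0, 340792, 0, 0, 0, 0, 0, 0⟩ ⟨0, 0, 0, 0, 0, 0, 284540, 0, 0, 0, 0, 0, 0⟩ ⟨0, 0, 0, 0, 0, 0, 284540, 0, 0, 0, 0, 0, 0⟩ ⟨2048, -388, 327, 77, -10, 91, 244226, 0, 0, 0, 0, 0, 0⟩))))
    (.s0
    (.s0
    (.s0
    (.s2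
    (.leaf (.box ⟨2048, -68, 1380, 24, -7, 55, 310705, 0, 0, 0, 0, 0, 0⟩ ⟨0, 0, 0, 0, 0, 0, 249161, 0, 0, 0, 0, 0, 0⟩ ⟨0, 0, 0, 0, 0, 0, 249161, 0, 0, 0, 0, 0, 0⟩ ⟨0, 0, 0, 0, 0, 0, 207968, 0, 0, 0, 0, 0, 0⟩ ⟨0, 0, 0, 0, 0, 0, 207968, 0, 0, 0, 0, 0, 0⟩ ⟨2048, -120, 1361, 42, -13, 53, 178462, 0, 0, 0, 0, 0, 0⟩))
    (.leaf (.box ⟨2048, -64, 773, 24, -4, 38, 279939, 0, 0, 0, 0, 0, 0⟩ ⟨0, 0, 0, 0, 0, 0, 224499, 0, 0, 0, 0, 0, 0⟩ ⟨0, 0, 0, 0, 0, 0, 224499, 0, 0, 0, 0, 0, 0⟩ ⟨0, 0, 0, 0, 0, 0, 187388, 0, 0, 0, 0, 0, 0⟩ ⟨0, 0, 0, 0, 0, 0, 187388, 0, 0, 0, 0, 0, 0⟩ ⟨2048, -118, 773, 43, -8, 37, 160805, 0, 0, 0, 0, 0, 0⟩)))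
    (.leaf (.box ⟨2048, -86, 612, 37, -4, 129, 326903, 0, 0, 0, 0, 0, 0⟩ ⟨0, 0, 0, 0, 0, 0, 262177, 0, 0, 0, 0, 0, 0⟩ ⟨0, 0, 0, 0, 0, 0, 262177, 0, 0, 0, 0, 0, 0⟩ ⟨0, 0, 0, 0, 0, 0, 218845, 0, 0, 0, 0, 0, 0⟩ ⟨0, 0, 0, 0, 0, 0, 218845, 0, 0, 0, 0, 0, 0⟩ ⟨2048, -148, 601, 63, -7, 127, 187805, 0, 0, 0, 0, 0, 0⟩)))
    (.leaf (.box ⟨2048, -63, -522, 28, 2, 83, 358807, 0, 0, 0, 0, 0, 0⟩ ⟨0, 0, 0, 0, 0, 0, 287766, 0, 0, 0, 0, 0, 0⟩ ⟨0, 0, 0, 0, 0, 0, 287766, 0, 0, 0, 0, 0, 0⟩ ⟨0, 0, 0, 0, 0, 0, 240206, 0, 0, 0, 0, 0, 0⟩ ⟨0, 0, 0, 0, 0, 0, 240206, 0, 0, 0, 0, 0, 0⟩ ⟨2048, -111, -533, 48, 4, 81, 206137, 0, 0, 0, 0, 0, 0⟩)))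
    (.s1
    (.leaf (.box ⟨2048, -10, -1507, 18, 3, 154, 398391, 0, 0, 0, 0, 0, 0⟩ ⟨0, 0, 0, 0, 0, 0, 319496, 0, 0, 0, 0, 0, 0⟩ ⟨0, 0, 0, 0, 0, 0, 319496, 0, 0, 0, 0, 0, 0⟩ ⟨0, 0, 0, 0, 0, 0, 266683, 0, 0, 0, 0, 0, 0⟩ ⟨0, 0, 0, 0, 0, 0, 266683, 0, 0, 0, 0, 0, 0⟩ ⟨2048, -18, -1478, 31, 5, 149, 228853, 0, 0, 138019446, 0, 0, 0⟩))
    (.leaf (.box ⟨2048, -84, -1169, 46, 3, 91, 405554, 0, 0, 0, 0, 0, 0⟩ ⟨0, 0, 0, 0, 0, 0, 325306, 0, 0, 0, 0, 0, 0⟩ ⟨0, 0, 0, 0, 0, 0, 325306, 0, 0, 0, 0, 0, 0⟩ ⟨0, 0, 0, 0, 0, 0, 271570, 0, 0, 0, 0, 0, 0⟩ ⟨0, 0, 0, 0, 0, 0, 271570, 0, 0, 0, 0, 0, 0⟩ ⟨2048, -145, -1139, 78, 5, 87, 233069, 0, 0, 474183862, 0, 0, 0⟩))))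

/-- A piece of the tree. -/
noncomputable def tree89 : Tree LeafX :=
  .s0
    (.s0
    (.s1
    (.leaf (.box ⟨2048, -213, 307, 30, 5, 55, 360229, 0, 0, 0, 0, 0, 0⟩ ⟨0, 0, 0, 0, 0, 0, 288987, 0, 0, 0, 0, 0, 0⟩ ⟨0, 0, 0, 0, 0, 0, 288987, 0, 0, 0, 0, 0, 0⟩ ⟨0, 0, 0, 0, 0, 0, 241271, 0, 0, 0, 0, 0, 0⟩ ⟨0, 0, 0, 0, 0, 0, 241271, 0, 0, 0, 0, 0, 0⟩ ⟨2048, -398, 256, 53, 9, 53, 207079, 0, 0, 0, 0, 0, 0⟩))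
    (.leaf (.box ⟨2048, -240, -490, 83, 72, 152, 398050, 0, 0, 0, 0, 0, 0⟩ ⟨0, 0, 0, 0, 0, 0, 319319, 0, 0, 0, 0, 0, 0⟩ ⟨0, 0, 0, 0, 0, 0, 319319, 0, 0, 0, 0, 0, 0⟩ ⟨0, 0, 0, 0, 0, 0, 266590, 0, 0, 0, 0, 0, 0⟩ ⟨0, 0, 0, 0, 0, 0, 266590, 0, 0, 0, 0, 0, 0⟩ ⟨2048, -380, -701, 128, 122, 145, 228806, 0, 0, 0, 0, 0, 0⟩)))
    (.leaf (.box ⟨2048, -480, 145, 56, 8, 63, 409506, 0, 0, 0, 0, 0, 0⟩ ⟨0, 0, 0, 0, 0, 0, 328541, 0, 0, 0, 0, 0, 0⟩ ⟨0, 0, 0, 0, 0, 0, 328541, 0, 0, 0, 0, 0, 0⟩ ⟨0, 0, 0, 0, 0, 0, 274307, 0, 0, 0, 0, 0, 0⟩ ⟨0, 0, 0, 0, 0, 0, 274307, 0, 0, 0, 0, 0, 0⟩ ⟨2048, -594, 18, 67, 7, 30, 235441, 0, 0, 14142864976, 0, 0, 0⟩)))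
    (.s1
    (.s0
    (.s1
    (.leaf (.box ⟨2048, -374, 897, 38, -14, 129, 423656, 0, 0, 0, 0, 0, 0⟩ ⟨0, 0, 0, 0, 0, 0, 339942, 0, 0, 0, 0, 0, 0⟩ ⟨0, 0, 0, 0, 0, 0, 339942, 0, 0, 0, 0, 0, 0⟩ ⟨0, 0, 0, 0, 0, 0, 283853, 0, 0, 0, 0, 0, 0⟩ ⟨0, 0, 0, 0, 0, 0, 283853, 0, 0, 0, 0, 0, 0⟩ ⟨2048, -707, 892, 68, -24, 114, 243651, 0, 0, 0, 0, 0, 0⟩))
    (.leaf (.box ⟨2048, -595, 629, 43, -8, 112, 418140, 0, 0, 0, 0, 0, 0⟩ ⟨0, 0, 0, 0, 0, 0, 335550, 0, 0, 0, 0, 0, 0⟩ ⟨0, 0, 0, 0, 0, 0, 335550, 0, 0, 0, 0, 0, 0⟩ ⟨0, 0, 0, 0, 0, 0, 280205, 0, 0, 0, 0, 0, 0⟩ ⟨0, 0, 0, 0, 0, 0, 280205, 0, 0, 0, 0, 0, 0⟩ ⟨2048, -1139, 585, 77, -13, 95, 240531, 0, 0, 0, 0, 0, 0⟩)))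
    (.s3
    (.leaf (.box ⟨2048, -350, -55, 40, -4, 83, 612854, 0, 0, 0, 0, 0, 0⟩ ⟨0, 0, 0, 0, 0, 0, 508200, 0, 0, 0, 0, 0, 0⟩ ⟨0, 0, 0, 0, 0, 0, 508200, 0, 0, 0, 0, 0, 0⟩ ⟨0, 0, 0, 0, 0, 0, 434075, 0, 0, 0, 0, 0, 0⟩ ⟨0, 0, 0, 0, 0, 0, 434075, 0, 0, 0, 0, 0, 0⟩ ⟨2048, -502, -102, 57, -3, 66, 378820, 0, 0, 0, 0, 0, 0⟩))
    (.leaf (.box ⟨2048, -414, -201, 54, -7, 116, 427958, 0, 0, 0, 0, 0, 0⟩ ⟨0, 0, 0, 0, 0, 0, 344258, 0, 0, 0, 0, 0, 0⟩ ⟨0, 0, 0, 0, 0, 0, 344258, 0, 0, 0, 0, 0, 0⟩ ⟨0, 0, 0, 0, 0, 0, 287942, 0, 0, 0, 0, 0, 0⟩ ⟨0, 0, 0, 0, 0, 0, 287942, 0, 0, 0, 0, 0, 0⟩ ⟨2048, -666, -178, 84, -8, 83, 247460, 0, 0, 0, 0, 0, 0⟩))))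
    (.s3
    (.s0
    (.s2
    (.leaf (.box ⟨2048, -669, 881, 36, 1, 94, 610754, 2150312477, 0, 0, 0, 0, 0⟩ ⟨0, 0, 0, 0, 0, 0, 506427, 0, 0, 0, 0, 0, 0⟩ ⟨0, 0, 0, 0, 0, 0, 506427, 0, 0, 0, 0, 0, 0⟩ ⟨0, 0, 0, 0, 0, 0, 432541, 0, 0, 0, 0, 0, 0⟩ ⟨0, 0, 0, 0, 0, 0, 432541, 0, 0, 0, 0, 0, 0⟩ ⟨2048, -1002, 670, 52, 3, 81, 377469, 0, 0, 0, 0, 0, 0⟩))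
    (.leaf (.box ⟨2048, -462, -18, 23, 6, 73, 590182, 2221634789, 0, 0, 0, 0, 0⟩ ⟨0, 0, 0, 0, 0, 0, 489364, 0, 0, 0, 0, 0, 0⟩ ⟨0, 0, 0, 0, 0, 0, 489364, 0, 0, 0, 0, 0, 0⟩ ⟨0, 0, 0, 0, 0, 0, 417965, 0, 0, 0, 0, 0, 0⟩ ⟨0, 0, 0, 0, 0, 0, 417965, 0, 0, 0, 0, 0, 0⟩ ⟨2048, -779, -220, 36, 11, 64, 364747, 0, 0, 0, 0, 0, 0⟩)))
    (.s0
    (.leaf (.box ⟨2048, -529, -2, 37, 1, 52, 586976, 1625908687, 0, 0, 0, 0, 0⟩ ⟨0, 0, 0, 0, 0, 0, 486737, 0, 0, 0, 0, 0, 0⟩ ⟨0, 0, 0, 0, 0, 0, 486737, 0, 0, 0, 0, 0, 0⟩ ⟨0, 0, 0, 0, 0, 0, 415740, 0, 0, 0, 0, 0, 0⟩ ⟨0, 0, 0, 0, 0, 0, 415740, 0, 0, 0, 0, 0, 0⟩ ⟨2048, -787, -51, 53, 2, 40, 362818, 0, 0, 74005836, 0, 0, 0⟩))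
    (.leaf (.box ⟨2048, -346, -233, 40, 1, 67, 588682, 0, 0, 0, 0, 0, 0⟩ ⟨0, 0, 0, 0, 0, 0, 488168, 0, 0, 0, 0, 0, 0⟩ ⟨0, 0, 0, 0, 0, 0, 488168, 0, 0, 0, 0, 0, 0⟩ ⟨0, 0, 0, 0, 0, 0, 416972, 0, 0, 0, 0, 0, 0⟩ ⟨0, 0, 0, 0, 0, 0, 416972, 0, 0, 0, 0, 0, 0⟩ ⟨2048, -507, -203, 59, 2, 50, 363899, 0, 0, 0, 0, 0, 0⟩))))
    (.s0
    (.leaf (.box ⟨2048, -632, 79, 43, 12, 114, 411229, 0, 0, 0, 0, 0, 0⟩ ⟨0, 0, 0, 0, 0, 0, 330698, 0, 0, 0, 0, 0, 0⟩ ⟨0, 0, 0, 0, 0, 0, 330698, 0, 0, 0, 0, 0, 0⟩ ⟨0, 0, 0, 0, 0, 0, 276543, 0, 0, 0, 0, 0, 0⟩ ⟨0, 0, 0, 0, 0, 0, 276543, 0, 0, 0, 0, 0, 0⟩ ⟨2048, -968, -315, 61, 22, 80, 237628, 0, 0, 0, 0, 0, 0⟩))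
    (.leaf (.box ⟨2048, -583, -443, 66, 6, 106, 409062, 0, 0, 0, 0, 0, 0⟩ ⟨0, 0, 0, 0, 0, 0, 329049, 0, 0, 0, 0, 0, 0⟩ ⟨0, 0, 0, 0, 0, 0, 329049, 0, 0, 0, 0, 0, 0⟩ ⟨0, 0, 0, 0, 0, 0, 275216, 0, 0, 0, 0, 0, 0⟩ ⟨0, 0, 0, 0, 0, 0, 275216, 0, 0, 0, 0, 0, 0⟩ ⟨2048, -864, -471, 95, 11, 77, 236520, 0, 0, 1950910201, 0, 0, 0⟩)))))

/-- A piece of the tree. -/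
noncomputable def tree90 : Tree LeafX :=
  .s0
    (.leaf (.box ⟨2048, -118, 329, 21, 1, 31, 340853, 0, 0, 0, 0, 0, 0⟩ ⟨0, 0, 0, 0, 0, 0, 273462, 0, 0, 0, 0, 0, 0⟩ ⟨0, 0, 0, 0, 0, 0, 273462, 0, 0, 0, 0, 0, 0⟩ ⟨0, 0, 0, 0, 0, 0, 228320, 0, 0, 0, 0, 0, 0⟩ ⟨0, 0, 0, 0, 0, 0, 228320, 0, 0, 0, 0, 0, 0⟩ ⟨2048, -207, 322, 35, 1, 30, 195970, 0, 0, 3822438914, 0, 0, 0⟩))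
    (.leaf (.box ⟨2048, -197, -618, 28, 7, 56, 401996, 0, 0, 0, 0, 0, 0⟩ ⟨0, 0, 0, 0, 0, 0, 322536, 0, 0, 0, 0, 0, 0⟩ ⟨0, 0, 0, 0, 0, 0, 322536, 0, 0, 0, 0, 0, 0⟩ ⟨0, 0, 0, 0, 0, 0, 269304, 0, 0, 0, 0, 0, 0⟩ ⟨0, 0, 0, 0, 0, 0, 269304, 0, 0, 0, 0, 0, 0⟩ ⟨2048, -359, -696, 49, 14, 54, 231154, 0, 0, 0, 0, 0, 0⟩))

/-- A piece of the tree. -/
noncomputable def tree91 : Tree LeafX :=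
  .s0
    (.s2
    (.leaf (.box ⟨2048, -172, 590, 34, 21, 77, 394666, 0, 0, 0, 0, 0, 0⟩ ⟨0, 0, 0, 0, 0, 0, 316613, 0, 0, 0, 0, 0, 0⟩ ⟨0, 0, 0, 0, 0, 0, 316613, 0, 0, 0, 0, 0, 0⟩ ⟨0, 0, 0, 0, 0, 0, 264335, 0, 0, 0, 0, 0, 0⟩ ⟨0, 0, 0, 0, 0, 0, 264335, 0, 0, 0, 0, 0, 0⟩ ⟨2048, -302, 481, 57, 38, 76, 226874, 0, 0, 0, 0, 0, 0⟩))
    (.leaf (.box ⟨2048, -67, 563, 14, 4, 27, 392136, 0, 0, 0, 0, 0, 0⟩ ⟨0, 0, 0, 0, 0, 0, 314591, 0, 0, 0, 0, 0, 0⟩ ⟨0, 0, 0, 0, 0, 0, 314591, 0, 0, 0, 0, 0, 0⟩ ⟨0, 0, 0, 0, 0, 0, 262652, 0, 0, 0, 0, 0, 0⟩ ⟨0, 0, 0, 0, 0, 0, 262652, 0, 0, 0, 0, 0, 0⟩ ⟨2048, -118, 530, 24, 6, 26, 225432, 0, 0, 0, 0, 0, 0⟩)))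
    (.leaf (.box ⟨2048, -277, -206, 28, 6, 30, 414796, 0, 0, 0, 0, 353677091, 0⟩ ⟨0, 0, 0, 0, 0, 0, 332826, 0, 0, 0, 0, 0, 0⟩ ⟨0, 0, 0, 0, 0, 0, 332826, 0, 0, 0, 0, 0, 0⟩ ⟨0, 0, 0, 0, 0, 0, 277907, 0, 0, 0, 0, 0, 0⟩ ⟨0, 0, 0, 0, 0, 0, 277907, 0, 0, 0, 0, 0, 0⟩ ⟨2048, -464, -220, 45, 9, 24, 238545, 0, 0, 0, 0, 707790548, 0⟩))

/-- A piece of the tree. -/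
noncomputable def tree92 : Tree LeafX :=
  .s0
    (.s2
    (.leaf (.box ⟨2048, -71, 1106, 42, 53, 95, 423663, 0, 0, 0, 0, 0, 0⟩ ⟨0, 0, 0, 0, 0, 0, 339819, 0, 0, 0, 0, 0, 0⟩ ⟨0, 0, 0, 0, 0, 0, 339819, 0, 0, 0, 0, 0, 0⟩ ⟨0, 0, 0, 0, 0, 0, 283679, 0, 0, 0, 0, 0, 0⟩ ⟨0, 0, 0, 0, 0, 0, 283679, 0, 0, 0, 0, 0, 0⟩ ⟨2048, -115, 950, 67, 87, 89, 243457, 0, 0, 0, 0, 0, 0⟩))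
    (.s1
    (.s2
    (.leaf (.box ⟨2048, -53, 1822, 19, 23, 63, 422253, 0, 0, 0, 0, 0, 0⟩ ⟨0, 0, 0, 0, 0, 0, 338693, 0, 0, 0, 0, 0, 0⟩ ⟨0, 0, 0, 0, 0, 0, 338693, 0, 0, 0, 0, 0, 0⟩ ⟨0, 0, 0, 0, 0, 0, 282741, 0, 0, 0, 0, 0, 0⟩ ⟨0, 0, 0, 0, 0, 0, 282741, 0, 0, 0, 0, 0, 0⟩ ⟨2048, -91, 1790, 32, 41, 63, 242654, 0, 0, 0, 0, 0, 0⟩))
    (.leaf (.box ⟨2048, -35, 1443, 12, 8, 31, 421181, 0, 0, 0, 0, 0, 0⟩ ⟨0, 0, 0, 0, 0, 0, 337837, 0, 0, 0, 0, 0, 0⟩ ⟨0, 0, 0, 0, 0, 0, 337837, 0, 0, 0, 0, 0, 0⟩ ⟨0, 0, 0, 0, 0, 0, 282029, 0, 0, 0, 0, 0, 0⟩ ⟨0, 0, 0, 0, 0, 0, 282029, 0, 0, 0, 0, 0, 0⟩ ⟨2048, -62, 1395, 21, 14, 30, 242044, 0, 0, 0, 0, 0, 0⟩)))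
    (.leaf (.box ⟨2048, -23, 1079, 16, 12, 24, 436183, 0, 0, 0, 0, 0, 0⟩ ⟨0, 0, 0, 0, 0, 0, 349826, 0, 0, 0, 0, 0, 0⟩ ⟨0, 0, 0, 0, 0, 0, 349826, 0, 0, 0, 0, 0, 0⟩ ⟨0, 0, 0, 0, 0, 0, 292012, 0, 0, 0, 0, 0, 0⟩ ⟨0, 0, 0, 0, 0, 0, 292012, 0, 0, 0, 0, 0, 0⟩ ⟨2048, -39, 1017, 26, 21, 23, 250597, 0, 0, 0, 0, 0, 0⟩))))
    (.leaf (.box ⟨2048, -89, 712, 26, 14, 39, 439673, 0, 0, 1868102697, 0, 0, 0⟩ ⟨0, 0, 0, 0, 0, 0, 352700, 0, 0, 0, 0, 0, 0⟩ ⟨0, 0, 0, 0, 0, 0, 352700, 0, 0, 0, 0, 0, 0⟩ ⟨0, 0, 0, 0, 0, 0, 294454, 0, 0, 0, 0, 0, 0⟩ ⟨0, 0, 0, 0, 0, 0, 294454, 0, 0, 0, 0, 0, 0⟩ ⟨2048, -158, 651, 46, 24, 38, 252718, 0, 0, 0, 0, 0, 0⟩))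

/-- A piece of the tree. -/
noncomputable def tree93 : Tree LeafX :=
  .s0
    (.leaf (.box ⟨2048, -125, 154, 19, 3, 10, 431275, 0, 0, 0, 0, 0, 0⟩ ⟨0, 0, 0, 0, 0, 0, 346029, 0, 0, 0, 0, 0, 0⟩ ⟨0, 0, 0, 0, 0, 0, 346029, 0, 0, 0, 0, 0, 0⟩ ⟨0, 0, 0, 0, 0, 0, 288921, 0, 0, 0, 0, 0, 0⟩ ⟨0, 0, 0, 0, 0, 0, 288921, 0, 0, 0, 0, 0, 0⟩ ⟨2048, -207, 103, 31, 4, 9, 247992, 0, 0, 4111628031, 0, 0, 0⟩))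
    (.s2
    (.s3
    (.s2
    (.leaf (.box ⟨2048, -256, 192, 18, 11, 63, 617845, 0, 0, 0, 0, 0, 0⟩ ⟨0, 0, 0, 0, 0, 0, 512280, 0, 0, 0, 0, 0, 0⟩ ⟨0, 0, 0, 0, 0, 0, 512280, 0, 0, 0, 0, 0, 0⟩ ⟨0, 0, 0, 0, 0, 0, 437524, 0, 0, 0, 0, 0, 0⟩ ⟨0, 0, 0, 0, 0, 0, 437524, 0, 0, 0, 0, 0, 0⟩ ⟨2048, -372, 0, 25, 20, 64, 381807, 0, 0, 10368022064, 0, 0, 0⟩))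
    (.s3
    (.leaf (.box ⟨2048, -157, 53, 9, 1, 7, 798421, 0, 0, 0, 0, 0, 0⟩ ⟨0, 0, 0, 0, 0, 0, 683603, 0, 0, 0, 0, 0, 0⟩ ⟨0, 0, 0, 0, 0, 0, 683603, 0, 0, 0, 0, 0, 0⟩ ⟨0, 0, 0, 0, 0, 0, 597656, 0, 0, 0, 0, 0, 0⟩ ⟨0, 0, 0, 0, 0, 0, 597656, 0, 0, 0, 0, 0, 0⟩ ⟨3624, -443, -3, 24, 1, 6, 530906, 1777454573, 0, 0, 0, 18876458, 0⟩))
    (.leaf (.box ⟨2048, -177, 188, 12, 6, 36, 617420, 0, 0, 0, 0, 0, 0⟩ ⟨0, 0, 0, 0, 0, 0, 512207, 0, 0, 0, 0, 0, 0⟩ ⟨0, 0, 0, 0, 0, 0, 512207, 0, 0, 0, 0, 0, 0⟩ ⟨0, 0, 0, 0, 0, 0, 437631, 0, 0, 0, 0, 0, 0⟩ ⟨0, 0, 0, 0, 0, 0, 437631, 0, 0, 0, 0, 0, 0⟩ ⟨2048, -283, 60, 18, 9, 32, 382011, 0, 0, 0, 0, 0, 0⟩))))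
    (.leaf (.box ⟨2048, -265, 120, 23, 16, 62, 424632, 0, 0, 0, 0, 0, 0⟩ ⟨0, 0, 0, 0, 0, 0, 341167, 0, 0, 0, 0, 0, 0⟩ ⟨0, 0, 0, 0, 0, 0, 341167, 0, 0, 0, 0, 0, 0⟩ ⟨0, 0, 0, 0, 0, 0, 285123, 0, 0, 0, 0, 0, 0⟩ ⟨0, 0, 0, 0, 0, 0, 285123, 0, 0, 0, 0, 0, 0⟩ ⟨2048, -437, -166, 36, 27, 52, 244894, 0, 0, 0, 0, 0, 0⟩)))
    (.s2
    (.s3
    (.s1
    (.leaf (.box ⟨2048, -279, -150, 16, 6, 38, 608667, 2061215407, 0, 0, 0, 0, 0⟩ ⟨0, 0, 0, 0, 0, 0, 504632, 0, 0, 0, 0, 0, 0⟩ ⟨0, 0, 0, 0, 0, 0, 504632, 0, 0, 0, 0, 0, 0⟩ ⟨0, 0, 0, 0, 0, 0, 430970, 0, 0, 0, 0, 0, 0⟩ ⟨0, 0, 0, 0, 0, 0, 430970, 0, 0, 0, 0, 0, 0⟩ ⟨2048, -484, -105, 26, 4, 13, 376073, 258632812, 0, 0, 0, 0, 0⟩))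
    (.s1
    (.s0
    (.leaf (.box ⟨2048, -176, 864, 12, 3, 39, 622349, 1347117187, 0, 0, 0, 0, 0⟩ ⟨0, 0, 0, 0, 0, 0, 515958, 0, 0, 0, 0, 0, 0⟩ ⟨0, 0, 0, 0, 0, 0, 515958, 0, 0, 0, 0, 0, 0⟩ ⟨0, 0, 0, 0, 0, 0, 440632, 0, 0, 0, 0, 0, 0⟩ ⟨0, 0, 0, 0, 0, 0, 440632, 0, 0, 0, 0, 0, 0⟩ ⟨2048, -319, 704, 20, 5, 34, 384497, 0, 0, 0, 0, 0, 0⟩))
    (.s0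
    (.s2
    (.leaf (.box ⟨2048, -303, 679, 13, 5, 47, 617592, 0, 0, 0, 0, 0, 0⟩ ⟨0, 0, 0, 0, 0, 0, 512024, 0, 0, 0, 0, 0, 0⟩ ⟨0, 0, 0, 0, 0, 0, 512024, 0, 0, 0, 0, 0, 0⟩ ⟨0, 0, 0, 0, 0, 0, 437278, 0, 0, 0, 0, 0, 0⟩ ⟨0, 0, 0, 0, 0, 0, 437278, 0, 0, 0, 0, 0, 0⟩ ⟨2048, -577, 436, 23, 8, 40, 381575, 0, 0, 0, 0, 0, 0⟩))
    (.leaf (.skip 8 0)))
    (.leaf (.skip 8 0))))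
    (.leaf (.skip 8 0))))
    (.s1
    (.leaf (.box ⟨2048, -277, -242, 20, 14, 59, 422656, 0, 0, 0, 0, 0, 0⟩ ⟨0, 0, 0, 0, 0, 0, 339721, 0, 0, 0, 0, 0, 0⟩ ⟨0, 0, 0, 0, 0, 0, 339721, 0, 0, 0, 0, 0, 0⟩ ⟨0, 0, 0, 0, 0, 0, 283994, 0, 0, 0, 0, 0, 0⟩ ⟨0, 0, 0, 0, 0, 0, 283994, 0, 0, 0, 0, 0, 0⟩ ⟨2048, -593, -454, 40, 22, 42, 243973, 0, 0, 0, 0, 0, 0⟩))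
    (.s1
    (.leaf (.box ⟨2048, -239, 668, 17, 10, 58, 421305, 0, 0, 0, 0, 0, 0⟩ ⟨0, 0, 0, 0, 0, 0, 338566, 0, 0, 0, 0, 0, 0⟩ ⟨0, 0, 0, 0, 0, 0, 338566, 0, 0, 0, 0, 0, 0⟩ ⟨0, 0, 0, 0, 0, 0, 282990, 0, 0, 0, 0, 0, 0⟩ ⟨0, 0, 0, 0, 0, 0, 282990, 0, 0, 0, 0, 0, 0⟩ ⟨2048, -528, 219, 35, 13, 33, 243086, 3180279576, 0, 0, 0, 0, 0⟩))
    (.leaf (.skip 8 0)))))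
    (.s0
    (.s1
    (.leaf (.box ⟨2048, -233, 242, 18, 11, 62, 422942, 0, 0, 0, 0, 0, 0⟩ ⟨0, 0, 0, 0, 0, 0, 339326, 0, 0, 0, 0, 0, 0⟩ ⟨0, 0, 0, 0, 0, 0, 339326, 0, 0, 0, 0, 0, 0⟩ ⟨0, 0, 0, 0, 0, 0, 283315, 0, 0, 0, 0, 0, 0⟩ ⟨0, 0, 0, 0, 0, 0, 283315, 0, 0, 0, 0, 0, 0⟩ ⟨2048, -478, 4, 35, 21, 58, 243174, 0, 0, 0, 0, 0, 0⟩))
    (.leaf (.skip 8 0)))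
    (.leaf (.skip 8 0)))))

/-- A piece of the tree. -/
noncomputable def tree94 : Tree LeafX :=
  .s2
    (.leaf (.box ⟨2048, -278, -1285, 32, 10, 77, 410480, 0, 0, 0, 0, 0, 0⟩ ⟨0, 0, 0, 0, 0, 0, 329399, 0, 0, 0, 0, 0, 0⟩ ⟨0, 0, 0, 0, 0, 0, 329399, 0, 0, 0, 0, 0, 0⟩ ⟨0, 0, 0, 0, 0, 0, 275065, 0, 0, 0, 0, 0, 0⟩ ⟨0, 0, 0, 0, 0, 0, 275065, 0, 0, 0, 0, 0, 0⟩ ⟨2048, -550, -1268, 60, 18, 66, 236118, 0, 0, 0, 0, 0, 0⟩))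
    (.leaf (.box ⟨1986, -243, -2048, 44, 18, 67, 406395, 1830698446, 0, 0, 0, 0, 0⟩ ⟨0, 0, 0, 0, 0, 0, 326107, 0, 0, 0, 0, 0, 0⟩ ⟨0, 0, 0, 0, 0, 0, 326107, 0, 0, 0, 0, 0, 0⟩ ⟨0, 0, 0, 0, 0, 0, 272309, 0, 0, 0, 0, 0, 0⟩ ⟨0, 0, 0, 0, 0, 0, 272309, 0, 0, 0, 0, 0, 0⟩ ⟨1997, -463, -2048, 80, 31, 61, 233747, 485991915, 0, 0, 0, 0, 0⟩))

/-- A piece of the tree. -/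
noncomputable def tree95 : Tree LeafX :=
  .s0
    (.s3
    (.leaf (.box ⟨2048, -408, -1432, 24, 13, 35, 586614, 2690523317, 0, 0, 0, 0, 0⟩ ⟨0, 0, 0, 0, 0, 0, 486397, 0, 0, 0, 0, 0, 0⟩ ⟨0, 0, 0, 0, 0, 0, 486397, 0, 0, 0, 0, 0, 0⟩ ⟨0, 0, 0, 0, 0, 0, 415425, 0, 0, 0, 0, 0, 0⟩ ⟨0, 0, 0, 0, 0, 0, 415425, 0, 0, 0, 0, 0, 0⟩ ⟨2048, -605, -1637, 33, 23, 32, 362527, 0, 0, 0, 0, 0, 0⟩))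
    (.leaf (.box ⟨2048, -463, -1637, 32, 20, 44, 408536, 0, 0, 0, 0, 0, 0⟩ ⟨0, 0, 0, 0, 0, 0, 328509, 0, 0, 0, 0, 0, 0⟩ ⟨0, 0, 0, 0, 0, 0, 328509, 0, 0, 0, 0, 0, 0⟩ ⟨0, 0, 0, 0, 0, 0, 274698, 0, 0, 0, 0, 0, 0⟩ ⟨0, 0, 0, 0, 0, 0, 274698, 0, 0, 0, 0, 0, 0⟩ ⟨2048, -788, -1776, 49, 37, 34, 236035, 0, 0, 792645792, 0, 0, 0⟩)))
    (.leaf (.box ⟨2048, -403, -1558, 42, 19, 46, 395681, 0, 0, 0, 0, 0, 0⟩ ⟨0, 0, 0, 0, 0, 0, 317507, 0, 0, 0, 0, 0, 0⟩ ⟨0, 0, 0, 0, 0, 0, 317507, 0, 0, 0, 0, 0, 0⟩ ⟨0, 0, 0, 0, 0, 0, 265126, 0, 0, 0, 0, 0, 0⟩ ⟨0, 0, 0, 0, 0, 0, 265126, 0, 0, 0, 0, 0, 0⟩ ⟨2048, -755, -1464, 75, 30, 36, 227580, 0, 0, 2158075885, 0, 0, 0⟩))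

/-- A piece of the tree. -/
noncomputable def tree96 : Tree LeafX :=
  .s2
    (.s3
    (.s2
    (.s0
    (.leaf (.box ⟨2048, -393, -345, 15, 8, 41, 595752, 1945763266, 0, 0, 0, 0, 0⟩ ⟨0, 0, 0, 0, 0, 0, 493928, 0, 0, 0, 0, 0, 0⟩ ⟨0, 0, 0, 0, 0, 0, 493928, 0, 0, 0, 0, 0, 0⟩ ⟨0, 0, 0, 0, 0, 0, 421830, 0, 0, 0, 0, 0, 0⟩ ⟨0, 0, 0, 0, 0, 0, 421830, 0, 0, 0, 0, 0, 0⟩ ⟨2048, -790, -579, 28, 14, 34, 368098, 0, 0, 8263408728, 0, 0, 0⟩))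
    (.leaf (.box ⟨2048, -300, -1316, 17, 17, 80, 580542, 0, 0, 0, 0, 0, 0⟩ ⟨0, 0, 0, 0, 0, 0, 481362, 0, 0, 0, 0, 0, 0⟩ ⟨0, 0, 0, 0, 0, 0, 481362, 0, 0, 0, 0, 0, 0⟩ ⟨0, 0, 0, 0, 0, 0, 411125, 0, 0, 0, 0, 0, 0⟩ ⟨0, 0, 0, 0, 0, 0, 411125, 0, 0, 0, 0, 0, 0⟩ ⟨2048, -614, -1632, 34, 31, 75, 358775, 10421713020, 0, 0, 0, 0, 0⟩)))
    (.s0
    (.s1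
    (.leaf (.box ⟨2048, -499, -1152, 18, 12, 34, 591848, 0, 0, 0, 0, 0, 0⟩ ⟨0, 0, 0, 0, 0, 0, 490728, 0, 0, 0, 0, 0, 0⟩ ⟨0, 0, 0, 0, 0, 0, 490728, 0, 0, 0, 0, 0, 0⟩ ⟨0, 0, 0, 0, 0, 0, 419119, 0, 0, 0, 0, 0, 0⟩ ⟨0, 0, 0, 0, 0, 0, 419119, 0, 0, 0, 0, 0, 0⟩ ⟨2048, -1018, -550, 34, 8, 11, 365747, 0, 0, 3337712507, 0, 0, 0⟩))
    (.s0
    (.s1
    (.s1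
    (.leaf (.box ⟨2048, -568, -435, 17, 7, 29, 601256, 0, 0, 0, 0, 0, 0⟩ ⟨0, 0, 0, 0, 0, 0, 498500, 0, 0, 0, 0, 0, 0⟩ ⟨0, 0, 0, 0, 0, 0, 498500, 0, 0, 0, 0, 0, 0⟩ ⟨0, 0, 0, 0, 0, 0, 425740, 0, 0, 0, 0, 0, 0⟩ ⟨0, 0, 0, 0, 0, 0, 425740, 0, 0, 0, 0, 0, 0⟩ ⟨2262, -1352, -176, 38, 3, 6, 371514, 1484944642, 0, 0, 0, 0, 0⟩))
    (.leaf (.skip 8 0)))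
    (.leaf (.skip 8 0)))
    (.leaf (.skip 10 0))))
    (.s1
    (.leaf (.box ⟨2048, -319, -1729, 22, 17, 58, 580385, 0, 0, 0, 0, 0, 0⟩ ⟨0, 0, 0, 0, 0, 0, 481254, 0, 0, 0, 0, 0, 0⟩ ⟨0, 0, 0, 0, 0, 0, 481254, 0, 0, 0, 0, 0, 0⟩ ⟨0, 0, 0, 0, 0, 0, 411047, 0, 0, 0, 0, 0, 0⟩ ⟨0, 0, 0, 0, 0, 0, 411047, 0, 0, 0, 0, 0, 0⟩ ⟨2048, -520, -1388, 35, 21, 39, 358715, 0, 0, 0, 0, 0, 0⟩))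
    (.leaf (.skip 8 0)))))
    (.s0
    (.leaf (.box ⟨2048, -385, -654, 21, 15, 47, 407242, 2450119405, 0, 0, 0, 0, 0⟩ ⟨0, 0, 0, 0, 0, 0, 327319, 0, 0, 0, 0, 0, 0⟩ ⟨0, 0, 0, 0, 0, 0, 327319, 0, 0, 0, 0, 0, 0⟩ ⟨0, 0, 0, 0, 0, 0, 273619, 0, 0, 0, 0, 0, 0⟩ ⟨0, 0, 0, 0, 0, 0, 273619, 0, 0, 0, 0, 0, 0⟩ ⟨2048, -1006, -985, 51, 28, 35, 235056, 0, 0, 0, 0, 0, 0⟩))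
    (.leaf (.box ⟨2048, -329, -1754, 26, 29, 86, 397586, 0, 0, 0, 0, 0, 0⟩ ⟨0, 0, 0, 0, 0, 0, 319669, 0, 0, 0, 0, 0, 0⟩ ⟨0, 0, 0, 0, 0, 0, 319669, 0, 0, 0, 0, 0, 0⟩ ⟨0, 0, 0, 0, 0, 0, 267287, 0, 0, 0, 0, 0, 0⟩ ⟨0, 0, 0, 0, 0, 0, 267287, 0, 0, 0, 0, 0, 0⟩ ⟨2048, -646, -1542, 50, 40, 54, 229654, 0, 0, 559744395, 0, 0, 0⟩))))
    (.s2
    (.s1
    (.s0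
    (.s3
    (.s3
    (.s0
    (.s2
    (.leaf (.box ⟨2048, -441, -1394, 13, 10, 30, 779608, 0, 0, 0, 0, 0, 0⟩ ⟨0, 0, 0, 0, 0, 0, 667582, 0, 0, 0, 0, 0, 0⟩ ⟨0, 0, 0, 0, 0, 0, 667582, 0, 0, 0, 0, 0, 0⟩ ⟨0, 0, 0, 0, 0, 0, 583706, 0, 0, 0, 0, 0, 0⟩ ⟨0, 0, 0, 0, 0, 0, 583706, 0, 0, 0, 0, 0, 0⟩ ⟨2048, -825, -1003, 22, 10, 16, 518554, 0, 0, 0, 0, 0, 0⟩))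
    (.leaf (.box ⟨2048, -454, -800, 13, 5, 13, 775705, 0, 0, 0, 0, 0, 0⟩ ⟨0, 0, 0, 0, 0, 0, 664236, 0, 0, 0, 0, 0, 0⟩ ⟨0, 0, 0, 0, 0, 0, 664236, 0, 0, 0, 0, 0, 0⟩ ⟨0, 0, 0, 0, 0, 0, 580778, 0, 0, 0, 0, 0, 0⟩ ⟨0, 0, 0, 0, 0, 0, 580778, 0, 0, 0, 0, 0, 0⟩ ⟨3956, -1621, -494, 42, 5, 6, 515951, 4736147977, 0, 0, 0, 291154414, 0⟩)))
    (.leaf (.box ⟨2048, -375, -1044, 13, 7, 15, 761615, 0, 0, 0, 0, 0, 0⟩ ⟨0, 0, 0, 0, 0, 0, 652190, 0, 0, 0, 0, 0, 0⟩ ⟨0, 0, 0, 0, 0, 0, 652190, 0, 0, 0, 0, 0, 0⟩ ⟨0, 0, 0, 0, 0, 0, 570258, 0, 0, 0, 0, 0, 0⟩ ⟨0, 0, 0, 0, 0, 0, 570258, 0, 0, 0, 0, 0, 0⟩ ⟨2074, -665, -509, 21, 5, 6, 506614, 0, 0, 0, 0, 0, 0⟩)))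
    (.leaf (.box ⟨2048, -420, -1475, 16, 13, 28, 590386, 0, 0, 214589102, 0, 0, 0⟩ ⟨0, 0, 0, 0, 0, 0, 489984, 0, 0, 0, 0, 0, 0⟩ ⟨0, 0, 0, 0, 0, 0, 489984, 0, 0, 0, 0, 0, 0⟩ ⟨0, 0, 0, 0, 0, 0, 418767, 0, 0, 0, 0, 0, 0⟩ ⟨0, 0, 0, 0, 0, 0, 418767, 0, 0, 0, 0, 0, 0⟩ ⟨2048, -897, -711, 31, 10, 9, 365625, 0, 0, 0, 0, 0, 0⟩)))
    (.leaf (.box ⟨2048, -492, -1969, 25, 26, 45, 407007, 0, 0, 0, 0, 0, 0⟩ ⟨0, 0, 0, 0, 0, 0, 327231, 0, 0, 0, 0, 0, 0⟩ ⟨0, 0, 0, 0, 0, 0, 327231, 0, 0, 0, 0, 0, 0⟩ ⟨0, 0, 0, 0, 0, 0, 273603, 0, 0, 0, 0, 0, 0⟩ ⟨0, 0, 0, 0, 0, 0, 273603, 0, 0, 0, 0, 0, 0⟩ ⟨2048, -1306, -902, 58, 19, 12, 235077, 17867174596, 0, 0, 0, 0, 0⟩)))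
    (.leaf (.box ⟨2048, -324, -1007, 30, 13, 26, 392006, 0, 0, 0, 0, 0, 0⟩ ⟨0, 0, 0, 0, 0, 0, 314558, 0, 0, 0, 0, 0, 0⟩ ⟨0, 0, 0, 0, 0, 0, 314558, 0, 0, 0, 0, 0, 0⟩ ⟨0, 0, 0, 0, 0, 0, 262663, 0, 0, 0, 0, 0, 0⟩ ⟨0, 0, 0, 0, 0, 0, 262663, 0, 0, 0, 0, 0, 0⟩ ⟨2048, -545, -678, 48, 15, 14, 225466, 0, 0, 5967271078, 0, 983916435, 0⟩)))
    (.leaf (.skip 8 0)))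
    (.leaf (.skip 8 0)))

/-- A piece of the tree. -/
noncomputable def tree97 : Tree LeafX :=
  .s1
    (.leaf (.box ⟨2048, -140, -1660, 56, 6, 115, 408570, 0, 0, 0, 0, 0, 0⟩ ⟨0, 0, 0, 0, 0, 0, 327849, 0, 0, 0, 0, 0, 0⟩ ⟨0, 0, 0, 0, 0, 0, 327849, 0, 0, 0, 0, 0, 0⟩ ⟨0, 0, 0, 0, 0, 0, 273762, 0, 0, 0, 0, 0, 0⟩ ⟨0, 0, 0, 0, 0, 0, 273762, 0, 0, 0, 0, 0, 0⟩ ⟨2048, -240, -1573, 95, 10, 105, 234993, 0, 0, 3606141146, 0, 0, 0⟩))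
    (.leaf (.box ⟨2048, -216, -1461, 70, 14, 96, 377888, 0, 0, 0, 0, 0, 0⟩ ⟨0, 0, 0, 0, 0, 0, 303195, 0, 0, 0, 0, 0, 0⟩ ⟨0, 0, 0, 0, 0, 0, 303195, 0, 0, 0, 0, 0, 0⟩ ⟨0, 0, 0, 0, 0, 0, 253156, 0, 0, 0, 0, 0, 0⟩ ⟨0, 0, 0, 0, 0, 0, 253156, 0, 0, 0, 0, 0, 0⟩ ⟨2048, -375, -1371, 120, 24, 86, 217294, 4087500081, 0, 0, 0, 0, 0⟩))

/-- A piece of the tree. -/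
noncomputable def tree98 : Tree LeafX :=
  .s2
    (.s0
    (.s3
    (.leaf (.box ⟨2048, -32, -807, 19, -5, 159, 675042, 0, 0, 0, 0, 0, 0⟩ ⟨0, 0, 0, 0, 0, 0, 559647, 0, 0, 0, 0, 0, 0⟩ ⟨0, 0, 0, 0, 0, 0, 559647, 0, 0, 0, 0, 0, 0⟩ ⟨0, 0, 0, 0, 0, 0, 477945, 0, 0, 0, 0, 0, 0⟩ ⟨0, 0, 0, 0, 0, 0, 477945, 0, 0, 0, 0, 0, 0⟩ ⟨2048, -51, -747, 30, -7, 145, 417058, 0, 0, 0, 0, 0, 0⟩))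
    (.leaf (.box ⟨2048, -39, -1139, 25, -9, 215, 468351, 0, 0, 0, 0, 0, 0⟩ ⟨0, 0, 0, 0, 0, 0, 376404, 0, 0, 0, 0, 0, 0⟩ ⟨0, 0, 0, 0, 0, 0, 376404, 0, 0, 0, 0, 0, 0⟩ ⟨0, 0, 0, 0, 0, 0, 314635, 0, 0, 0, 0, 0, 0⟩ ⟨0, 0, 0, 0, 0, 0, 314635, 0, 0, 0, 0, 0, 0⟩ ⟨2048, -66, -1079, 42, -14, 198, 270280, 0, 0, 0, 0, 0, 0⟩)))
    (.s2
    (.s0
    (.leaf (.box ⟨558, -15, -2048, 10, -16, 365, 511880, 0, 0, 0, 0, 0, 0⟩ ⟨0, 0, 0, 0, 0, 0, 410725, 0, 0, 0, 0, 0, 0⟩ ⟨0, 0, 0, 0, 0, 0, 410725, 0, 0, 0, 0, 0, 0⟩ ⟨0, 0, 0, 0, 0, 0, 342952, 0, 0, 0, 0, 0, 0⟩ ⟨0, 0, 0, 0, 0, 0, 342952, 0, 0, 0, 0, 0, 0⟩ ⟨564, -24, -2048, 16, -28, 360, 294377, 0, 0, 0, 0, 0, 0⟩))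
    (.s1
    (.s1
    (.s3
    (.leaf (.box ⟨989, -3, -4528, 6, -29, 1000, 852806, 0, 0, 0, 0, 0, 0⟩ ⟨0, 0, 0, 0, 0, 0, 706822, 0, 0, 0, 0, 0, 0⟩ ⟨0, 0, 0, 0, 0, 0, 706822, 0, 0, 0, 0, 0, 0⟩ ⟨0, 0, 0, 0, 0, 0, 603512, 0, 0, 0, 0, 0, 0⟩ ⟨0, 0, 0, 0, 0, 0, 603512, 0, 0, 0, 0, 0, 0⟩ ⟨628, -3, -2758, 6, -28, 605, 526550, 0, 0, 0, 0, 0, 0⟩))
    (.leaf (.box ⟨647, -3, -3057, 6, -27, 648, 586642, 0, 0, 0, 0, 0, 0⟩ ⟨0, 0, 0, 0, 0, 0, 470891, 0, 0, 0, 0, 0, 0⟩ ⟨0, 0, 0, 0, 0, 0, 470891, 0, 0, 0, 0, 0, 0⟩ ⟨0, 0, 0, 0, 0, 0, 393290, 0, 0, 0, 0, 0, 0⟩ ⟨0, 0, 0, 0, 0, 0, 393290, 0, 0, 0, 0, 0, 0⟩ ⟨438, -4, -2048, 8, -30, 428, 337647, 0, 0, 0, 0, 0, 0⟩)))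
    (.leaf (.box ⟨503, -5, -2746, 6, -22, 511, 567641, 0, 0, 0, 0, 0, 0⟩ ⟨0, 0, 0, 0, 0, 0, 455343, 0, 0, 0, 0, 0, 0⟩ ⟨0, 0, 0, 0, 0, 0, 455343, 0, 0, 0, 0, 0, 0⟩ ⟨0, 0, 0, 0, 0, 0, 380139, 0, 0, 0, 0, 0, 0⟩ ⟨0, 0, 0, 0, 0, 0, 380139, 0, 0, 0, 0, 0, 0⟩ ⟨413, -8, -2048, 9, -28, 378, 326255, 0, 0, 0, 0, 0, 0⟩)))
    (.leaf (.box ⟨264, -12, -2048, 8, -17, 346, 541674, 0, 0, 0, 0, 0, 0⟩ ⟨0, 0, 0, 0, 0, 0, 434648, 0, 0, 0, 0, 0, 0⟩ ⟨0, 0, 0, 0, 0, 0, 434648, 0, 0, 0, 0, 0, 0⟩ ⟨0, 0, 0, 0, 0, 0, 362937, 0, 0, 0, 0, 0, 0⟩ ⟨0, 0, 0, 0, 0, 0, 362937, 0, 0, 0, 0, 0, 0⟩ ⟨310, -22, -2048, 14, -30, 344, 311537, 0, 0, 0, 0, 0, 0⟩))))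
    (.leaf (.box ⟨537, -10, -2048, 16, -21, 391, 515629, 0, 0, 0, 0, 0, 0⟩ ⟨0, 0, 0, 0, 0, 0, 413726, 0, 0, 0, 0, 0, 0⟩ ⟨0, 0, 0, 0, 0, 0, 413726, 0, 0, 0, 0, 0, 0⟩ ⟨0, 0, 0, 0, 0, 0, 345454, 0, 0, 0, 0, 0, 0⟩ ⟨0, 0, 0, 0, 0, 0, 345454, 0, 0, 0, 0, 0, 0⟩ ⟨571, -19, -2048, 29, -36, 389, 296522, 0, 0, 0, 0, 0, 0⟩))))
    (.leaf (.box ⟨2048, -9, -1413, 35, -14, 287, 460964, 0, 0, 0, 0, 0, 0⟩ ⟨0, 0, 0, 0, 0, 0, 369831, 0, 0, 0, 0, 0, 0⟩ ⟨0, 0, 0, 0, 0, 0, 369831, 0, 0, 0, 0, 0, 0⟩ ⟨0, 0, 0, 0, 0, 0, 308783, 0, 0, 0, 0, 0, 0⟩ ⟨0, 0, 0, 0, 0, 0, 308783, 0, 0, 0, 0, 0, 0⟩ ⟨2048, -15, -1296, 59, -24, 274, 265034, 0, 0, 0, 0, 0, 0⟩))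

/-- A piece of the tree. -/
noncomputable def tree99 : Tree LeafX :=
  .s1
    (.s2
    (.s0
    (.s1
    (.s3
    (.s3
    (.leaf (.box ⟨854, -2, -2709, 6, -18, 658, 1194921, 0, 0, 0, 0, 0, 0⟩ ⟨0, 0, 0, 0, 0, 0, 1022893, 0, 0, 0, 0, 0, 0⟩ ⟨0, 0, 0, 0, 0, 0, 1022893, 0, 0, 0, 0, 0, 0⟩ ⟨0, 0, 0, 0, 0, 0, 894163, 0, 0, 0, 0, 0, 0⟩ ⟨0, 0, 0, 0, 0, 0, 894163, 0, 0, 0, 0, 0, 0⟩ ⟨650, -2, -2048, 6, -21, 496, 794212, 0, 0, 0, 0, 0, 0⟩))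
    (.leaf (.box ⟨570, -2, -2120, 6, -19, 534, 921326, 0, 0, 0, 0, 0, 0⟩ ⟨0, 0, 0, 0, 0, 0, 763939, 0, 0, 0, 0, 0, 0⟩ ⟨0, 0, 0, 0, 0, 0, 763939, 0, 0, 0, 0, 0, 0⟩ ⟨0, 0, 0, 0, 0, 0, 652478, 0, 0, 0, 0, 0, 0⟩ ⟨0, 0, 0, 0, 0, 0, 652478, 0, 0, 0, 0, 0, 0⟩ ⟨552, -3, -2048, 9, -29, 513, 569400, 0, 0, 0, 0, 0, 0⟩)))
    (.leaf (.box ⟨555, -3, -2048, 9, -25, 500, 631804, 0, 0, 0, 0, 0, 0⟩ ⟨0, 0, 0, 0, 0, 0, 507190, 0, 0, 0, 0, 0, 0⟩ ⟨0, 0, 0, 0, 0, 0, 507190, 0, 0, 0, 0, 0, 0⟩ ⟨0, 0, 0, 0, 0, 0, 423635, 0, 0, 0, 0, 0, 0⟩ ⟨0, 0, 0, 0, 0, 0, 423635, 0, 0, 0, 0, 0, 0⟩ ⟨557, -5, -2048, 15, -43, 495, 363715, 0, 0, 0, 0, 0, 0⟩)))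
    (.s3
    (.s0
    (.leaf (.box ⟨657, -4, -4012, 6, -27, 818, 891802, 0, 0, 0, 0, 0, 0⟩ ⟨0, 0, 0, 0, 0, 0, 739245, 0, 0, 0, 0, 0, 0⟩ ⟨0, 0, 0, 0, 0, 0, 739245, 0, 0, 0, 0, 0, 0⟩ ⟨0, 0, 0, 0, 0, 0, 631258, 0, 0, 0, 0, 0, 0⟩ ⟨0, 0, 0, 0, 0, 0, 631258, 0, 0, 0, 0, 0, 0⟩ ⟨403, -4, -2408, 6, -26, 489, 550798, 0, 0, 0, 0, 0, 0⟩))
    (.leaf (.box ⟨727, -3, -3804, 6, -30, 837, 974104, 0, 0, 0, 0, 0, 0⟩ ⟨0, 0, 0, 0, 0, 0, 807483, 0, 0, 0, 0, 0, 0⟩ ⟨0, 0, 0, 0, 0, 0, 807483, 0, 0, 0, 0, 0, 0⟩ ⟨0, 0, 0, 0, 0, 0, 689537, 0, 0, 0, 0, 0, 0⟩ ⟨0, 0, 0, 0, 0, 0, 689537, 0, 0, 0, 0, 0, 0⟩ ⟨443, -3, -2295, 6, -29, 503, 601655, 0, 0, 0, 0, 0, 0⟩)))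
    (.leaf (.box ⟨438, -4, -2048, 8, -22, 422, 616036, 0, 0, 0, 0, 0, 0⟩ ⟨0, 0, 0, 0, 0, 0, 494784, 0, 0, 0, 0, 0, 0⟩ ⟨0, 0, 0, 0, 0, 0, 494784, 0, 0, 0, 0, 0, 0⟩ ⟨0, 0, 0, 0, 0, 0, 413413, 0, 0, 0, 0, 0, 0⟩ ⟨0, 0, 0, 0, 0, 0, 413413, 0, 0, 0, 0, 0, 0⟩ ⟨436, -7, -2048, 13, -37, 418, 355026, 0, 0, 0, 0, 0, 0⟩))))
    (.s1
    (.leaf (.box ⟨647, -2, -2048, 11, -35, 593, 764616, 0, 0, 0, 0, 0, 0⟩ ⟨0, 0, 0, 0, 0, 0, 613305, 0, 0, 0, 0, 0, 0⟩ ⟨0, 0, 0, 0, 0, 0, 613305, 0, 0, 0, 0, 0, 0⟩ ⟨0, 0, 0, 0, 0, 0, 511987, 0, 0, 0, 0, 0, 0⟩ ⟨0, 0, 0, 0, 0, 0, 511987, 0, 0, 0, 0, 0, 0⟩ ⟨656, -4, -2048, 18, -61, 590, 439398, 0, 0, 0, 0, 0, 0⟩))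
    (.leaf (.box ⟨533, -3, -2048, 9, -30, 495, 739286, 0, 0, 0, 0, 0, 0⟩ ⟨0, 0, 0, 0, 0, 0, 593065, 0, 0, 0, 0, 0, 0⟩ ⟨0, 0, 0, 0, 0, 0, 593065, 0, 0, 0, 0, 0, 0⟩ ⟨0, 0, 0, 0, 0, 0, 495134, 0, 0, 0, 0, 0, 0⟩ ⟨0, 0, 0, 0, 0, 0, 495134, 0, 0, 0, 0, 0, 0⟩ ⟨655, -8, -2048, 22, -41, 455, 424961, 0, 0, 0, 0, 0, 0⟩))))
    (.leaf (.box ⟨552, -4, -2048, 16, -30, 472, 636266, 0, 0, 0, 0, 0, 0⟩ ⟨0, 0, 0, 0, 0, 0, 510387, 0, 0, 0, 0, 0, 0⟩ ⟨0, 0, 0, 0, 0, 0, 510387, 0, 0, 0, 0, 0, 0⟩ ⟨0, 0, 0, 0, 0, 0, 426089, 0, 0, 0, 0, 0, 0⟩ ⟨0, 0, 0, 0, 0, 0, 426089, 0, 0, 0, 0, 0, 0⟩ ⟨578, -6, -2048, 25, -52, 470, 365689, 0, 0, 0, 0, 0, 0⟩)))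
    (.s2
    (.s0
    (.s3
    (.s3
    (.s1
    (.leaf (.box ⟨508, -5, -3144, 6, -18, 602, 1132761, 0, 0, 0, 0, 0, 0⟩ ⟨0, 0, 0, 0, 0, 0, 969922, 0, 0, 0, 0, 0, 0⟩ ⟨0, 0, 0, 0, 0, 0, 969922, 0, 0, 0, 0, 0, 0⟩ ⟨0, 0, 0, 0, 0, 0, 848016, 0, 0, 0, 0, 0, 0⟩ ⟨0, 0, 0, 0, 0, 0, 848016, 0, 0, 0, 0, 0, 0⟩ ⟨341, -6, -2048, 7, -17, 391, 753332, 0, 0, 0, 0, 0, 0⟩))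
    (.leaf (.box ⟨276, -7, -2355, 6, -14, 422, 1108164, 0, 0, 0, 0, 0, 0⟩ ⟨0, 0, 0, 0, 0, 0, 949009, 0, 0, 0, 0, 0, 0⟩ ⟨0, 0, 0, 0, 0, 0, 949009, 0, 0, 0, 0, 0, 0⟩ ⟨0, 0, 0, 0, 0, 0, 829829, 0, 0, 0, 0, 0, 0⟩ ⟨0, 0, 0, 0, 0, 0, 829829, 0, 0, 0, 0, 0, 0⟩ ⟨239, -8, -2048, 7, -18, 366, 737242, 0, 0, 0, 0, 0, 0⟩)))
    (.leaf (.box ⟨361, -7, -2048, 7, -15, 374, 859882, 0, 0, 0, 0, 0, 0⟩ ⟨0, 0, 0, 0, 0, 0, 713770, 0, 0, 0, 0, 0, 0⟩ ⟨0, 0, 0, 0, 0, 0, 713770, 0, 0, 0, 0, 0, 0⟩ ⟨0, 0, 0, 0, 0, 0, 610101, 0, 0, 0, 0, 0, 0⟩ ⟨0, 0, 0, 0, 0, 0, 610101, 0, 0, 0, 0, 0, 0⟩ ⟨377, -11, -2048, 11, -24, 372, 532726, 0, 0, 0, 0, 0, 0⟩)))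
    (.leaf (.box ⟨363, -9, -2048, 9, -21, 367, 593376, 0, 0, 0, 0, 0, 0⟩ ⟨0, 0, 0, 0, 0, 0, 477205, 0, 0, 0, 0, 0, 0⟩ ⟨0, 0, 0, 0, 0, 0, 477205, 0, 0, 0, 0, 0, 0⟩ ⟨0, 0, 0, 0, 0, 0, 399075, 0, 0, 0, 0, 0, 0⟩ ⟨0, 0, 0, 0, 0, 0, 399075, 0, 0, 0, 0, 0, 0⟩ ⟨370, -17, -2048, 17, -35, 364, 342928, 0, 0, 0, 0, 0, 0⟩)))
    (.s3
    (.s1
    (.s2
    (.leaf (.box ⟨423, -3, -2358, 6, -22, 520, 1054571, 0, 0, 0, 0, 0, 0⟩ ⟨0, 0, 0, 0, 0, 0, 874321, 0, 0, 0, 0, 0, 0⟩ ⟨0, 0, 0, 0, 0, 0, 874321, 0, 0, 0, 0, 0, 0⟩ ⟨0, 0, 0, 0, 0, 0, 746694, 0, 0, 0, 0, 0, 0⟩ ⟨0, 0, 0, 0, 0, 0, 746694, 0, 0, 0, 0, 0, 0⟩ ⟨440, -5, -2048, 9, -29, 433, 651581, 0, 0, 0, 0, 0, 0⟩))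
    (.leaf (.box ⟨389, -3, -2709, 6, -24, 571, 1101275, 0, 0, 0, 0, 0, 0⟩ ⟨0, 0, 0, 0, 0, 0, 913021, 0, 0, 0, 0, 0, 0⟩ ⟨0, 0, 0, 0, 0, 0, 913021, 0, 0, 0, 0, 0, 0⟩ ⟨0, 0, 0, 0, 0, 0, 779732, 0, 0, 0, 0, 0, 0⟩ ⟨0, 0, 0, 0, 0, 0, 779732, 0, 0, 0, 0, 0, 0⟩ ⟨287, -4, -2048, 8, -29, 431, 680402, 0, 0, 0, 0, 0, 0⟩)))
    (.leaf (.box ⟨325, -5, -2048, 7, -18, 404, 1034246, 0, 0, 0, 0, 0, 0⟩ ⟨0, 0, 0, 0, 0, 0, 857610, 0, 0, 0, 0, 0, 0⟩ ⟨0, 0, 0, 0, 0, 0, 857610, 0, 0, 0, 0, 0, 0⟩ ⟨0, 0, 0, 0, 0, 0, 732506, 0, 0, 0, 0, 0, 0⟩ ⟨0, 0, 0, 0, 0, 0, 732506, 0, 0, 0, 0, 0, 0⟩ ⟨316, -7, -2048, 10, -31, 418, 639255, 0, 0, 0, 0, 0, 0⟩)))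
    (.s1
    (.leaf (.box ⟨393, -4, -2048, 8, -26, 429, 732279, 0, 0, 0, 0, 0, 0⟩ ⟨0, 0, 0, 0, 0, 0, 588587, 0, 0, 0, 0, 0, 0⟩ ⟨0, 0, 0, 0, 0, 0, 588587, 0, 0, 0, 0, 0, 0⟩ ⟨0, 0, 0, 0, 0, 0, 492037, 0, 0, 0, 0, 0, 0⟩ ⟨0, 0, 0, 0, 0, 0, 492037, 0, 0, 0, 0, 0, 0⟩ ⟨396, -7, -2048, 14, -44, 427, 422698, 0, 0, 0, 0, 0, 0⟩))
    (.leaf (.box ⟨310, -7, -2048, 9, -25, 395, 721653, 0, 0, 0, 0, 0, 0⟩ ⟨0, 0, 0, 0, 0, 0, 580447, 0, 0, 0, 0, 0, 0⟩ ⟨0, 0, 0, 0, 0, 0, 580447, 0, 0, 0, 0, 0, 0⟩ ⟨0, 0, 0, 0, 0, 0, 485457, 0, 0, 0, 0, 0, 0⟩ ⟨0, 0, 0, 0, 0, 0, 485457, 0, 0, 0, 0, 0, 0⟩ ⟨314, -11, -2048, 15, -43, 393, 417184, 0, 0, 0, 0, 0, 0⟩)))))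
    (.s0
    (.leaf (.box ⟨290, -8, -2048, 14, -26, 386, 615394, 0, 0, 0, 0, 0, 0⟩ ⟨0, 0, 0, 0, 0, 0, 493792, 0, 0, 0, 0, 0, 0⟩ ⟨0, 0, 0, 0, 0, 0, 493792, 0, 0, 0, 0, 0, 0⟩ ⟨0, 0, 0, 0, 0, 0, 412318, 0, 0, 0, 0, 0, 0⟩ ⟨0, 0, 0, 0, 0, 0, 412318, 0, 0, 0, 0, 0, 0⟩ ⟨306, -14, -2048, 24, -45, 385, 353921, 0, 0, 0, 0, 0, 0⟩))
    (.leaf (.box ⟨279, -5, -2048, 11, -28, 406, 787439, 0, 0, 0, 0, 0, 0⟩ ⟨0, 0, 0, 0, 0, 0, 631843, 0, 0, 0, 0, 0, 0⟩ ⟨0, 0, 0, 0, 0, 0, 631843, 0, 0, 0, 0, 0, 0⟩ ⟨0, 0, 0, 0, 0, 0, 527592, 0, 0, 0, 0, 0, 0⟩ ⟨0, 0, 0, 0, 0, 0, 527592, 0, 0, 0, 0, 0, 0⟩ ⟨287, -8, -2048, 20, -48, 405, 452870, 0, 0, 0, 0, 0, 0⟩))))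

/-- A piece of the tree. -/
noncomputable def tree100 : Tree LeafX :=
  .leaf (.box ⟨517, -6, -2048, 38, -36, 443, 674487, 0, 0, 0, 0, 0, 0⟩ ⟨0, 0, 0, 0, 0, 0, 541148, 0, 0, 0, 0, 0, 0⟩ ⟨0, 0, 0, 0, 0, 0, 541148, 0, 0, 0, 0, 0, 0⟩ ⟨0, 0, 0, 0, 0, 0, 451826, 0, 0, 0, 0, 0, 0⟩ ⟨0, 0, 0, 0, 0, 0, 451826, 0, 0, 0, 0, 0, 0⟩ ⟨543, -10, -2048, 66, -62, 442, 387813, 0, 0, 0, 0, 0, 0⟩)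

/-- A piece of the tree. -/
noncomputable def tree101 : Tree LeafX :=
  .s2
    (.s0
    (.s2
    (.s0
    (.s2
    (.s3
    (.s1
    (.leaf (.box ⟨2048, -212, -35, 23, -19, 267, 656592, 0, 0, 0, 0, 0, 0⟩ ⟨0, 0, 0, 0, 0, 0, 544515, 0, 0, 0, 0, 0, 0⟩ ⟨0, 0, 0, 0, 0, 0, 544515, 0, 0, 0, 0, 0, 0⟩ ⟨0, 0, 0, 0, 0, 0, 465120, 0, 0, 0, 0, 0, 0⟩ ⟨0, 0, 0, 0, 0, 0, 465120, 0, 0, 0, 0, 0, 0⟩ ⟨2048, -336, -14, 36, -27, 241, 405932, 0, 0, 0, 0, 0, 0⟩))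
    (.leaf (.box ⟨2048, -381, -286, 39, -8, 267, 622238, 0, 0, 0, 0, 0, 0⟩ ⟨0, 0, 0, 0, 0, 0, 516070, 0, 0, 0, 0, 0, 0⟩ ⟨0, 0, 0, 0, 0, 0, 516070, 0, 0, 0, 0, 0, 0⟩ ⟨0, 0, 0, 0, 0, 0, 440850, 0, 0, 0, 0, 0, 0⟩ ⟨0, 0, 0, 0, 0, 0, 440850, 0, 0, 0, 0, 0, 0⟩ ⟨2048, -591, -324, 61, -10, 231, 384768, 0, 0, 0, 0, 0, 0⟩)))
    (.leaf (.box ⟨2048, -499, -698, 63, -16, 313, 436732, 0, 0, 0, 0, 0, 0⟩ ⟨0, 0, 0, 0, 0, 0, 351569, 0, 0, 0, 0, 0, 0⟩ ⟨0, 0, 0, 0, 0, 0, 351569, 0, 0, 0, 0, 0, 0⟩ ⟨0, 0, 0, 0, 0, 0, 294199, 0, 0, 0, 0, 0, 0⟩ ⟨0, 0, 0, 0, 0, 0, 294199, 0, 0, 0, 0, 0, 0⟩ ⟨2048, -828, -751, 103, -20, 266, 252926, 0, 0, 0, 0, 0, 0⟩)))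
    (.s3
    (.s0
    (.leaf (.box ⟨2048, -359, -987, 49, -16, 425, 614821, 0, 0, 0, 0, 0, 0⟩ ⟨0, 0, 0, 0, 0, 0, 509915, 0, 0, 0, 0, 0, 0⟩ ⟨0, 0, 0, 0, 0, 0, 509915, 0, 0, 0, 0, 0, 0⟩ ⟨0, 0, 0, 0, 0, 0, 435590, 0, 0, 0, 0, 0, 0⟩ ⟨0, 0, 0, 0, 0, 0, 435590, 0, 0, 0, 0, 0, 0⟩ ⟨2048, -579, -962, 78, -22, 383, 380176, 0, 0, 491527491, 0, 0, 0⟩))
    (.s1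
    (.leaf (.box ⟨1737, -107, -2048, 19, -30, 597, 661261, 0, 0, 0, 0, 0, 0⟩ ⟨0, 0, 0, 0, 0, 0, 548401, 0, 0, 0, 0, 0, 0⟩ ⟨0, 0, 0, 0, 0, 0, 548401, 0, 0, 0, 0, 0, 0⟩ ⟨0, 0, 0, 0, 0, 0, 468449, 0, 0, 0, 0, 0, 0⟩ ⟨0, 0, 0, 0, 0, 0, 468449, 0, 0, 0, 0, 0, 0⟩ ⟨1846, -174, -2048, 31, -47, 586, 408843, 0, 0, 0, 0, 0, 0⟩))
    (.leaf (.box ⟨1535, -218, -2048, 36, -9, 539, 625030, 0, 0, 0, 0, 0, 0⟩ ⟨0, 0, 0, 0, 0, 0, 518409, 0, 0, 0, 0, 0, 0⟩ ⟨0, 0, 0, 0, 0, 0, 518409, 0, 0, 0, 0, 0, 0⟩ ⟨0, 0, 0, 0, 0, 0, 442862, 0, 0, 0, 0, 0, 0⟩ ⟨0, 0, 0, 0, 0, 0, 442862, 0, 0, 0, 0, 0, 0⟩ ⟨1608, -359, -2048, 59, -11, 504, 386533, 0, 0, 0, 0, 0, 0⟩))))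
    (.leaf (.box ⟨2048, -369, -1761, 64, -16, 439, 431436, 0, 0, 0, 0, 0, 0⟩ ⟨0, 0, 0, 0, 0, 0, 347295, 0, 0, 0, 0, 0, 0⟩ ⟨0, 0, 0, 0, 0, 0, 347295, 0, 0, 0, 0, 0, 0⟩ ⟨0, 0, 0, 0, 0, 0, 290617, 0, 0, 0, 0, 0, 0⟩ ⟨0, 0, 0, 0, 0, 0, 290617, 0, 0, 0, 0, 0, 0⟩ ⟨2048, -624, -1764, 108, -20, 389, 249843, 0, 0, 0, 0, 0, 0⟩))))
    (.s1
    (.leaf (.box ⟨2048, -148, -1974, 32, -27, 424, 462404, 0, 0, 0, 0, 0, 0⟩ ⟨0, 0, 0, 0, 0, 0, 371129, 0, 0, 0, 0, 0, 0⟩ ⟨0, 0, 0, 0, 0, 0, 371129, 0, 0, 0, 0, 0, 0⟩ ⟨0, 0, 0, 0, 0, 0, 309948, 0, 0, 0, 0, 0, 0⟩ ⟨0, 0, 0, 0, 0, 0, 309948, 0, 0, 0, 0, 0, 0⟩ ⟨2048, -253, -1697, 54, -39, 358, 266083, 0, 0, 0, 0, 0, 0⟩))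
    (.leaf (.box ⟨2048, -281, -2019, 57, -11, 424, 437068, 0, 0, 0, 0, 0, 0⟩ ⟨0, 0, 0, 0, 0, 0, 350844, 0, 0, 0, 0, 0, 0⟩ ⟨0, 0, 0, 0, 0, 0, 350844, 0, 0, 0, 0, 0, 0⟩ ⟨0, 0, 0, 0, 0, 0, 293034, 0, 0, 0, 0, 0, 0⟩ ⟨0, 0, 0, 0, 0, 0, 293034, 0, 0, 0, 0, 0, 0⟩ ⟨2048, -462, -1768, 93, -13, 349, 251580, 0, 0, 309632949, 0, 0, 0⟩))))
    (.s2
    (.s1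
    (.leaf (.box ⟨1452, -74, -2048, 23, -23, 374, 440645, 0, 0, 0, 0, 0, 0⟩ ⟨0, 0, 0, 0, 0, 0, 353643, 0, 0, 0, 0, 0, 0⟩ ⟨0, 0, 0, 0, 0, 0, 353643, 0, 0, 0, 0, 0, 0⟩ ⟨0, 0, 0, 0, 0, 0, 295332, 0, 0, 0, 0, 0, 0⟩ ⟨0, 0, 0, 0, 0, 0, 295332, 0, 0, 0, 0, 0, 0⟩ ⟨1594, -147, -2048, 45, -38, 368, 253528, 0, 0, 0, 0, 0, 0⟩))
    (.leaf (.box ⟨1447, -169, -2048, 47, -5, 353, 416333, 0, 0, 0, 0, 0, 0⟩ ⟨0, 0, 0, 0, 0, 0, 334154, 0, 0, 0, 0, 0, 0⟩ ⟨0, 0, 0, 0, 0, 0, 334154, 0, 0, 0, 0, 0, 0⟩ ⟨0, 0, 0, 0, 0, 0, 279069, 0, 0, 0, 0, 0, 0⟩ ⟨0, 0, 0, 0, 0, 0, 279069, 0, 0, 0, 0, 0, 0⟩ ⟨1566, -312, -2048, 88, -5, 337, 239575, 0, 0, 0, 0, 0, 0⟩)))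
    (.leaf (.box ⟨752, -114, -2048, 47, -11, 310, 413999, 0, 0, 0, 0, 0, 0⟩ ⟨0, 0, 0, 0, 0, 0, 332269, 0, 0, 0, 0, 0, 0⟩ ⟨0, 0, 0, 0, 0, 0, 332269, 0, 0, 0, 0, 0, 0⟩ ⟨0, 0, 0, 0, 0, 0, 277489, 0, 0, 0, 0, 0, 0⟩ ⟨0, 0, 0, 0, 0, 0, 277489, 0, 0, 0, 0, 0, 0⟩ ⟨874, -212, -2048, 87, -18, 303, 238214, 0, 0, 0, 0, 0, 0⟩))))
    (.s2
    (.s1
    (.leaf (.box ⟨842, -55, -2048, 21, -22, 350, 486959, 0, 0, 0, 0, 0, 0⟩ ⟨0, 0, 0, 0, 0, 0, 390860, 0, 0, 0, 0, 0, 0⟩ ⟨0, 0, 0, 0, 0, 0, 390860, 0, 0, 0, 0, 0, 0⟩ ⟨0, 0, 0, 0, 0, 0, 326439, 0, 0, 0, 0, 0, 0⟩ ⟨0, 0, 0, 0, 0, 0, 326439, 0, 0, 0, 0, 0, 0⟩ ⟨1000, -106, -2048, 40, -37, 348, 280248, 0, 0, 0, 0, 0, 0⟩))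
    (.s2
    (.s2
    (.s1
    (.leaf (.box ⟨790, -63, -2048, 16, -18, 367, 473909, 0, 0, 0, 0, 0, 0⟩ ⟨0, 0, 0, 0, 0, 0, 380436, 0, 0, 0, 0, 0, 0⟩ ⟨0, 0, 0, 0, 0, 0, 380436, 0, 0, 0, 0, 0, 0⟩ ⟨0, 0, 0, 0, 0, 0, 317761, 0, 0, 0, 0, 0, 0⟩ ⟨0, 0, 0, 0, 0, 0, 317761, 0, 0, 0, 0, 0, 0⟩ ⟨943, -138, -2048, 36, -30, 361, 272816, 0, 0, 0, 0, 0, 0⟩))
    (.leaf (.box ⟨805, -94, -2048, 25, -11, 374, 460536, 0, 0, 0, 0, 0, 0⟩ ⟨0, 0, 0, 0, 0, 0, 369728, 0, 0, 0, 0, 0, 0⟩ ⟨0, 0, 0, 0, 0, 0, 369728, 0, 0, 0, 0, 0, 0⟩ ⟨0, 0, 0, 0, 0, 0, 308832, 0, 0, 0, 0, 0, 0⟩ ⟨0, 0, 0, 0, 0, 0, 308832, 0, 0, 0, 0, 0, 0⟩ ⟨903, -185, -2048, 49, -16, 362, 265159, 0, 0, 0, 0, 0, 0⟩)))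
    (.leaf (.box ⟨725, -92, -2048, 28, -17, 366, 461153, 0, 0, 0, 0, 0, 0⟩ ⟨0, 0, 0, 0, 0, 0, 370222, 0, 0, 0, 0, 0, 0⟩ ⟨0, 0, 0, 0, 0, 0, 370222, 0, 0, 0, 0, 0, 0⟩ ⟨0, 0, 0, 0, 0, 0, 309244, 0, 0, 0, 0, 0, 0⟩ ⟨0, 0, 0, 0, 0, 0, 309244, 0, 0, 0, 0, 0, 0⟩ ⟨828, -179, -2048, 55, -28, 360, 265512, 0, 0, 0, 0, 0, 0⟩)))
    (.leaf (.box ⟨630, -77, -2048, 30, -20, 357, 462675, 0, 0, 0, 0, 0, 0⟩ ⟨0, 0, 0, 0, 0, 0, 371440, 0, 0, 0, 0, 0, 0⟩ ⟨0, 0, 0, 0, 0, 0, 371440, 0, 0, 0, 0, 0, 0⟩ ⟨0, 0, 0, 0, 0, 0, 310259, 0, 0, 0, 0, 0, 0⟩ ⟨0, 0, 0, 0, 0, 0, 310259, 0, 0, 0, 0, 0, 0⟩ ⟨748, -151, -2048, 59, -34, 354, 266382, 0, 0, 0, 0, 0, 0⟩))))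
    (.s1
    (.leaf (.box ⟨325, -25, -2048, 18, -28, 345, 492989, 0, 0, 0, 0, 0, 0⟩ ⟨0, 0, 0, 0, 0, 0, 395690, 0, 0, 0, 0, 0, 0⟩ ⟨0, 0, 0, 0, 0, 0, 395690, 0, 0, 0, 0, 0, 0⟩ ⟨0, 0, 0, 0, 0, 0, 330466, 0, 0, 0, 0, 0, 0⟩ ⟨0, 0, 0, 0, 0, 0, 330466, 0, 0, 0, 0, 0, 0⟩ ⟨377, -44, -2048, 32, -48, 345, 283702, 0, 0, 0, 0, 0, 0⟩))
    (.leaf (.box ⟨446, -48, -2048, 30, -25, 339, 468428, 0, 0, 0, 0, 0, 0⟩ ⟨0, 0, 0, 0, 0, 0, 376044, 0, 0, 0, 0, 0, 0⟩ ⟨0, 0, 0, 0, 0, 0, 376044, 0, 0, 0, 0, 0, 0⟩ ⟨0, 0, 0, 0, 0, 0, 314097, 0, 0, 0, 0, 0, 0⟩ ⟨0, 0, 0, 0, 0, 0, 314097, 0, 0, 0, 0, 0, 0⟩ ⟨532, -90, -2048, 57, -44, 338, 269672, 0, 0, 0, 0, 0, 0⟩)))))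
    (.leaf (.box ⟨2048, -80, -2048, 113, -28, 289, 412451, 0, 0, 463222132, 0, 20127904218, 0⟩ ⟨0, 0, 0, 0, 0, 0, 331000, 0, 0, 0, 0, 0, 0⟩ ⟨0, 0, 0, 0, 0, 0, 331000, 0, 0, 0, 0, 0, 0⟩ ⟨0, 0, 0, 0, 0, 0, 276414, 0, 0, 0, 0, 0, 0⟩ ⟨0, 0, 0, 0, 0, 0, 276414, 0, 0, 0, 0, 0, 0⟩ ⟨2048, -133, -1833, 188, -45, 266, 237282, 0, 0, 0, 0, 14505289159, 0⟩))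

/-- A piece of the tree. -/
noncomputable def tree102 : Tree LeafX :=
  .s2
    (.s1
    (.s3
    (.s0
    (.leaf (.box ⟨222, -19, -2048, 17, -21, 360, 817353, 0, 0, 0, 0, 0, 0⟩ ⟨0, 0, 0, 0, 0, 0, 677971, 0, 0, 0, 0, 0, 0⟩ ⟨0, 0, 0, 0, 0, 0, 677971, 0, 0, 0, 0, 0, 0⟩ ⟨0, 0, 0, 0, 0, 0, 579201, 0, 0, 0, 0, 0, 0⟩ ⟨0, 0, 0, 0, 0, 0, 579201, 0, 0, 0, 0, 0, 0⟩ ⟨252, -33, -2048, 29, -34, 360, 505549, 0, 0, 0, 0, 0, 0⟩))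
    (.leaf (.box ⟨290, -13, -2048, 17, -23, 378, 1007824, 0, 0, 0, 0, 0, 0⟩ ⟨0, 0, 0, 0, 0, 0, 835985, 0, 0, 0, 0, 0, 0⟩ ⟨0, 0, 0, 0, 0, 0, 835985, 0, 0, 0, 0, 0, 0⟩ ⟨0, 0, 0, 0, 0, 0, 714208, 0, 0, 0, 0, 0, 0⟩ ⟨0, 0, 0, 0, 0, 0, 714208, 0, 0, 0, 0, 0, 0⟩ ⟨256, -20, -2048, 26, -38, 390, 623398, 0, 0, 0, 0, 0, 0⟩)))
    (.s0
    (.leaf (.box ⟨228, -26, -2048, 24, -28, 351, 575622, 0, 0, 0, 0, 0, 0⟩ ⟨0, 0, 0, 0, 0, 0, 463595, 0, 0, 0, 0, 0, 0⟩ ⟨0, 0, 0, 0, 0, 0, 463595, 0, 0, 0, 0, 0, 0⟩ ⟨0, 0, 0, 0, 0, 0, 388069, 0, 0, 0, 0, 0, 0⟩ ⟨0, 0, 0, 0, 0, 0, 388069, 0, 0, 0, 0, 0, 0⟩ ⟨279, -47, -2048, 43, -48, 351, 333704, 0, 0, 0, 0, 0, 0⟩))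
    (.leaf (.box ⟨266, -17, -2048, 23, -31, 371, 710338, 0, 0, 0, 0, 0, 0⟩ ⟨0, 0, 0, 0, 0, 0, 572158, 0, 0, 0, 0, 0, 0⟩ ⟨0, 0, 0, 0, 0, 0, 572158, 0, 0, 0, 0, 0, 0⟩ ⟨0, 0, 0, 0, 0, 0, 478983, 0, 0, 0, 0, 0, 0⟩ ⟨0, 0, 0, 0, 0, 0, 478983, 0, 0, 0, 0, 0, 0⟩ ⟨273, -30, -2048, 40, -54, 382, 411904, 0, 0, 0, 0, 0, 0⟩))))
    (.leaf (.box ⟨368, -58, -2048, 54, -41, 362, 536093, 404843088, 0, 0, 0, 5399321284, 0⟩ ⟨0, 0, 0, 0, 0, 0, 430455, 0, 0, 0, 0, 0, 0⟩ ⟨0, 0, 0, 0, 0, 0, 430455, 0, 0, 0, 0, 0, 0⟩ ⟨0, 0, 0, 0, 0, 0, 359595, 0, 0, 0, 0, 0, 0⟩ ⟨0, 0, 0, 0, 0, 0, 359595, 0, 0, 0, 0, 0, 0⟩ ⟨491, -106, -2048, 99, -75, 376, 308767, 0, 0, 0, 0, 4430836509, 0⟩)))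
    (.leaf (.box ⟨412, -21, -2048, 63, -57, 382, 662058, 0, 0, 0, 0, 25674621823, 0⟩ ⟨0, 0, 0, 0, 0, 0, 531411, 0, 0, 0, 0, 0, 0⟩ ⟨0, 0, 0, 0, 0, 0, 531411, 0, 0, 0, 0, 0, 0⟩ ⟨0, 0, 0, 0, 0, 0, 443828, 0, 0, 0, 0, 0, 0⟩ ⟨0, 0, 0, 0, 0, 0, 443828, 0, 0, 0, 0, 0, 0⟩ ⟨435, -38, -2048, 112, -99, 383, 381029, 0, 0, 0, 0, 22495360907, 0⟩))

theorem parts5 :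
    (runPathS conQ supQ (fun n Qs i d x => leafR conQ seg n Qs i d x) [.d0 false, .d1 true, .d2 false, .d0 true, .d1 true, .d2 false, .d0 true] tree85 0 0 0
      (joinS (lay.B * lay.size) rootQ) = true) ∧
    (runPathS conQ supQ (fun n Qs i d x => leafR conQ seg n Qs i d x) [.d0 false, .d1 true, .d2 false, .d0 true, .d1 true, .d2 true, .d0 false] tree86 0 0 0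
      (joinS (lay.B * lay.size) rootQ) = true) ∧
    (runPathS conQ supQ (fun n Qs i d x => leafR conQ seg n Qs i d x) [.d0 false, .d1 true, .d2 false, .d0 true, .d1 true, .d2 true, .d0 true] tree87 0 0 0
      (joinS (lay.B * lay.size) rootQ) = true) ∧
    (runPathS conQ supQ (fun n Qs i d x => leafR conQ seg n Qs i d x) [.d0 false, .d1 true, .d2 true, .d0 false, .d1 false] tree88 0 0 0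
      (joinS (lay.B * lay.size) rootQ) = true) ∧
    (runPathS conQ supQ (fun n Qs i d x => leafR conQ seg n Qs i d x) [.d0 false, .d1 true, .d2 true, .d0 false, .d1 true, .d2 false] tree89 0 0 0
      (joinS (lay.B * lay.size) rootQ) = true) ∧
    (runPathS conQ supQ (fun n Qs i d x => leafR conQ seg n Qs i d x) [.d0 false, .d1 true, .d2 true, .d0 false, .d1 true, .d2 true, .d0 false, .d1 false] tree90 0 0 0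
      (joinS (lay.B * lay.size) rootQ) = true) ∧
    (runPathS conQ supQ (fun n Qs i d x => leafR conQ seg n Qs i d x) [.d0 false, .d1 true, .d2 true, .d0 false, .d1 true, .d2 true, .d0 false, .d1 true, .d1 false] tree91 0 0 0
      (joinS (lay.B * lay.size) rootQ) = true) ∧
    (runPathS conQ supQ (fun n Qs i d x => leafR conQ seg n Qs i d x) [.d0 false, .d1 true, .d2 true, .d0 false, .d1 true, .d2 true, .d0 false, .d1 true, .d1 true, .d0 false] tree92 0 0 0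
      (joinS (lay.B * lay.size) rootQ) = true) ∧
    (runPathS conQ supQ (fun n Qs i d x => leafR conQ seg n Qs i d x) [.d0 false, .d1 true, .d2 true, .d0 false, .d1 true, .d2 true, .d0 false, .d1 true, .d1 true, .d0 true] tree93 0 0 0
      (joinS (lay.B * lay.size) rootQ) = true) ∧
    (runPathS conQ supQ (fun n Qs i d x => leafR conQ seg n Qs i d x) [.d0 false, .d1 true, .d2 true, .d0 false, .d1 true, .d2 true, .d0 true, .d0 false, .d1 false] tree94 0 0 0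
      (joinS (lay.B * lay.size) rootQ) = true) ∧
    (runPathS conQ supQ (fun n Qs i d x => leafR conQ seg n Qs i d x) [.d0 false, .d1 true, .d2 true, .d0 false, .d1 true, .d2 true, .d0 true, .d0 false, .d1 true, .d1 false] tree95 0 0 0
      (joinS (lay.B * lay.size) rootQ) = true) ∧
    (runPathS conQ supQ (fun n Qs i d x => leafR conQ seg n Qs i d x) [.d0 false, .d1 true, .d2 true, .d0 false, .d1 true, .d2 true, .d0 true, .d0 false, .d1 true, .d1 true] tree96 0 0 0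
      (joinS (lay.B * lay.size) rootQ) = true) ∧
    (runPathS conQ supQ (fun n Qs i d x => leafR conQ seg n Qs i d x) [.d0 false, .d1 true, .d2 true, .d0 false, .d1 true, .d2 true, .d0 true, .d0 true] tree97 0 0 0
      (joinS (lay.B * lay.size) rootQ) = true) ∧
    (runPathS conQ supQ (fun n Qs i d x => leafR conQ seg n Qs i d x) [.d0 false, .d1 true, .d2 true, .d0 true, .d1 false, .d0 false] tree98 0 0 0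
      (joinS (lay.B * lay.size) rootQ) = true) ∧
    (runPathS conQ supQ (fun n Qs i d x => leafR conQ seg n Qs i d x) [.d0 false, .d1 true, .d2 true, .d0 true, .d1 false, .d0 true, .d2 false] tree99 0 0 0
      (joinS (lay.B * lay.size) rootQ) = true) ∧
    (runPathS conQ supQ (fun n Qs i d x => leafR conQ seg n Qs i d x) [.d0 false, .d1 true, .d2 true, .d0 true, .d1 false, .d0 true, .d2 true] tree100 0 0 0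
      (joinS (lay.B * lay.size) rootQ) = true) ∧
    (runPathS conQ supQ (fun n Qs i d x => leafR conQ seg n Qs i d x) [.d0 false, .d1 true, .d2 true, .d0 true, .d1 true, .d0 false] tree101 0 0 0
      (joinS (lay.B * lay.size) rootQ) = true) ∧
    (runPathS conQ supQ (fun n Qs i d x => leafR conQ seg n Qs i d x) [.d0 false, .d1 true, .d2 true, .d0 true, .d1 true, .d0 true] tree102 0 0 0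
      (joinS (lay.B * lay.size) rootQ) = true) :=
  ⟨by decide +kernel,
  by decide +kernel,
  by decide +kernel,
  by decide +kernel,
  by decide +kernel,
  by decide +kernel,
  by decide +kernel,
  by decide +kernel,
  by decide +kernel,
  by decide +kernel,
  by decide +kernel,
  by decide +kernel,
  by decide +kernel,
  by decide +kernel,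
  by decide +kernel,
  by decide +kernel,
  by decide +kernel,
  by decide +kernel⟩

end Vale.Agent.P098.Six.S1
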