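import Vale.Agent.P098.Six.S1.Part0
import Vale.Agent.P098.Six.S1.Part1
import Vale.Agent.P098.Six.S1.Part2
import Vale.Agent.P098.Six.S1.Part3
import Vale.Agent.P098.Six.S1.Part4
import Vale.Agent.P098.Six.S1.Part5
import Vale.Agent.P098.Six.S1.Part6

/-!
# P098, six dimensions: the checked tree
-/

namespace Vale.Agent.P098.Six.S1

theorem ok0 (hp : Packed lay 1190874831 root) :
    runPath (lay.con 1190874831 1) (chkL seg) [.d0 false, .d1 false, .d2 false, .d0 false, .d1 false, .d2 false, .d0 false, .d1 false, .d0 false, .d1 false] tree0 0 0 0 root = true :=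
  runPath_of_fastR supQ_good conQ_good rfl hp parts0.1

theorem ok1 (hp : Packed lay 1190874831 root) :
    runPath (lay.con 1190874831 1) (chkL seg) [.d0 false, .d1 false, .d2 false, .d0 false, .d1 false, .d2 false, .d0 false, .d1 false, .d0 false, .d1 true] tree1 0 0 0 root = true :=
  runPath_of_fastR supQ_good conQ_good rfl hp parts0.2.1

theorem ok2 (hp : Packed lay 1190874831 root) :
    runPath (lay.con 1190874831 1) (chkL seg) [.d0 false, .d1 false, .d2 false, .d0 false, .d1 false, .d2 false, .d0 false, .d1 false, .d0 true, .d1 false] tree2 0 0 0 root = true :=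
  runPath_of_fastR supQ_good conQ_good rfl hp parts0.2.2.1

theorem ok3 (hp : Packed lay 1190874831 root) :
    runPath (lay.con 1190874831 1) (chkL seg) [.d0 false, .d1 false, .d2 false, .d0 false, .d1 false, .d2 false, .d0 false, .d1 false, .d0 true, .d1 true, .d2 false, .d0 false] tree3 0 0 0 root = true :=
  runPath_of_fastR supQ_good conQ_good rfl hp parts0.2.2.2.1

theorem ok4 (hp : Packed lay 1190874831 root) :
    runPath (lay.con 1190874831 1) (chkL seg) [.d0 false, .d1 false, .d2 false, .d0 false, .d1 false, .d2 false, .d0 false, .d1 false, .d0 true, .d1 true, .d2 false, .d0 true] tree4 0 0 0 root = true :=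
  runPath_of_fastR supQ_good conQ_good rfl hp parts0.2.2.2.2.1

theorem ok5 (hp : Packed lay 1190874831 root) :
    runPath (lay.con 1190874831 1) (chkL seg) [.d0 false, .d1 false, .d2 false, .d0 false, .d1 false, .d2 false, .d0 false, .d1 false, .d0 true, .d1 true, .d2 true] tree5 0 0 0 root = true :=
  runPath_of_fastR supQ_good conQ_good rfl hp parts0.2.2.2.2.2.1

theorem ok6 (hp : Packed lay 1190874831 root) :
    runPath (lay.con 1190874831 1) (chkL seg) [.d0 false, .d1 false, .d2 false, .d0 false, .d1 false, .d2 false, .d0 false, .d1 true, .d0 false] tree6 0 0 0 root = true :=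
  runPath_of_fastR supQ_good conQ_good rfl hp parts0.2.2.2.2.2.2.1

theorem ok7 (hp : Packed lay 1190874831 root) :
    runPath (lay.con 1190874831 1) (chkL seg) [.d0 false, .d1 false, .d2 false, .d0 false, .d1 false, .d2 false, .d0 false, .d1 true, .d0 true, .d1 false, .d0 false] tree7 0 0 0 root = true :=
  runPath_of_fastR supQ_good conQ_good rfl hp parts0.2.2.2.2.2.2.2.1

theorem ok8 (hp : Packed lay 1190874831 root) :
    runPath (lay.con 1190874831 1) (chkL seg) [.d0 false, .d1 false, .d2 false, .d0 false, .d1 false, .d2 false, .d0 false, .d1 true, .d0 true, .d1 false, .d0 true] tree8 0 0 0 root = true :=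
  runPath_of_fastR supQ_good conQ_good rfl hp parts0.2.2.2.2.2.2.2.2.1

theorem ok9 (hp : Packed lay 1190874831 root) :
    runPath (lay.con 1190874831 1) (chkL seg) [.d0 false, .d1 false, .d2 false, .d0 false, .d1 false, .d2 false, .d0 false, .d1 true, .d0 true, .d1 true] tree9 0 0 0 root = true :=
  runPath_of_fastR supQ_good conQ_good rfl hp parts0.2.2.2.2.2.2.2.2.2.1

theorem ok10 (hp : Packed lay 1190874831 root) :
    runPath (lay.con 1190874831 1) (chkL seg) [.d0 false, .d1 false, .d2 false, .d0 false, .d1 false, .d2 false, .d0 true, .d1 false] tree10 0 0 0 root = true :=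
  runPath_of_fastR supQ_good conQ_good rfl hp parts0.2.2.2.2.2.2.2.2.2.2.1

theorem ok11 (hp : Packed lay 1190874831 root) :
    runPath (lay.con 1190874831 1) (chkL seg) [.d0 false, .d1 false, .d2 false, .d0 false, .d1 false, .d2 false, .d0 true, .d1 true, .d0 false, .d1 false, .d0 false, .d1 false] tree11 0 0 0 root = true :=
  runPath_of_fastR supQ_good conQ_good rfl hp parts0.2.2.2.2.2.2.2.2.2.2.2.1

theorem ok12 (hp : Packed lay 1190874831 root) :
    runPath (lay.con 1190874831 1) (chkL seg) [.d0 false, .d1 false, .d2 false, .d0 false, .d1 false, .d2 false, .d0 true, .d1 true, .d0 false, .d1 false, .d0 false, .d1 true] tree12 0 0 0 root = true :=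
  runPath_of_fastR supQ_good conQ_good rfl hp parts0.2.2.2.2.2.2.2.2.2.2.2.2.1

theorem ok13 (hp : Packed lay 1190874831 root) :
    runPath (lay.con 1190874831 1) (chkL seg) [.d0 false, .d1 false, .d2 false, .d0 false, .d1 false, .d2 false, .d0 true, .d1 true, .d0 false, .d1 false, .d0 true] tree13 0 0 0 root = true :=
  runPath_of_fastR supQ_good conQ_good rfl hp parts0.2.2.2.2.2.2.2.2.2.2.2.2.2.1

theorem ok14 (hp : Packed lay 1190874831 root) :
    runPath (lay.con 1190874831 1) (chkL seg) [.d0 false, .d1 false, .d2 false, .d0 false, .d1 false, .d2 false, .d0 true, .d1 true, .d0 false, .d1 true, .d0 false] tree14 0 0 0 root = true :=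
  runPath_of_fastR supQ_good conQ_good rfl hp parts0.2.2.2.2.2.2.2.2.2.2.2.2.2.2.1

theorem ok15 (hp : Packed lay 1190874831 root) :
    runPath (lay.con 1190874831 1) (chkL seg) [.d0 false, .d1 false, .d2 false, .d0 false, .d1 false, .d2 false, .d0 true, .d1 true, .d0 false, .d1 true, .d0 true, .d2 false, .d1 false] tree15 0 0 0 root = true :=
  runPath_of_fastR supQ_good conQ_good rfl hp parts0.2.2.2.2.2.2.2.2.2.2.2.2.2.2.2.1

theorem ok16 (hp : Packed lay 1190874831 root) :
    runPath (lay.con 1190874831 1) (chkL seg) [.d0 false, .d1 false, .d2 false, .d0 false, .d1 false, .d2 false, .d0 true, .d1 true, .d0 false, .d1 true, .d0 true, .d2 false, .d1 true] tree16 0 0 0 root = true :=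
  runPath_of_fastR supQ_good conQ_good rfl hp parts0.2.2.2.2.2.2.2.2.2.2.2.2.2.2.2.2.1

theorem ok17 (hp : Packed lay 1190874831 root) :
    runPath (lay.con 1190874831 1) (chkL seg) [.d0 false, .d1 false, .d2 false, .d0 false, .d1 false, .d2 false, .d0 true, .d1 true, .d0 false, .d1 true, .d0 true, .d2 true] tree17 0 0 0 root = true :=
  runPath_of_fastR supQ_good conQ_good rfl hp parts0.2.2.2.2.2.2.2.2.2.2.2.2.2.2.2.2.2.1

theorem ok18 (hp : Packed lay 1190874831 root) :
    runPath (lay.con 1190874831 1) (chkL seg) [.d0 false, .d1 false, .d2 false, .d0 false, .d1 false, .d2 false, .d0 true, .d1 true, .d0 true, .d1 false] tree18 0 0 0 root = true :=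
  runPath_of_fastR supQ_good conQ_good rfl hp parts0.2.2.2.2.2.2.2.2.2.2.2.2.2.2.2.2.2.2.1

theorem ok19 (hp : Packed lay 1190874831 root) :
    runPath (lay.con 1190874831 1) (chkL seg) [.d0 false, .d1 false, .d2 false, .d0 false, .d1 false, .d2 false, .d0 true, .d1 true, .d0 true, .d1 true, .d0 false, .d1 false] tree19 0 0 0 root = true :=
  runPath_of_fastR supQ_good conQ_good rfl hp parts0.2.2.2.2.2.2.2.2.2.2.2.2.2.2.2.2.2.2.2

theorem ok20 (hp : Packed lay 1190874831 root) :
    runPath (lay.con 1190874831 1) (chkL seg) [.d0 false, .d1 false, .d2 false, .d0 false, .d1 false, .d2 false, .d0 true, .d1 true, .d0 true, .d1 true, .d0 false, .d1 true, .d2 false] tree20 0 0 0 root = true :=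
  runPath_of_fastR supQ_good conQ_good rfl hp parts1.1

theorem ok21 (hp : Packed lay 1190874831 root) :
    runPath (lay.con 1190874831 1) (chkL seg) [.d0 false, .d1 false, .d2 false, .d0 false, .d1 false, .d2 false, .d0 true, .d1 true, .d0 true, .d1 true, .d0 false, .d1 true, .d2 true] tree21 0 0 0 root = true :=
  runPath_of_fastR supQ_good conQ_good rfl hp parts1.2.1

theorem ok22 (hp : Packed lay 1190874831 root) :
    runPath (lay.con 1190874831 1) (chkL seg) [.d0 false, .d1 false, .d2 false, .d0 false, .d1 false, .d2 false, .d0 true, .d1 true, .d0 true, .d1 true, .d0 true] tree22 0 0 0 root = true :=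
  runPath_of_fastR supQ_good conQ_good rfl hp parts1.2.2.1

theorem ok23 (hp : Packed lay 1190874831 root) :
    runPath (lay.con 1190874831 1) (chkL seg) [.d0 false, .d1 false, .d2 false, .d0 false, .d1 false, .d2 true, .d0 false] tree23 0 0 0 root = true :=
  runPath_of_fastR supQ_good conQ_good rfl hp parts1.2.2.2.1

theorem ok24 (hp : Packed lay 1190874831 root) :
    runPath (lay.con 1190874831 1) (chkL seg) [.d0 false, .d1 false, .d2 false, .d0 false, .d1 false, .d2 true, .d0 true] tree24 0 0 0 root = true :=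
  runPath_of_fastR supQ_good conQ_good rfl hp parts1.2.2.2.2.1

theorem ok25 (hp : Packed lay 1190874831 root) :
    runPath (lay.con 1190874831 1) (chkL seg) [.d0 false, .d1 false, .d2 false, .d0 false, .d1 true, .d2 false, .d0 false] tree25 0 0 0 root = true :=
  runPath_of_fastR supQ_good conQ_good rfl hp parts1.2.2.2.2.2.1

theorem ok26 (hp : Packed lay 1190874831 root) :
    runPath (lay.con 1190874831 1) (chkL seg) [.d0 false, .d1 false, .d2 false, .d0 false, .d1 true, .d2 false, .d0 true, .d0 false] tree26 0 0 0 root = true :=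
  runPath_of_fastR supQ_good conQ_good rfl hp parts1.2.2.2.2.2.2.1

theorem ok27 (hp : Packed lay 1190874831 root) :
    runPath (lay.con 1190874831 1) (chkL seg) [.d0 false, .d1 false, .d2 false, .d0 false, .d1 true, .d2 false, .d0 true, .d0 true, .d1 false, .d1 false, .d0 false, .d1 false] tree27 0 0 0 root = true :=
  runPath_of_fastR supQ_good conQ_good rfl hp parts1.2.2.2.2.2.2.2.1

theorem ok28 (hp : Packed lay 1190874831 root) :
    runPath (lay.con 1190874831 1) (chkL seg) [.d0 false, .d1 false, .d2 false, .d0 false, .d1 true, .d2 false, .d0 true, .d0 true, .d1 false, .d1 false, .d0 false, .d1 true] tree28 0 0 0 root = true :=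
  runPath_of_fastR supQ_good conQ_good rfl hp parts1.2.2.2.2.2.2.2.2.1

theorem ok29 (hp : Packed lay 1190874831 root) :
    runPath (lay.con 1190874831 1) (chkL seg) [.d0 false, .d1 false, .d2 false, .d0 false, .d1 true, .d2 false, .d0 true, .d0 true, .d1 false, .d1 false, .d0 true, .d1 false] tree29 0 0 0 root = true :=
  runPath_of_fastR supQ_good conQ_good rfl hp parts1.2.2.2.2.2.2.2.2.2.1

theorem ok30 (hp : Packed lay 1190874831 root) :
    runPath (lay.con 1190874831 1) (chkL seg) [.d0 false, .d1 false, .d2 false, .d0 false, .d1 true, .d2 false, .d0 true, .d0 true, .d1 false, .d1 false, .d0 true, .d1 true] tree30 0 0 0 root = true :=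
  runPath_of_fastR supQ_good conQ_good rfl hp parts1.2.2.2.2.2.2.2.2.2.2.1

theorem ok31 (hp : Packed lay 1190874831 root) :
    runPath (lay.con 1190874831 1) (chkL seg) [.d0 false, .d1 false, .d2 false, .d0 false, .d1 true, .d2 false, .d0 true, .d0 true, .d1 false, .d1 true] tree31 0 0 0 root = true :=
  runPath_of_fastR supQ_good conQ_good rfl hp parts1.2.2.2.2.2.2.2.2.2.2.2.1

theorem ok32 (hp : Packed lay 1190874831 root) :
    runPath (lay.con 1190874831 1) (chkL seg) [.d0 false, .d1 false, .d2 false, .d0 false, .d1 true, .d2 false, .d0 true, .d0 true, .d1 true] tree32 0 0 0 root = true :=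
  runPath_of_fastR supQ_good conQ_good rfl hp parts1.2.2.2.2.2.2.2.2.2.2.2.2.1

theorem ok33 (hp : Packed lay 1190874831 root) :
    runPath (lay.con 1190874831 1) (chkL seg) [.d0 false, .d1 false, .d2 false, .d0 false, .d1 true, .d2 true] tree33 0 0 0 root = true :=
  runPath_of_fastR supQ_good conQ_good rfl hp parts1.2.2.2.2.2.2.2.2.2.2.2.2.2.1

theorem ok34 (hp : Packed lay 1190874831 root) :
    runPath (lay.con 1190874831 1) (chkL seg) [.d0 false, .d1 false, .d2 false, .d0 true, .d1 false] tree34 0 0 0 root = true :=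
  runPath_of_fastR supQ_good conQ_good rfl hp parts1.2.2.2.2.2.2.2.2.2.2.2.2.2.2.1

theorem ok35 (hp : Packed lay 1190874831 root) :
    runPath (lay.con 1190874831 1) (chkL seg) [.d0 false, .d1 false, .d2 false, .d0 true, .d1 true, .d0 false, .d1 false, .d0 false, .d1 false] tree35 0 0 0 root = true :=
  runPath_of_fastR supQ_good conQ_good rfl hp parts1.2.2.2.2.2.2.2.2.2.2.2.2.2.2.2.1

theorem ok36 (hp : Packed lay 1190874831 root) :
    runPath (lay.con 1190874831 1) (chkL seg) [.d0 false, .d1 false, .d2 false, .d0 true, .d1 true, .d0 false, .d1 false, .d0 false, .d1 true, .d0 false, .d1 false] tree36 0 0 0 root = true :=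
  runPath_of_fastR supQ_good conQ_good rfl hp parts1.2.2.2.2.2.2.2.2.2.2.2.2.2.2.2.2

theorem ok37 (hp : Packed lay 1190874831 root) :
    runPath (lay.con 1190874831 1) (chkL seg) [.d0 false, .d1 false, .d2 false, .d0 true, .d1 true, .d0 false, .d1 false, .d0 false, .d1 true, .d0 false, .d1 true] tree37 0 0 0 root = true :=
  runPath_of_fastR supQ_good conQ_good rfl hp parts2.1

theorem ok38 (hp : Packed lay 1190874831 root) :
    runPath (lay.con 1190874831 1) (chkL seg) [.d0 false, .d1 false, .d2 false, .d0 true, .d1 true, .d0 false, .d1 false, .d0 false, .d1 true, .d0 true] tree38 0 0 0 root = true :=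
  runPath_of_fastR supQ_good conQ_good rfl hp parts2.2.1

theorem ok39 (hp : Packed lay 1190874831 root) :
    runPath (lay.con 1190874831 1) (chkL seg) [.d0 false, .d1 false, .d2 false, .d0 true, .d1 true, .d0 false, .d1 false, .d0 true] tree39 0 0 0 root = true :=
  runPath_of_fastR supQ_good conQ_good rfl hp parts2.2.2.1

theorem ok40 (hp : Packed lay 1190874831 root) :
    runPath (lay.con 1190874831 1) (chkL seg) [.d0 false, .d1 false, .d2 false, .d0 true, .d1 true, .d0 false, .d1 true, .d0 false, .d1 false, .d0 false] tree40 0 0 0 root = true :=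
  runPath_of_fastR supQ_good conQ_good rfl hp parts2.2.2.2.1

theorem ok41 (hp : Packed lay 1190874831 root) :
    runPath (lay.con 1190874831 1) (chkL seg) [.d0 false, .d1 false, .d2 false, .d0 true, .d1 true, .d0 false, .d1 true, .d0 false, .d1 false, .d0 true, .d1 false] tree41 0 0 0 root = true :=
  runPath_of_fastR supQ_good conQ_good rfl hp parts2.2.2.2.2.1

theorem ok42 (hp : Packed lay 1190874831 root) :
    runPath (lay.con 1190874831 1) (chkL seg) [.d0 false, .d1 false, .d2 false, .d0 true, .d1 true, .d0 false, .d1 true, .d0 false, .d1 false, .d0 true, .d1 true] tree42 0 0 0 root = true :=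
  runPath_of_fastR supQ_good conQ_good rfl hp parts2.2.2.2.2.2.1

theorem ok43 (hp : Packed lay 1190874831 root) :
    runPath (lay.con 1190874831 1) (chkL seg) [.d0 false, .d1 false, .d2 false, .d0 true, .d1 true, .d0 false, .d1 true, .d0 false, .d1 true] tree43 0 0 0 root = true :=
  runPath_of_fastR supQ_good conQ_good rfl hp parts2.2.2.2.2.2.2.1

theorem ok44 (hp : Packed lay 1190874831 root) :
    runPath (lay.con 1190874831 1) (chkL seg) [.d0 false, .d1 false, .d2 false, .d0 true, .d1 true, .d0 false, .d1 true, .d0 true, .d1 false] tree44 0 0 0 root = true :=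
  runPath_of_fastR supQ_good conQ_good rfl hp parts2.2.2.2.2.2.2.2.1

theorem ok45 (hp : Packed lay 1190874831 root) :
    runPath (lay.con 1190874831 1) (chkL seg) [.d0 false, .d1 false, .d2 false, .d0 true, .d1 true, .d0 false, .d1 true, .d0 true, .d1 true, .d0 false, .d1 false] tree45 0 0 0 root = true :=
  runPath_of_fastR supQ_good conQ_good rfl hp parts2.2.2.2.2.2.2.2.2.1

theorem ok46 (hp : Packed lay 1190874831 root) :
    runPath (lay.con 1190874831 1) (chkL seg) [.d0 false, .d1 false, .d2 false, .d0 true, .d1 true, .d0 false, .d1 true, .d0 true, .d1 true, .d0 false, .d1 true] tree46 0 0 0 root = true :=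
  runPath_of_fastR supQ_good conQ_good rfl hp parts2.2.2.2.2.2.2.2.2.2.1

theorem ok47 (hp : Packed lay 1190874831 root) :
    runPath (lay.con 1190874831 1) (chkL seg) [.d0 false, .d1 false, .d2 false, .d0 true, .d1 true, .d0 false, .d1 true, .d0 true, .d1 true, .d0 true] tree47 0 0 0 root = true :=
  runPath_of_fastR supQ_good conQ_good rfl hp parts2.2.2.2.2.2.2.2.2.2.2.1

theorem ok48 (hp : Packed lay 1190874831 root) :
    runPath (lay.con 1190874831 1) (chkL seg) [.d0 false, .d1 false, .d2 false, .d0 true, .d1 true, .d0 true] tree48 0 0 0 root = true :=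
  runPath_of_fastR supQ_good conQ_good rfl hp parts2.2.2.2.2.2.2.2.2.2.2.2.1

theorem ok49 (hp : Packed lay 1190874831 root) :
    runPath (lay.con 1190874831 1) (chkL seg) [.d0 false, .d1 false, .d2 true, .d0 false, .d1 false, .d2 false] tree49 0 0 0 root = true :=
  runPath_of_fastR supQ_good conQ_good rfl hp parts2.2.2.2.2.2.2.2.2.2.2.2.2

theorem ok50 (hp : Packed lay 1190874831 root) :
    runPath (lay.con 1190874831 1) (chkL seg) [.d0 false, .d1 false, .d2 true, .d0 false, .d1 false, .d2 true, .d0 false, .d1 false] tree50 0 0 0 root = true :=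
  runPath_of_fastR supQ_good conQ_good rfl hp parts3.1

theorem ok51 (hp : Packed lay 1190874831 root) :
    runPath (lay.con 1190874831 1) (chkL seg) [.d0 false, .d1 false, .d2 true, .d0 false, .d1 false, .d2 true, .d0 false, .d1 true] tree51 0 0 0 root = true :=
  runPath_of_fastR supQ_good conQ_good rfl hp parts3.2.1

theorem ok52 (hp : Packed lay 1190874831 root) :
    runPath (lay.con 1190874831 1) (chkL seg) [.d0 false, .d1 false, .d2 true, .d0 false, .d1 false, .d2 true, .d0 true, .d1 false] tree52 0 0 0 root = true :=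
  runPath_of_fastR supQ_good conQ_good rfl hp parts3.2.2.1

theorem ok53 (hp : Packed lay 1190874831 root) :
    runPath (lay.con 1190874831 1) (chkL seg) [.d0 false, .d1 false, .d2 true, .d0 false, .d1 false, .d2 true, .d0 true, .d1 true] tree53 0 0 0 root = true :=
  runPath_of_fastR supQ_good conQ_good rfl hp parts3.2.2.2.1

theorem ok54 (hp : Packed lay 1190874831 root) :
    runPath (lay.con 1190874831 1) (chkL seg) [.d0 false, .d1 false, .d2 true, .d0 false, .d1 true] tree54 0 0 0 root = true :=
  runPath_of_fastR supQ_good conQ_good rfl hp parts3.2.2.2.2.1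

theorem ok55 (hp : Packed lay 1190874831 root) :
    runPath (lay.con 1190874831 1) (chkL seg) [.d0 false, .d1 false, .d2 true, .d0 true, .d1 false, .d2 false] tree55 0 0 0 root = true :=
  runPath_of_fastR supQ_good conQ_good rfl hp parts3.2.2.2.2.2.1

theorem ok56 (hp : Packed lay 1190874831 root) :
    runPath (lay.con 1190874831 1) (chkL seg) [.d0 false, .d1 false, .d2 true, .d0 true, .d1 false, .d2 true, .d2 false] tree56 0 0 0 root = true :=
  runPath_of_fastR supQ_good conQ_good rfl hp parts3.2.2.2.2.2.2.1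

theorem ok57 (hp : Packed lay 1190874831 root) :
    runPath (lay.con 1190874831 1) (chkL seg) [.d0 false, .d1 false, .d2 true, .d0 true, .d1 false, .d2 true, .d2 true, .d0 false] tree57 0 0 0 root = true :=
  runPath_of_fastR supQ_good conQ_good rfl hp parts3.2.2.2.2.2.2.2.1

theorem ok58 (hp : Packed lay 1190874831 root) :
    runPath (lay.con 1190874831 1) (chkL seg) [.d0 false, .d1 false, .d2 true, .d0 true, .d1 false, .d2 true, .d2 true, .d0 true, .d2 false, .d2 false] tree58 0 0 0 root = true :=
  runPath_of_fastR supQ_good conQ_good rfl hp parts3.2.2.2.2.2.2.2.2.1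

theorem ok59 (hp : Packed lay 1190874831 root) :
    runPath (lay.con 1190874831 1) (chkL seg) [.d0 false, .d1 false, .d2 true, .d0 true, .d1 false, .d2 true, .d2 true, .d0 true, .d2 false, .d2 true, .d2 false] tree59 0 0 0 root = true :=
  runPath_of_fastR supQ_good conQ_good rfl hp parts3.2.2.2.2.2.2.2.2.2.1

theorem ok60 (hp : Packed lay 1190874831 root) :
    runPath (lay.con 1190874831 1) (chkL seg) [.d0 false, .d1 false, .d2 true, .d0 true, .d1 false, .d2 true, .d2 true, .d0 true, .d2 false, .d2 true, .d2 true] tree60 0 0 0 root = true :=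
  runPath_of_fastR supQ_good conQ_good rfl hp parts3.2.2.2.2.2.2.2.2.2.2.1

theorem ok61 (hp : Packed lay 1190874831 root) :
    runPath (lay.con 1190874831 1) (chkL seg) [.d0 false, .d1 false, .d2 true, .d0 true, .d1 false, .d2 true, .d2 true, .d0 true, .d2 true] tree61 0 0 0 root = true :=
  runPath_of_fastR supQ_good conQ_good rfl hp parts3.2.2.2.2.2.2.2.2.2.2.2.1

theorem ok62 (hp : Packed lay 1190874831 root) :
    runPath (lay.con 1190874831 1) (chkL seg) [.d0 false, .d1 false, .d2 true, .d0 true, .d1 true, .d1 false] tree62 0 0 0 root = true :=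
  runPath_of_fastR supQ_good conQ_good rfl hp parts3.2.2.2.2.2.2.2.2.2.2.2.2.1

theorem ok63 (hp : Packed lay 1190874831 root) :
    runPath (lay.con 1190874831 1) (chkL seg) [.d0 false, .d1 false, .d2 true, .d0 true, .d1 true, .d1 true] tree63 0 0 0 root = true :=
  runPath_of_fastR supQ_good conQ_good rfl hp parts3.2.2.2.2.2.2.2.2.2.2.2.2.2.1

theorem ok64 (hp : Packed lay 1190874831 root) :
    runPath (lay.con 1190874831 1) (chkL seg) [.d0 false, .d1 true, .d2 false, .d0 false, .d1 false] tree64 0 0 0 root = true :=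
  runPath_of_fastR supQ_good conQ_good rfl hp parts3.2.2.2.2.2.2.2.2.2.2.2.2.2.2.1

theorem ok65 (hp : Packed lay 1190874831 root) :
    runPath (lay.con 1190874831 1) (chkL seg) [.d0 false, .d1 true, .d2 false, .d0 false, .d1 true] tree65 0 0 0 root = true :=
  runPath_of_fastR supQ_good conQ_good rfl hp parts3.2.2.2.2.2.2.2.2.2.2.2.2.2.2.2.1

theorem ok66 (hp : Packed lay 1190874831 root) :
    runPath (lay.con 1190874831 1) (chkL seg) [.d0 false, .d1 true, .d2 false, .d0 true, .d1 false, .d2 false, .d0 false, .d1 false, .d0 false] tree66 0 0 0 root = true :=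
  runPath_of_fastR supQ_good conQ_good rfl hp parts3.2.2.2.2.2.2.2.2.2.2.2.2.2.2.2.2.1

theorem ok67 (hp : Packed lay 1190874831 root) :
    runPath (lay.con 1190874831 1) (chkL seg) [.d0 false, .d1 true, .d2 false, .d0 true, .d1 false, .d2 false, .d0 false, .d1 false, .d0 true, .d0 false] tree67 0 0 0 root = true :=
  runPath_of_fastR supQ_good conQ_good rfl hp parts3.2.2.2.2.2.2.2.2.2.2.2.2.2.2.2.2.2.1

theorem ok68 (hp : Packed lay 1190874831 root) :
    runPath (lay.con 1190874831 1) (chkL seg) [.d0 false, .d1 true, .d2 false, .d0 true, .d1 false, .d2 false, .d0 false, .d1 false, .d0 true, .d0 true, .d1 false] tree68 0 0 0 root = true :=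
  runPath_of_fastR supQ_good conQ_good rfl hp parts3.2.2.2.2.2.2.2.2.2.2.2.2.2.2.2.2.2.2

theorem ok69 (hp : Packed lay 1190874831 root) :
    runPath (lay.con 1190874831 1) (chkL seg) [.d0 false, .d1 true, .d2 false, .d0 true, .d1 false, .d2 false, .d0 false, .d1 false, .d0 true, .d0 true, .d1 true] tree69 0 0 0 root = true :=
  runPath_of_fastR supQ_good conQ_good rfl hp parts4.1

theorem ok70 (hp : Packed lay 1190874831 root) :
    runPath (lay.con 1190874831 1) (chkL seg) [.d0 false, .d1 true, .d2 false, .d0 true, .d1 false, .d2 false, .d0 false, .d1 true] tree70 0 0 0 root = true :=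
  runPath_of_fastR supQ_good conQ_good rfl hp parts4.2.1

theorem ok71 (hp : Packed lay 1190874831 root) :
    runPath (lay.con 1190874831 1) (chkL seg) [.d0 false, .d1 true, .d2 false, .d0 true, .d1 false, .d2 false, .d0 true, .d0 false, .d1 false, .d1 false] tree71 0 0 0 root = true :=
  runPath_of_fastR supQ_good conQ_good rfl hp parts4.2.2.1

theorem ok72 (hp : Packed lay 1190874831 root) :
    runPath (lay.con 1190874831 1) (chkL seg) [.d0 false, .d1 true, .d2 false, .d0 true, .d1 false, .d2 false, .d0 true, .d0 false, .d1 false, .d1 true, .d0 false] tree72 0 0 0 root = true :=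
  runPath_of_fastR supQ_good conQ_good rfl hp parts4.2.2.2.1

theorem ok73 (hp : Packed lay 1190874831 root) :
    runPath (lay.con 1190874831 1) (chkL seg) [.d0 false, .d1 true, .d2 false, .d0 true, .d1 false, .d2 false, .d0 true, .d0 false, .d1 false, .d1 true, .d0 true] tree73 0 0 0 root = true :=
  runPath_of_fastR supQ_good conQ_good rfl hp parts4.2.2.2.2.1

theorem ok74 (hp : Packed lay 1190874831 root) :
    runPath (lay.con 1190874831 1) (chkL seg) [.d0 false, .d1 true, .d2 false, .d0 true, .d1 false, .d2 false, .d0 true, .d0 false, .d1 true] tree74 0 0 0 root = true :=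
  runPath_of_fastR supQ_good conQ_good rfl hp parts4.2.2.2.2.2.1

theorem ok75 (hp : Packed lay 1190874831 root) :
    runPath (lay.con 1190874831 1) (chkL seg) [.d0 false, .d1 true, .d2 false, .d0 true, .d1 false, .d2 false, .d0 true, .d0 true] tree75 0 0 0 root = true :=
  runPath_of_fastR supQ_good conQ_good rfl hp parts4.2.2.2.2.2.2.1

theorem ok76 (hp : Packed lay 1190874831 root) :
    runPath (lay.con 1190874831 1) (chkL seg) [.d0 false, .d1 true, .d2 false, .d0 true, .d1 false, .d2 true, .d0 false, .d0 false] tree76 0 0 0 root = true :=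
  runPath_of_fastR supQ_good conQ_good rfl hp parts4.2.2.2.2.2.2.2.1

theorem ok77 (hp : Packed lay 1190874831 root) :
    runPath (lay.con 1190874831 1) (chkL seg) [.d0 false, .d1 true, .d2 false, .d0 true, .d1 false, .d2 true, .d0 false, .d0 true, .d1 false] tree77 0 0 0 root = true :=
  runPath_of_fastR supQ_good conQ_good rfl hp parts4.2.2.2.2.2.2.2.2.1

theorem ok78 (hp : Packed lay 1190874831 root) :
    runPath (lay.con 1190874831 1) (chkL seg) [.d0 false, .d1 true, .d2 false, .d0 true, .d1 false, .d2 true, .d0 false, .d0 true, .d1 true] tree78 0 0 0 root = true :=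
  runPath_of_fastR supQ_good conQ_good rfl hp parts4.2.2.2.2.2.2.2.2.2.1

theorem ok79 (hp : Packed lay 1190874831 root) :
    runPath (lay.con 1190874831 1) (chkL seg) [.d0 false, .d1 true, .d2 false, .d0 true, .d1 false, .d2 true, .d0 true, .d1 false, .d0 false, .d0 false] tree79 0 0 0 root = true :=
  runPath_of_fastR supQ_good conQ_good rfl hp parts4.2.2.2.2.2.2.2.2.2.2.1

theorem ok80 (hp : Packed lay 1190874831 root) :
    runPath (lay.con 1190874831 1) (chkL seg) [.d0 false, .d1 true, .d2 false, .d0 true, .d1 false, .d2 true, .d0 true, .d1 false, .d0 false, .d0 true] tree80 0 0 0 root = true :=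
  runPath_of_fastR supQ_good conQ_good rfl hp parts4.2.2.2.2.2.2.2.2.2.2.2.1

theorem ok81 (hp : Packed lay 1190874831 root) :
    runPath (lay.con 1190874831 1) (chkL seg) [.d0 false, .d1 true, .d2 false, .d0 true, .d1 false, .d2 true, .d0 true, .d1 false, .d0 true] tree81 0 0 0 root = true :=
  runPath_of_fastR supQ_good conQ_good rfl hp parts4.2.2.2.2.2.2.2.2.2.2.2.2.1

theorem ok82 (hp : Packed lay 1190874831 root) :
    runPath (lay.con 1190874831 1) (chkL seg) [.d0 false, .d1 true, .d2 false, .d0 true, .d1 false, .d2 true, .d0 true, .d1 true, .d0 false] tree82 0 0 0 root = true :=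
  runPath_of_fastR supQ_good conQ_good rfl hp parts4.2.2.2.2.2.2.2.2.2.2.2.2.2.1

theorem ok83 (hp : Packed lay 1190874831 root) :
    runPath (lay.con 1190874831 1) (chkL seg) [.d0 false, .d1 true, .d2 false, .d0 true, .d1 false, .d2 true, .d0 true, .d1 true, .d0 true] tree83 0 0 0 root = true :=
  runPath_of_fastR supQ_good conQ_good rfl hp parts4.2.2.2.2.2.2.2.2.2.2.2.2.2.2.1

theorem ok84 (hp : Packed lay 1190874831 root) :
    runPath (lay.con 1190874831 1) (chkL seg) [.d0 false, .d1 true, .d2 false, .d0 true, .d1 true, .d2 false, .d0 false] tree84 0 0 0 root = true :=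
  runPath_of_fastR supQ_good conQ_good rfl hp parts4.2.2.2.2.2.2.2.2.2.2.2.2.2.2.2

theorem ok85 (hp : Packed lay 1190874831 root) :
    runPath (lay.con 1190874831 1) (chkL seg) [.d0 false, .d1 true, .d2 false, .d0 true, .d1 true, .d2 false, .d0 true] tree85 0 0 0 root = true :=
  runPath_of_fastR supQ_good conQ_good rfl hp parts5.1

theorem ok86 (hp : Packed lay 1190874831 root) :
    runPath (lay.con 1190874831 1) (chkL seg) [.d0 false, .d1 true, .d2 false, .d0 true, .d1 true, .d2 true, .d0 false] tree86 0 0 0 root = true :=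
  runPath_of_fastR supQ_good conQ_good rfl hp parts5.2.1

theorem ok87 (hp : Packed lay 1190874831 root) :
    runPath (lay.con 1190874831 1) (chkL seg) [.d0 false, .d1 true, .d2 false, .d0 true, .d1 true, .d2 true, .d0 true] tree87 0 0 0 root = true :=
  runPath_of_fastR supQ_good conQ_good rfl hp parts5.2.2.1

theorem ok88 (hp : Packed lay 1190874831 root) :
    runPath (lay.con 1190874831 1) (chkL seg) [.d0 false, .d1 true, .d2 true, .d0 false, .d1 false] tree88 0 0 0 root = true :=
  runPath_of_fastR supQ_good conQ_good rfl hp parts5.2.2.2.1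

theorem ok89 (hp : Packed lay 1190874831 root) :
    runPath (lay.con 1190874831 1) (chkL seg) [.d0 false, .d1 true, .d2 true, .d0 false, .d1 true, .d2 false] tree89 0 0 0 root = true :=
  runPath_of_fastR supQ_good conQ_good rfl hp parts5.2.2.2.2.1

theorem ok90 (hp : Packed lay 1190874831 root) :
    runPath (lay.con 1190874831 1) (chkL seg) [.d0 false, .d1 true, .d2 true, .d0 false, .d1 true, .d2 true, .d0 false, .d1 false] tree90 0 0 0 root = true :=
  runPath_of_fastR supQ_good conQ_good rfl hp parts5.2.2.2.2.2.1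

theorem ok91 (hp : Packed lay 1190874831 root) :
    runPath (lay.con 1190874831 1) (chkL seg) [.d0 false, .d1 true, .d2 true, .d0 false, .d1 true, .d2 true, .d0 false, .d1 true, .d1 false] tree91 0 0 0 root = true :=
  runPath_of_fastR supQ_good conQ_good rfl hp parts5.2.2.2.2.2.2.1

theorem ok92 (hp : Packed lay 1190874831 root) :
    runPath (lay.con 1190874831 1) (chkL seg) [.d0 false, .d1 true, .d2 true, .d0 false, .d1 true, .d2 true, .d0 false, .d1 true, .d1 true, .d0 false] tree92 0 0 0 root = true :=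
  runPath_of_fastR supQ_good conQ_good rfl hp parts5.2.2.2.2.2.2.2.1

theorem ok93 (hp : Packed lay 1190874831 root) :
    runPath (lay.con 1190874831 1) (chkL seg) [.d0 false, .d1 true, .d2 true, .d0 false, .d1 true, .d2 true, .d0 false, .d1 true, .d1 true, .d0 true] tree93 0 0 0 root = true :=
  runPath_of_fastR supQ_good conQ_good rfl hp parts5.2.2.2.2.2.2.2.2.1

theorem ok94 (hp : Packed lay 1190874831 root) :
    runPath (lay.con 1190874831 1) (chkL seg) [.d0 false, .d1 true, .d2 true, .d0 false, .d1 true, .d2 true, .d0 true, .d0 false, .d1 false] tree94 0 0 0 root = true :=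
  runPath_of_fastR supQ_good conQ_good rfl hp parts5.2.2.2.2.2.2.2.2.2.1

theorem ok95 (hp : Packed lay 1190874831 root) :
    runPath (lay.con 1190874831 1) (chkL seg) [.d0 false, .d1 true, .d2 true, .d0 false, .d1 true, .d2 true, .d0 true, .d0 false, .d1 true, .d1 false] tree95 0 0 0 root = true :=
  runPath_of_fastR supQ_good conQ_good rfl hp parts5.2.2.2.2.2.2.2.2.2.2.1

theorem ok96 (hp : Packed lay 1190874831 root) :
    runPath (lay.con 1190874831 1) (chkL seg) [.d0 false, .d1 true, .d2 true, .d0 false, .d1 true, .d2 true, .d0 true, .d0 false, .d1 true, .d1 true] tree96 0 0 0 root = true :=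
  runPath_of_fastR supQ_good conQ_good rfl hp parts5.2.2.2.2.2.2.2.2.2.2.2.1

theorem ok97 (hp : Packed lay 1190874831 root) :
    runPath (lay.con 1190874831 1) (chkL seg) [.d0 false, .d1 true, .d2 true, .d0 false, .d1 true, .d2 true, .d0 true, .d0 true] tree97 0 0 0 root = true :=
  runPath_of_fastR supQ_good conQ_good rfl hp parts5.2.2.2.2.2.2.2.2.2.2.2.2.1

theorem ok98 (hp : Packed lay 1190874831 root) :
    runPath (lay.con 1190874831 1) (chkL seg) [.d0 false, .d1 true, .d2 true, .d0 true, .d1 false, .d0 false] tree98 0 0 0 root = true :=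
  runPath_of_fastR supQ_good conQ_good rfl hp parts5.2.2.2.2.2.2.2.2.2.2.2.2.2.1

theorem ok99 (hp : Packed lay 1190874831 root) :
    runPath (lay.con 1190874831 1) (chkL seg) [.d0 false, .d1 true, .d2 true, .d0 true, .d1 false, .d0 true, .d2 false] tree99 0 0 0 root = true :=
  runPath_of_fastR supQ_good conQ_good rfl hp parts5.2.2.2.2.2.2.2.2.2.2.2.2.2.2.1

theorem ok100 (hp : Packed lay 1190874831 root) :
    runPath (lay.con 1190874831 1) (chkL seg) [.d0 false, .d1 true, .d2 true, .d0 true, .d1 false, .d0 true, .d2 true] tree100 0 0 0 root = true :=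
  runPath_of_fastR supQ_good conQ_good rfl hp parts5.2.2.2.2.2.2.2.2.2.2.2.2.2.2.2.1

theorem ok101 (hp : Packed lay 1190874831 root) :
    runPath (lay.con 1190874831 1) (chkL seg) [.d0 false, .d1 true, .d2 true, .d0 true, .d1 true, .d0 false] tree101 0 0 0 root = true :=
  runPath_of_fastR supQ_good conQ_good rfl hp parts5.2.2.2.2.2.2.2.2.2.2.2.2.2.2.2.2.1

theorem ok102 (hp : Packed lay 1190874831 root) :
    runPath (lay.con 1190874831 1) (chkL seg) [.d0 false, .d1 true, .d2 true, .d0 true, .d1 true, .d0 true] tree102 0 0 0 root = true :=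
  runPath_of_fastR supQ_good conQ_good rfl hp parts5.2.2.2.2.2.2.2.2.2.2.2.2.2.2.2.2.2

theorem ok103 (hp : Packed lay 1190874831 root) :
    runPath (lay.con 1190874831 1) (chkL seg) [.d0 true, .d1 false] tree103 0 0 0 root = true :=
  runPath_of_fastR supQ_good conQ_good rfl hp parts6.1

theorem ok104 (hp : Packed lay 1190874831 root) :
    runPath (lay.con 1190874831 1) (chkL seg) [.d0 true, .d1 true, .d2 false, .d0 false] tree104 0 0 0 root = true :=
  runPath_of_fastR supQ_good conQ_good rfl hp parts6.2.1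

theorem ok105 (hp : Packed lay 1190874831 root) :
    runPath (lay.con 1190874831 1) (chkL seg) [.d0 true, .d1 true, .d2 false, .d0 true] tree105 0 0 0 root = true :=
  runPath_of_fastR supQ_good conQ_good rfl hp parts6.2.2.1

theorem ok106 (hp : Packed lay 1190874831 root) :
    runPath (lay.con 1190874831 1) (chkL seg) [.d0 true, .d1 true, .d2 true] tree106 0 0 0 root = true :=
  runPath_of_fastR supQ_good conQ_good rfl hp parts6.2.2.2

theorem tree_ok (hp : Packed lay 1190874831 root) :
    ∃ T, run (lay.con 1190874831 1) (chkL seg) T 0 0 0 root = true :=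
  ⟨_, run_of_runPath (runPath_node (.d0 false) [] _ _ _ _ _ _
    (runPath_node (.d1 false) [.d0 false] _ _ _ _ _ _
    (runPath_node (.d2 false) [.d0 false, .d1 false] _ _ _ _ _ _
    (runPath_node (.d0 false) [.d0 false, .d1 false, .d2 false] _ _ _ _ _ _
    (runPath_node (.d1 false) [.d0 false, .d1 false, .d2 false, .d0 false] _ _ _ _ _ _
    (runPath_node (.d2 false) [.d0 false, .d1 false, .d2 false, .d0 false, .d1 false] _ _ _ _ _ _
    (runPath_node (.d0 false) [.d0 false, .d1 false, .d2 false, .d0 false, .d1 false, .d2 false] _ _ _ _ _ _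
    (runPath_node (.d1 false) [.d0 false, .d1 false, .d2 false, .d0 false, .d1 false, .d2 false, .d0 false] _ _ _ _ _ _
    (runPath_node (.d0 false) [.d0 false, .d1 false, .d2 false, .d0 false, .d1 false, .d2 false, .d0 false, .d1 false] _ _ _ _ _ _
    (runPath_node (.d1 false) [.d0 false, .d1 false, .d2 false, .d0 false, .d1 false, .d2 false, .d0 false, .d1 false, .d0 false] _ _ _ _ _ _
    (ok0 hp)
    (ok1 hp))
    (runPath_node (.d1 false) [.d0 false, .d1 false, .d2 false, .d0 false, .d1 false, .d2 false, .d0 false, .d1 false, .d0 true] _ _ _ _ _ _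
    (ok2 hp)
    (runPath_node (.d2 false) [.d0 false, .d1 false, .d2 false, .d0 false, .d1 false, .d2 false, .d0 false, .d1 false, .d0 true, .d1 true] _ _ _ _ _ _
    (runPath_node (.d0 false) [.d0 false, .d1 false, .d2 false, .d0 false, .d1 false, .d2 false, .d0 false, .d1 false, .d0 true, .d1 true, .d2 false] _ _ _ _ _ _
    (ok3 hp)
    (ok4 hp))
    (ok5 hp))))
    (runPath_node (.d0 false) [.d0 false, .d1 false, .d2 false, .d0 false, .d1 false, .d2 false, .d0 false, .d1 true] _ _ _ _ _ _
    (ok6 hp)
    (runPath_node (.d1 false) [.d0 false, .d1 false, .d2 false, .d0 false, .d1 false, .d2 false, .d0 false, .d1 true, .d0 true] _ _ _ _ _ _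
    (runPath_node (.d0 false) [.d0 false, .d1 false, .d2 false, .d0 false, .d1 false, .d2 false, .d0 false, .d1 true, .d0 true, .d1 false] _ _ _ _ _ _
    (ok7 hp)
    (ok8 hp))
    (ok9 hp))))
    (runPath_node (.d1 false) [.d0 false, .d1 false, .d2 false, .d0 false, .d1 false, .d2 false, .d0 true] _ _ _ _ _ _
    (ok10 hp)
    (runPath_node (.d0 false) [.d0 false, .d1 false, .d2 false, .d0 false, .d1 false, .d2 false, .d0 true, .d1 true] _ _ _ _ _ _
    (runPath_node (.d1 false) [.d0 false, .d1 false, .d2 false, .d0 false, .d1 false, .d2 false, .d0 true, .d1 true, .d0 false] _ _ _ _ _ _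
    (runPath_node (.d0 false) [.d0 false, .d1 false, .d2 false, .d0 false, .d1 false, .d2 false, .d0 true, .d1 true, .d0 false, .d1 false] _ _ _ _ _ _
    (runPath_node (.d1 false) [.d0 false, .d1 false, .d2 false, .d0 false, .d1 false, .d2 false, .d0 true, .d1 true, .d0 false, .d1 false, .d0 false] _ _ _ _ _ _
    (ok11 hp)
    (ok12 hp))
    (ok13 hp))
    (runPath_node (.d0 false) [.d0 false, .d1 false, .d2 false, .d0 false, .d1 false, .d2 false, .d0 true, .d1 true, .d0 false, .d1 true] _ _ _ _ _ _
    (ok14 hp)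
    (runPath_node (.d2 false) [.d0 false, .d1 false, .d2 false, .d0 false, .d1 false, .d2 false, .d0 true, .d1 true, .d0 false, .d1 true, .d0 true] _ _ _ _ _ _
    (runPath_node (.d1 false) [.d0 false, .d1 false, .d2 false, .d0 false, .d1 false, .d2 false, .d0 true, .d1 true, .d0 false, .d1 true, .d0 true, .d2 false] _ _ _ _ _ _
    (ok15 hp)
    (ok16 hp))
    (ok17 hp))))
    (runPath_node (.d1 false) [.d0 false, .d1 false, .d2 false, .d0 false, .d1 false, .d2 false, .d0 true, .d1 true, .d0 true] _ _ _ _ _ _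
    (ok18 hp)
    (runPath_node (.d0 false) [.d0 false, .d1 false, .d2 false, .d0 false, .d1 false, .d2 false, .d0 true, .d1 true, .d0 true, .d1 true] _ _ _ _ _ _
    (runPath_node (.d1 false) [.d0 false, .d1 false, .d2 false, .d0 false, .d1 false, .d2 false, .d0 true, .d1 true, .d0 true, .d1 true, .d0 false] _ _ _ _ _ _
    (ok19 hp)
    (runPath_node (.d2 false) [.d0 false, .d1 false, .d2 false, .d0 false, .d1 false, .d2 false, .d0 true, .d1 true, .d0 true, .d1 true, .d0 false, .d1 true] _ _ _ _ _ _
    (ok20 hp)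
    (ok21 hp)))
    (ok22 hp))))))
    (runPath_node (.d0 false) [.d0 false, .d1 false, .d2 false, .d0 false, .d1 false, .d2 true] _ _ _ _ _ _
    (ok23 hp)
    (ok24 hp)))
    (runPath_node (.d2 false) [.d0 false, .d1 false, .d2 false, .d0 false, .d1 true] _ _ _ _ _ _
    (runPath_node (.d0 false) [.d0 false, .d1 false, .d2 false, .d0 false, .d1 true, .d2 false] _ _ _ _ _ _
    (ok25 hp)
    (runPath_node (.d0 false) [.d0 false, .d1 false, .d2 false, .d0 false, .d1 true, .d2 false, .d0 true] _ _ _ _ _ _
    (ok26 hp)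
    (runPath_node (.d1 false) [.d0 false, .d1 false, .d2 false, .d0 false, .d1 true, .d2 false, .d0 true, .d0 true] _ _ _ _ _ _
    (runPath_node (.d1 false) [.d0 false, .d1 false, .d2 false, .d0 false, .d1 true, .d2 false, .d0 true, .d0 true, .d1 false] _ _ _ _ _ _
    (runPath_node (.d0 false) [.d0 false, .d1 false, .d2 false, .d0 false, .d1 true, .d2 false, .d0 true, .d0 true, .d1 false, .d1 false] _ _ _ _ _ _
    (runPath_node (.d1 false) [.d0 false, .d1 false, .d2 false, .d0 false, .d1 true, .d2 false, .d0 true, .d0 true, .d1 false, .d1 false, .d0 false] _ _ _ _ _ _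
    (ok27 hp)
    (ok28 hp))
    (runPath_node (.d1 false) [.d0 false, .d1 false, .d2 false, .d0 false, .d1 true, .d2 false, .d0 true, .d0 true, .d1 false, .d1 false, .d0 true] _ _ _ _ _ _
    (ok29 hp)
    (ok30 hp)))
    (ok31 hp))
    (ok32 hp))))
    (ok33 hp)))
    (runPath_node (.d1 false) [.d0 false, .d1 false, .d2 false, .d0 true] _ _ _ _ _ _
    (ok34 hp)
    (runPath_node (.d0 false) [.d0 false, .d1 false, .d2 false, .d0 true, .d1 true] _ _ _ _ _ _
    (runPath_node (.d1 false) [.d0 false, .d1 false, .d2 false, .d0 true, .d1 true, .d0 false] _ _ _ _ _ _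
    (runPath_node (.d0 false) [.d0 false, .d1 false, .d2 false, .d0 true, .d1 true, .d0 false, .d1 false] _ _ _ _ _ _
    (runPath_node (.d1 false) [.d0 false, .d1 false, .d2 false, .d0 true, .d1 true, .d0 false, .d1 false, .d0 false] _ _ _ _ _ _
    (ok35 hp)
    (runPath_node (.d0 false) [.d0 false, .d1 false, .d2 false, .d0 true, .d1 true, .d0 false, .d1 false, .d0 false, .d1 true] _ _ _ _ _ _
    (runPath_node (.d1 false) [.d0 false, .d1 false, .d2 false, .d0 true, .d1 true, .d0 false, .d1 false, .d0 false, .d1 true, .d0 false] _ _ _ _ _ _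
    (ok36 hp)
    (ok37 hp))
    (ok38 hp)))
    (ok39 hp))
    (runPath_node (.d0 false) [.d0 false, .d1 false, .d2 false, .d0 true, .d1 true, .d0 false, .d1 true] _ _ _ _ _ _
    (runPath_node (.d1 false) [.d0 false, .d1 false, .d2 false, .d0 true, .d1 true, .d0 false, .d1 true, .d0 false] _ _ _ _ _ _
    (runPath_node (.d0 false) [.d0 false, .d1 false, .d2 false, .d0 true, .d1 true, .d0 false, .d1 true, .d0 false, .d1 false] _ _ _ _ _ _
    (ok40 hp)
    (runPath_node (.d1 false) [.d0 false, .d1 false, .d2 false, .d0 true, .d1 true, .d0 false, .d1 true, .d0 false, .d1 false, .d0 true] _ _ _ _ _ _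
    (ok41 hp)
    (ok42 hp)))
    (ok43 hp))
    (runPath_node (.d1 false) [.d0 false, .d1 false, .d2 false, .d0 true, .d1 true, .d0 false, .d1 true, .d0 true] _ _ _ _ _ _
    (ok44 hp)
    (runPath_node (.d0 false) [.d0 false, .d1 false, .d2 false, .d0 true, .d1 true, .d0 false, .d1 true, .d0 true, .d1 true] _ _ _ _ _ _
    (runPath_node (.d1 false) [.d0 false, .d1 false, .d2 false, .d0 true, .d1 true, .d0 false, .d1 true, .d0 true, .d1 true, .d0 false] _ _ _ _ _ _
    (ok45 hp)
    (ok46 hp))
    (ok47 hp)))))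
    (ok48 hp))))
    (runPath_node (.d0 false) [.d0 false, .d1 false, .d2 true] _ _ _ _ _ _
    (runPath_node (.d1 false) [.d0 false, .d1 false, .d2 true, .d0 false] _ _ _ _ _ _
    (runPath_node (.d2 false) [.d0 false, .d1 false, .d2 true, .d0 false, .d1 false] _ _ _ _ _ _
    (ok49 hp)
    (runPath_node (.d0 false) [.d0 false, .d1 false, .d2 true, .d0 false, .d1 false, .d2 true] _ _ _ _ _ _
    (runPath_node (.d1 false) [.d0 false, .d1 false, .d2 true, .d0 false, .d1 false, .d2 true, .d0 false] _ _ _ _ _ _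
    (ok50 hp)
    (ok51 hp))
    (runPath_node (.d1 false) [.d0 false, .d1 false, .d2 true, .d0 false, .d1 false, .d2 true, .d0 true] _ _ _ _ _ _
    (ok52 hp)
    (ok53 hp))))
    (ok54 hp))
    (runPath_node (.d1 false) [.d0 false, .d1 false, .d2 true, .d0 true] _ _ _ _ _ _
    (runPath_node (.d2 false) [.d0 false, .d1 false, .d2 true, .d0 true, .d1 false] _ _ _ _ _ _
    (ok55 hp)
    (runPath_node (.d2 false) [.d0 false, .d1 false, .d2 true, .d0 true, .d1 false, .d2 true] _ _ _ _ _ _
    (ok56 hp)
    (runPath_node (.d0 false) [.d0 false, .d1 false, .d2 true, .d0 true, .d1 false, .d2 true, .d2 true] _ _ _ _ _ _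
    (ok57 hp)
    (runPath_node (.d2 false) [.d0 false, .d1 false, .d2 true, .d0 true, .d1 false, .d2 true, .d2 true, .d0 true] _ _ _ _ _ _
    (runPath_node (.d2 false) [.d0 false, .d1 false, .d2 true, .d0 true, .d1 false, .d2 true, .d2 true, .d0 true, .d2 false] _ _ _ _ _ _
    (ok58 hp)
    (runPath_node (.d2 false) [.d0 false, .d1 false, .d2 true, .d0 true, .d1 false, .d2 true, .d2 true, .d0 true, .d2 false, .d2 true] _ _ _ _ _ _
    (ok59 hp)
    (ok60 hp)))
    (ok61 hp)))))
    (runPath_node (.d1 false) [.d0 false, .d1 false, .d2 true, .d0 true, .d1 true] _ _ _ _ _ _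
    (ok62 hp)
    (ok63 hp)))))
    (runPath_node (.d2 false) [.d0 false, .d1 true] _ _ _ _ _ _
    (runPath_node (.d0 false) [.d0 false, .d1 true, .d2 false] _ _ _ _ _ _
    (runPath_node (.d1 false) [.d0 false, .d1 true, .d2 false, .d0 false] _ _ _ _ _ _
    (ok64 hp)
    (ok65 hp))
    (runPath_node (.d1 false) [.d0 false, .d1 true, .d2 false, .d0 true] _ _ _ _ _ _
    (runPath_node (.d2 false) [.d0 false, .d1 true, .d2 false, .d0 true, .d1 false] _ _ _ _ _ _
    (runPath_node (.d0 false) [.d0 false, .d1 true, .d2 false, .d0 true, .d1 false, .d2 false] _ _ _ _ _ _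
    (runPath_node (.d1 false) [.d0 false, .d1 true, .d2 false, .d0 true, .d1 false, .d2 false, .d0 false] _ _ _ _ _ _
    (runPath_node (.d0 false) [.d0 false, .d1 true, .d2 false, .d0 true, .d1 false, .d2 false, .d0 false, .d1 false] _ _ _ _ _ _
    (ok66 hp)
    (runPath_node (.d0 false) [.d0 false, .d1 true, .d2 false, .d0 true, .d1 false, .d2 false, .d0 false, .d1 false, .d0 true] _ _ _ _ _ _
    (ok67 hp)
    (runPath_node (.d1 false) [.d0 false, .d1 true, .d2 false, .d0 true, .d1 false, .d2 false, .d0 false, .d1 false, .d0 true, .d0 true] _ _ _ _ _ _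
    (ok68 hp)
    (ok69 hp))))
    (ok70 hp))
    (runPath_node (.d0 false) [.d0 false, .d1 true, .d2 false, .d0 true, .d1 false, .d2 false, .d0 true] _ _ _ _ _ _
    (runPath_node (.d1 false) [.d0 false, .d1 true, .d2 false, .d0 true, .d1 false, .d2 false, .d0 true, .d0 false] _ _ _ _ _ _
    (runPath_node (.d1 false) [.d0 false, .d1 true, .d2 false, .d0 true, .d1 false, .d2 false, .d0 true, .d0 false, .d1 false] _ _ _ _ _ _
    (ok71 hp)
    (runPath_node (.d0 false) [.d0 false, .d1 true, .d2 false, .d0 true, .d1 false, .d2 false, .d0 true, .d0 false, .d1 false, .d1 true] _ _ _ _ _ _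
    (ok72 hp)
    (ok73 hp)))
    (ok74 hp))
    (ok75 hp)))
    (runPath_node (.d0 false) [.d0 false, .d1 true, .d2 false, .d0 true, .d1 false, .d2 true] _ _ _ _ _ _
    (runPath_node (.d0 false) [.d0 false, .d1 true, .d2 false, .d0 true, .d1 false, .d2 true, .d0 false] _ _ _ _ _ _
    (ok76 hp)
    (runPath_node (.d1 false) [.d0 false, .d1 true, .d2 false, .d0 true, .d1 false, .d2 true, .d0 false, .d0 true] _ _ _ _ _ _
    (ok77 hp)
    (ok78 hp)))
    (runPath_node (.d1 false) [.d0 false, .d1 true, .d2 false, .d0 true, .d1 false, .d2 true, .d0 true] _ _ _ _ _ _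
    (runPath_node (.d0 false) [.d0 false, .d1 true, .d2 false, .d0 true, .d1 false, .d2 true, .d0 true, .d1 false] _ _ _ _ _ _
    (runPath_node (.d0 false) [.d0 false, .d1 true, .d2 false, .d0 true, .d1 false, .d2 true, .d0 true, .d1 false, .d0 false] _ _ _ _ _ _
    (ok79 hp)
    (ok80 hp))
    (ok81 hp))
    (runPath_node (.d0 false) [.d0 false, .d1 true, .d2 false, .d0 true, .d1 false, .d2 true, .d0 true, .d1 true] _ _ _ _ _ _
    (ok82 hp)
    (ok83 hp)))))
    (runPath_node (.d2 false) [.d0 false, .d1 true, .d2 false, .d0 true, .d1 true] _ _ _ _ _ _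
    (runPath_node (.d0 false) [.d0 false, .d1 true, .d2 false, .d0 true, .d1 true, .d2 false] _ _ _ _ _ _
    (ok84 hp)
    (ok85 hp))
    (runPath_node (.d0 false) [.d0 false, .d1 true, .d2 false, .d0 true, .d1 true, .d2 true] _ _ _ _ _ _
    (ok86 hp)
    (ok87 hp)))))
    (runPath_node (.d0 false) [.d0 false, .d1 true, .d2 true] _ _ _ _ _ _
    (runPath_node (.d1 false) [.d0 false, .d1 true, .d2 true, .d0 false] _ _ _ _ _ _
    (ok88 hp)
    (runPath_node (.d2 false) [.d0 false, .d1 true, .d2 true, .d0 false, .d1 true] _ _ _ _ _ _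
    (ok89 hp)
    (runPath_node (.d0 false) [.d0 false, .d1 true, .d2 true, .d0 false, .d1 true, .d2 true] _ _ _ _ _ _
    (runPath_node (.d1 false) [.d0 false, .d1 true, .d2 true, .d0 false, .d1 true, .d2 true, .d0 false] _ _ _ _ _ _
    (ok90 hp)
    (runPath_node (.d1 false) [.d0 false, .d1 true, .d2 true, .d0 false, .d1 true, .d2 true, .d0 false, .d1 true] _ _ _ _ _ _
    (ok91 hp)
    (runPath_node (.d0 false) [.d0 false, .d1 true, .d2 true, .d0 false, .d1 true, .d2 true, .d0 false, .d1 true, .d1 true] _ _ _ _ _ _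
    (ok92 hp)
    (ok93 hp))))
    (runPath_node (.d0 false) [.d0 false, .d1 true, .d2 true, .d0 false, .d1 true, .d2 true, .d0 true] _ _ _ _ _ _
    (runPath_node (.d1 false) [.d0 false, .d1 true, .d2 true, .d0 false, .d1 true, .d2 true, .d0 true, .d0 false] _ _ _ _ _ _
    (ok94 hp)
    (runPath_node (.d1 false) [.d0 false, .d1 true, .d2 true, .d0 false, .d1 true, .d2 true, .d0 true, .d0 false, .d1 true] _ _ _ _ _ _
    (ok95 hp)
    (ok96 hp)))
    (ok97 hp)))))
    (runPath_node (.d1 false) [.d0 false, .d1 true, .d2 true, .d0 true] _ _ _ _ _ _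
    (runPath_node (.d0 false) [.d0 false, .d1 true, .d2 true, .d0 true, .d1 false] _ _ _ _ _ _
    (ok98 hp)
    (runPath_node (.d2 false) [.d0 false, .d1 true, .d2 true, .d0 true, .d1 false, .d0 true] _ _ _ _ _ _
    (ok99 hp)
    (ok100 hp)))
    (runPath_node (.d0 false) [.d0 false, .d1 true, .d2 true, .d0 true, .d1 true] _ _ _ _ _ _
    (ok101 hp)
    (ok102 hp))))))
    (runPath_node (.d1 false) [.d0 true] _ _ _ _ _ _
    (ok103 hp)
    (runPath_node (.d2 false) [.d0 true, .d1 true] _ _ _ _ _ _
    (runPath_node (.d0 false) [.d0 true, .d1 true, .d2 false] _ _ _ _ _ _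
    (ok104 hp)
    (ok105 hp))
    (ok106 hp))))⟩

end Vale.Agent.P098.Six.S1
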