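import Vale.Agent.P098.Six.S1.Root

/-!
# P098, six dimensions: checked pieces of the tree
-/

namespace Vale.Agent.P098.Six.S1

/-- A piece of the tree. -/
noncomputable def tree0 : Tree LeafX :=
  .s0
    (.s1
    (.s2
    (.s3
    (.s2
    (.leaf (.box ⟨6243, 1, -5278, 6, -51, 2405, 817430, 0, 0, 0, 0, 0, 0⟩ ⟨0, 0, 0, 0, 0, 0, 677320, 0, 0, 0, 0, 0, 0⟩ ⟨0, 0, 0, 0, 0, 0, 677320, 0, 0, 0, 0, 0, 0⟩ ⟨0, 0, 0, 0, 0, 0, 578213, 0, 0, 0, 0, 0, 0⟩ ⟨0, 0, 0, 0, 0, 0, 578213, 0, 0, 0, 0, 0, 0⟩ ⟨3033, 1, -2631, 6, -39, 1138, 504406, 0, 0, 0, 0, 0, 0⟩))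
    (.leaf (.box ⟨6469, 1, -3985, 6, -60, 2829, 786257, 0, 0, 0, 0, 0, 0⟩ ⟨0, 0, 0, 0, 0, 0, 651488, 0, 0, 0, 0, 0, 0⟩ ⟨0, 0, 0, 0, 0, 0, 651488, 0, 0, 0, 0, 0, 0⟩ ⟨0, 0, 0, 0, 0, 0, 556160, 0, 0, 0, 0, 0, 0⟩ ⟨0, 0, 0, 0, 0, 0, 556160, 0, 0, 0, 0, 0, 0⟩ ⟨4226, 1, -2852, 6, -64, 1873, 485167, 0, 0, 0, 0, 0, 0⟩)))
    (.leaf (.box ⟨3323, 1, -3099, 6, -45, 1441, 536993, 0, 0, 0, 0, 0, 0⟩ ⟨0, 0, 0, 0, 0, 0, 430572, 0, 0, 0, 0, 0, 0⟩ ⟨0, 0, 0, 0, 0, 0, 430572, 0, 0, 0, 0, 0, 0⟩ ⟨0, 0, 0, 0, 0, 0, 359355, 0, 0, 0, 0, 0, 0⟩ ⟨0, 0, 0, 0, 0, 0, 359355, 0, 0, 0, 0, 0, 0⟩ ⟨2048, 1, -1854, 7, -54, 991, 308353, 0, 0, 0, 0, 0, 0⟩)))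
    (.s2
    (.s3
    (.leaf (.box ⟨9202, 0, -4684, 6, -70, 3332, 755116, 0, 0, 0, 0, 0, 0⟩ ⟨0, 0, 0, 0, 0, 0, 625675, 0, 0, 0, 0, 0, 0⟩ ⟨0, 0, 0, 0, 0, 0, 625675, 0, 0, 0, 0, 0, 0⟩ ⟨0, 0, 0, 0, 0, 0, 534118, 0, 0, 0, 0, 0, 0⟩ ⟨0, 0, 0, 0, 0, 0, 534118, 0, 0, 0, 0, 0, 0⟩ ⟨5005, 0, -3162, 6, -65, 1904, 465935, 0, 0, 0, 0, 0, 0⟩))
    (.leaf (.box ⟨6552, 0, -5553, 6, -81, 2646, 515665, 0, 0, 0, 0, 0, 0⟩ ⟨0, 0, 0, 0, 0, 0, 413458, 0, 0, 0, 0, 0, 0⟩ ⟨0, 0, 0, 0, 0, 0, 413458, 0, 0, 0, 0, 0, 0⟩ ⟨0, 0, 0, 0, 0, 0, 345065, 0, 0, 0, 0, 0, 0⟩ ⟨0, 0, 0, 0, 0, 0, 345065, 0, 0, 0, 0, 0, 0⟩ ⟨3197, 0, -2882, 6, -67, 1246, 296086, 0, 0, 0, 0, 0, 0⟩)))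
    (.leaf (.box ⟨8004, 0, -5080, 6, -70, 2293, 494381, 0, 0, 0, 0, 0, 0⟩ ⟨0, 0, 0, 0, 0, 0, 396391, 0, 0, 0, 0, 0, 0⟩ ⟨0, 0, 0, 0, 0, 0, 396391, 0, 0, 0, 0, 0, 0⟩ ⟨0, 0, 0, 0, 0, 0, 330820, 0, 0, 0, 0, 0, 0⟩ ⟨0, 0, 0, 0, 0, 0, 330820, 0, 0, 0, 0, 0, 0⟩ ⟨4675, 0, -3094, 6, -68, 1282, 283863, 0, 0, 0, 0, 0, 0⟩))))
    (.s2
    (.s0
    (.s3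
    (.leaf (.box ⟨6539, 0, 731, 6, -55, 2634, 801484, 0, 0, 0, 0, 0, 0⟩ ⟨0, 0, 0, 0, 0, 0, 664132, 0, 0, 0, 0, 0, 0⟩ ⟨0, 0, 0, 0, 0, 0, 664132, 0, 0, 0, 0, 0, 0⟩ ⟨0, 0, 0, 0, 0, 0, 566969, 0, 0, 0, 0, 0, 0⟩ ⟨0, 0, 0, 0, 0, 0, 566969, 0, 0, 0, 0, 0, 0⟩ ⟨5792, 0, 483, 6, -77, 2287, 494607, 0, 0, 0, 0, 0, 0⟩))
    (.leaf (.box ⟨5972, 0, -338, 6, -87, 2833, 547547, 0, 0, 0, 0, 0, 0⟩ ⟨0, 0, 0, 0, 0, 0, 439067, 0, 0, 0, 0, 0, 0⟩ ⟨0, 0, 0, 0, 0, 0, 439067, 0, 0, 0, 0, 0, 0⟩ ⟨0, 0, 0, 0, 0, 0, 366463, 0, 0, 0, 0, 0, 0⟩ ⟨0, 0, 0, 0, 0, 0, 366463, 0, 0, 0, 0, 0, 0⟩ ⟨3792, 0, -424, 6, -94, 1758, 314463, 0, 0, 0, 0, 0, 0⟩)))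
    (.s3
    (.leaf (.box ⟨6131, -1, -3308, 6, -64, 3041, 801734, 0, 0, 0, 0, 0, 0⟩ ⟨0, 0, 0, 0, 0, 0, 664343, 0, 0, 0, 0, 0, 0⟩ ⟨0, 0, 0, 0, 0, 0, 664343, 0, 0, 0, 0, 0, 0⟩ ⟨0, 0, 0, 0, 0, 0, 567152, 0, 0, 0, 0, 0, 0⟩ ⟨0, 0, 0, 0, 0, 0, 567152, 0, 0, 0, 0, 0, 0⟩ ⟨6757, -1, -4383, 6, -89, 2609, 494768, 0, 0, 0, 0, 0, 0⟩))
    (.leaf (.box ⟨4061, -1, -3000, 6, -74, 2383, 547782, 0, 0, 0, 0, 0, 0⟩ ⟨0, 0, 0, 0, 0, 0, 439265, 0, 0, 0, 0, 0, 0⟩ ⟨0, 0, 0, 0, 0, 0, 439265, 0, 0, 0, 0, 0, 0⟩ ⟨0, 0, 0, 0, 0, 0, 366633, 0, 0, 0, 0, 0, 0⟩ ⟨0, 0, 0, 0, 0, 0, 366633, 0, 0, 0, 0, 0, 0⟩ ⟨4054, -1, -3216, 6, -124, 2304, 314612, 0, 0, 0, 0, 0, 0⟩))))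
    (.s0
    (.s2
    (.leaf (.box ⟨5828, -1, 972, 6, -66, 2098, 524946, 0, 0, 0, 0, 0, 0⟩ ⟨0, 0, 0, 0, 0, 0, 420946, 0, 0, 0, 0, 0, 0⟩ ⟨0, 0, 0, 0, 0, 0, 420946, 0, 0, 0, 0, 0, 0⟩ ⟨0, 0, 0, 0, 0, 0, 351340, 0, 0, 0, 0, 0, 0⟩ ⟨0, 0, 0, 0, 0, 0, 351340, 0, 0, 0, 0, 0, 0⟩ ⟨4428, -1, 1469, 6, -98, 1793, 301487, 0, 0, 0, 0, 0, 0⟩))
    (.leaf (.box ⟨5127, -1, 1090, 6, -53, 1649, 502964, 0, 0, 0, 0, 0, 0⟩ ⟨0, 0, 0, 0, 0, 0, 403320, 0, 0, 0, 0, 0, 0⟩ ⟨0, 0, 0, 0, 0, 0, 403320, 0, 0, 0, 0, 0, 0⟩ ⟨0, 0, 0, 0, 0, 0, 336629, 0, 0, 0, 0, 0, 0⟩ ⟨0, 0, 0, 0, 0, 0, 336629, 0, 0, 0, 0, 0, 0⟩ ⟨4352, -1, 743, 6, -75, 1357, 288863, 0, 0, 0, 0, 0, 0⟩)))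
    (.leaf (.box ⟨5712, -1, -2298, 6, -78, 2431, 504038, 0, 0, 0, 0, 0, 0⟩ ⟨0, 0, 0, 0, 0, 0, 404183, 0, 0, 0, 0, 0, 0⟩ ⟨0, 0, 0, 0, 0, 0, 404183, 0, 0, 0, 0, 0, 0⟩ ⟨0, 0, 0, 0, 0, 0, 337350, 0, 0, 0, 0, 0, 0⟩ ⟨0, 0, 0, 0, 0, 0, 337350, 0, 0, 0, 0, 0, 0⟩ ⟨3405, -1, -1797, 6, -64, 1160, 289483, 0, 0, 0, 0, 0, 0⟩)))))
    (.s1
    (.s2
    (.leaf (.box ⟨3439, -1, -1952, 6, -25, 734, 537039, 0, 0, 0, 0, 0, 0⟩ ⟨0, 0, 0, 0, 0, 0, 430613, 0, 0, 0, 0, 0, 0⟩ ⟨0, 0, 0, 0, 0, 0, 430613, 0, 0, 0, 0, 0, 0⟩ ⟨0, 0, 0, 0, 0, 0, 359391, 0, 0, 0, 0, 0, 0⟩ ⟨0, 0, 0, 0, 0, 0, 359391, 0, 0, 0, 0, 0, 0⟩ ⟨2048, -1, -1117, 6, -29, 486, 308385, 0, 0, 0, 0, 0, 0⟩))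
    (.leaf (.box ⟨3319, -1, -2585, 6, -28, 858, 496169, 0, 0, 0, 0, 0, 0⟩ ⟨0, 0, 0, 0, 0, 0, 397845, 0, 0, 0, 0, 0, 0⟩ ⟨0, 0, 0, 0, 0, 0, 397845, 0, 0, 0, 0, 0, 0⟩ ⟨0, 0, 0, 0, 0, 0, 332044, 0, 0, 0, 0, 0, 0⟩ ⟨0, 0, 0, 0, 0, 0, 332044, 0, 0, 0, 0, 0, 0⟩ ⟨2048, -1, -1406, 8, -38, 659, 284920, 0, 0, 0, 0, 0, 0⟩)))
    (.s2
    (.s3
    (.s2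
    (.leaf (.box ⟨4008, -3, -6046, 6, -54, 2516, 833889, 0, 0, 0, 0, 0, 0⟩ ⟨0, 0, 0, 0, 0, 0, 690993, 0, 0, 0, 0, 0, 0⟩ ⟨0, 0, 0, 0, 0, 0, 690993, 0, 0, 0, 0, 0, 0⟩ ⟨0, 0, 0, 0, 0, 0, 589907, 0, 0, 0, 0, 0, 0⟩ ⟨0, 0, 0, 0, 0, 0, 589907, 0, 0, 0, 0, 0, 0⟩ ⟨2031, -3, -3066, 6, -43, 1227, 514621, 0, 0, 0, 0, 0, 0⟩))
    (.leaf (.box ⟨3543, -3, -4882, 6, -51, 2337, 801960, 0, 0, 0, 0, 0, 0⟩ ⟨0, 0, 0, 0, 0, 0, 664534, 0, 0, 0, 0, 0, 0⟩ ⟨0, 0, 0, 0, 0, 0, 664534, 0, 0, 0, 0, 0, 0⟩ ⟨0, 0, 0, 0, 0, 0, 567316, 0, 0, 0, 0, 0, 0⟩ ⟨0, 0, 0, 0, 0, 0, 567316, 0, 0, 0, 0, 0, 0⟩ ⟨2539, -3, -3598, 6, -62, 1761, 494913, 0, 0, 0, 0, 0, 0⟩)))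
    (.s2
    (.leaf (.box ⟨2499, -2, -4386, 6, -58, 1853, 569886, 0, 0, 0, 0, 0, 0⟩ ⟨0, 0, 0, 0, 0, 0, 457003, 0, 0, 0, 0, 0, 0⟩ ⟨0, 0, 0, 0, 0, 0, 457003, 0, 0, 0, 0, 0, 0⟩ ⟨0, 0, 0, 0, 0, 0, 381446, 0, 0, 0, 0, 0, 0⟩ ⟨0, 0, 0, 0, 0, 0, 381446, 0, 0, 0, 0, 0, 0⟩ ⟨1642, -2, -2910, 6, -63, 1152, 327328, 0, 0, 0, 0, 0, 0⟩))
    (.leaf (.box ⟨2334, -2, -3754, 6, -55, 1738, 548007, 0, 0, 0, 0, 0, 0⟩ ⟨0, 0, 0, 0, 0, 0, 439453, 0, 0, 0, 0, 0, 0⟩ ⟨0, 0, 0, 0, 0, 0, 439453, 0, 0, 0, 0, 0, 0⟩ ⟨0, 0, 0, 0, 0, 0, 366794, 0, 0, 0, 0, 0, 0⟩ ⟨0, 0, 0, 0, 0, 0, 366794, 0, 0, 0, 0, 0, 0⟩ ⟨1656, -2, -2726, 6, -65, 1177, 314753, 0, 0, 0, 0, 0, 0⟩))))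
    (.leaf (.box ⟨2596, -3, -3260, 6, -47, 1457, 505342, 0, 0, 0, 0, 0, 0⟩ ⟨0, 0, 0, 0, 0, 0, 405231, 0, 0, 0, 0, 0, 0⟩ ⟨0, 0, 0, 0, 0, 0, 405231, 0, 0, 0, 0, 0, 0⟩ ⟨0, 0, 0, 0, 0, 0, 338226, 0, 0, 0, 0, 0, 0⟩ ⟨0, 0, 0, 0, 0, 0, 338226, 0, 0, 0, 0, 0, 0⟩ ⟨1786, -3, -2048, 7, -58, 1025, 290235, 0, 0, 0, 0, 0, 0⟩))))

/-- A piece of the tree. -/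
noncomputable def tree1 : Tree LeafX :=
  .s0
    (.s2
    (.s2
    (.leaf (.box ⟨7693, 0, 4822, 6, -58, 1936, 579232, 0, 0, 0, 0, 0, 0⟩ ⟨0, 0, 0, 0, 0, 0, 464478, 0, 0, 0, 0, 0, 0⟩ ⟨0, 0, 0, 0, 0, 0, 464478, 0, 0, 0, 0, 0, 0⟩ ⟨0, 0, 0, 0, 0, 0, 387675, 0, 0, 0, 0, 0, 0⟩ ⟨0, 0, 0, 0, 0, 0, 387675, 0, 0, 0, 0, 0, 0⟩ ⟨6682, 0, 4013, 6, -85, 1641, 332666, 0, 0, 0, 0, 0, 0⟩))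
    (.leaf (.box ⟨6482, 0, 4546, 6, -52, 1659, 555480, 0, 0, 0, 0, 0, 0⟩ ⟨0, 0, 0, 0, 0, 0, 445433, 0, 0, 0, 0, 0, 0⟩ ⟨0, 0, 0, 0, 0, 0, 445433, 0, 0, 0, 0, 0, 0⟩ ⟨0, 0, 0, 0, 0, 0, 371779, 0, 0, 0, 0, 0, 0⟩ ⟨0, 0, 0, 0, 0, 0, 371779, 0, 0, 0, 0, 0, 0⟩ ⟨6083, 0, 4108, 6, -84, 1522, 319026, 0, 0, 0, 0, 0, 0⟩)))
    (.leaf (.box ⟨5857, -1, 4250, 6, -45, 1301, 509840, 0, 0, 0, 0, 0, 0⟩ ⟨0, 0, 0, 0, 0, 0, 408836, 0, 0, 0, 0, 0, 0⟩ ⟨0, 0, 0, 0, 0, 0, 408836, 0, 0, 0, 0, 0, 0⟩ ⟨0, 0, 0, 0, 0, 0, 341234, 0, 0, 0, 0, 0, 0⟩ ⟨0, 0, 0, 0, 0, 0, 341234, 0, 0, 0, 0, 0, 0⟩ ⟨3461, -1, 2450, 6, -46, 761, 292816, 0, 0, 0, 0, 0, 0⟩)))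
    (.s2
    (.s1
    (.s3
    (.s3
    (.s2
    (.leaf (.box ⟨4640, -3, -3046, 6, -35, 2215, 1105736, 0, 0, 0, 0, 0, 0⟩ ⟨0, 0, 0, 0, 0, 0, 946330, 0, 0, 0, 0, 0, 0⟩ ⟨0, 0, 0, 0, 0, 0, 946330, 0, 0, 0, 0, 0, 0⟩ ⟨0, 0, 0, 0, 0, 0, 827094, 0, 0, 0, 0, 0, 0⟩ ⟨0, 0, 0, 0, 0, 0, 827094, 0, 0, 0, 0, 0, 0⟩ ⟨9486, -3, -6973, 6, -85, 3550, 734542, 0, 0, 0, 0, 0, 0⟩))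
    (.leaf (.box ⟨12938, -3, -69, 6, -93, 5636, 1062024, 0, 0, 0, 0, 0, 0⟩ ⟨0, 0, 0, 0, 0, 0, 908921, 0, 0, 0, 0, 0, 0⟩ ⟨0, 0, 0, 0, 0, 0, 908921, 0, 0, 0, 0, 0, 0⟩ ⟨0, 0, 0, 0, 0, 0, 794400, 0, 0, 0, 0, 0, 0⟩ ⟨0, 0, 0, 0, 0, 0, 794400, 0, 0, 0, 0, 0, 0⟩ ⟨3978, -3, -1668, 6, -59, 2390, 705507, 0, 0, 0, 0, 0, 0⟩)))
    (.leaf (.box ⟨8380, -2, -6078, 6, -65, 3037, 815931, 0, 0, 0, 0, 0, 0⟩ ⟨0, 0, 0, 0, 0, 0, 676128, 0, 0, 0, 0, 0, 0⟩ ⟨0, 0, 0, 0, 0, 0, 676128, 0, 0, 0, 0, 0, 0⟩ ⟨0, 0, 0, 0, 0, 0, 577225, 0, 0, 0, 0, 0, 0⟩ ⟨0, 0, 0, 0, 0, 0, 577225, 0, 0, 0, 0, 0, 0⟩ ⟨6632, -2, -4891, 6, -85, 2437, 503564, 0, 0, 0, 0, 0, 0⟩)))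
    (.s3
    (.leaf (.box ⟨7764, -2, -6022, 6, -79, 3008, 662480, 0, 0, 0, 0, 0, 0⟩ ⟨0, 0, 0, 0, 0, 0, 538315, 0, 0, 0, 0, 0, 0⟩ ⟨0, 0, 0, 0, 0, 0, 538315, 0, 0, 0, 0, 0, 0⟩ ⟨0, 0, 0, 0, 0, 0, 453346, 0, 0, 0, 0, 0, 0⟩ ⟨0, 0, 0, 0, 0, 0, 453346, 0, 0, 0, 0, 0, 0⟩ ⟨5070, -2, -4057, 6, -87, 1940, 391544, 0, 0, 0, 0, 0, 0⟩))
    (.leaf (.box ⟨7568, -2, -6244, 6, -98, 3116, 557646, 0, 0, 0, 0, 0, 0⟩ ⟨0, 0, 0, 0, 0, 0, 447203, 0, 0, 0, 0, 0, 0⟩ ⟨0, 0, 0, 0, 0, 0, 447203, 0, 0, 0, 0, 0, 0⟩ ⟨0, 0, 0, 0, 0, 0, 373275, 0, 0, 0, 0, 0, 0⟩ ⟨0, 0, 0, 0, 0, 0, 373275, 0, 0, 0, 0, 0, 0⟩ ⟨4167, -2, -3525, 6, -91, 1670, 320321, 0, 0, 0, 0, 0, 0⟩))))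
    (.leaf (.box ⟨7234, -1, -359, 6, -91, 2920, 565468, 0, 0, 0, 0, 0, 0⟩ ⟨0, 0, 0, 0, 0, 0, 453445, 0, 0, 0, 0, 0, 0⟩ ⟨0, 0, 0, 0, 0, 0, 453445, 0, 0, 0, 0, 0, 0⟩ ⟨0, 0, 0, 0, 0, 0, 378468, 0, 0, 0, 0, 0, 0⟩ ⟨0, 0, 0, 0, 0, 0, 378468, 0, 0, 0, 0, 0, 0⟩ ⟨7438, -1, -2910, 6, -104, 1923, 324767, 0, 0, 0, 0, 0, 0⟩)))
    (.s1
    (.leaf (.box ⟨3922, -3, -1711, 6, -53, 1617, 513376, 0, 0, 0, 0, 0, 0⟩ ⟨0, 0, 0, 0, 0, 0, 411676, 0, 0, 0, 0, 0, 0⟩ ⟨0, 0, 0, 0, 0, 0, 411676, 0, 0, 0, 0, 0, 0⟩ ⟨0, 0, 0, 0, 0, 0, 343607, 0, 0, 0, 0, 0, 0⟩ ⟨0, 0, 0, 0, 0, 0, 343607, 0, 0, 0, 0, 0, 0⟩ ⟨3166, -3, -1828, 6, -56, 984, 294854, 0, 0, 0, 0, 0, 0⟩))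
    (.leaf (.box ⟨4658, -2, 344, 6, -55, 1656, 520371, 0, 0, 0, 0, 0, 0⟩ ⟨0, 0, 0, 0, 0, 0, 417285, 0, 0, 0, 0, 0, 0⟩ ⟨0, 0, 0, 0, 0, 0, 417285, 0, 0, 0, 0, 0, 0⟩ ⟨0, 0, 0, 0, 0, 0, 348288, 0, 0, 0, 0, 0, 0⟩ ⟨0, 0, 0, 0, 0, 0, 348288, 0, 0, 0, 0, 0, 0⟩ ⟨3927, -2, 218, 6, -80, 1375, 298870, 0, 0, 0, 0, 0, 0⟩))))

/-- A piece of the tree. -/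
noncomputable def tree2 : Tree LeafX :=
  .s1
    (.leaf (.box ⟨2048, -1, 1013, 8, -15, 338, 501048, 0, 0, 0, 0, 0, 0⟩ ⟨0, 0, 0, 0, 0, 0, 401766, 0, 0, 0, 0, 0, 0⟩ ⟨0, 0, 0, 0, 0, 0, 401766, 0, 0, 0, 0, 0, 0⟩ ⟨0, 0, 0, 0, 0, 0, 335322, 0, 0, 0, 0, 0, 0⟩ ⟨0, 0, 0, 0, 0, 0, 335322, 0, 0, 0, 0, 0, 0⟩ ⟨2048, -2, 944, 13, -25, 330, 287736, 0, 0, 0, 0, 0, 0⟩))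
    (.s0
    (.s0
    (.leaf (.box ⟨2111, -4, -1404, 6, -26, 733, 509618, 0, 0, 0, 0, 0, 0⟩ ⟨0, 0, 0, 0, 0, 0, 408662, 0, 0, 0, 0, 0, 0⟩ ⟨0, 0, 0, 0, 0, 0, 408662, 0, 0, 0, 0, 0, 0⟩ ⟨0, 0, 0, 0, 0, 0, 341092, 0, 0, 0, 0, 0, 0⟩ ⟨0, 0, 0, 0, 0, 0, 341092, 0, 0, 0, 0, 0, 0⟩ ⟨2048, -5, -1382, 9, -45, 718, 292695, 0, 0, 0, 0, 0, 0⟩))
    (.leaf (.box ⟨2906, -4, -336, 6, -26, 678, 513125, 0, 0, 0, 0, 0, 0⟩ ⟨0, 0, 0, 0, 0, 0, 411476, 0, 0, 0, 0, 0, 0⟩ ⟨0, 0, 0, 0, 0, 0, 411476, 0, 0, 0, 0, 0, 0⟩ ⟨0, 0, 0, 0, 0, 0, 343440, 0, 0, 0, 0, 0, 0⟩ ⟨0, 0, 0, 0, 0, 0, 343440, 0, 0, 0, 0, 0, 0⟩ ⟨2048, -5, -292, 8, -31, 466, 294711, 0, 0, 0, 0, 0, 0⟩)))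
    (.leaf (.box ⟨2048, -3, 1074, 7, -22, 499, 517934, 0, 0, 0, 0, 0, 0⟩ ⟨0, 0, 0, 0, 0, 0, 415332, 0, 0, 0, 0, 0, 0⟩ ⟨0, 0, 0, 0, 0, 0, 415332, 0, 0, 0, 0, 0, 0⟩ ⟨0, 0, 0, 0, 0, 0, 346659, 0, 0, 0, 0, 0, 0⟩ ⟨0, 0, 0, 0, 0, 0, 346659, 0, 0, 0, 0, 0, 0⟩ ⟨2048, -6, 1008, 12, -37, 488, 297473, 0, 0, 0, 0, 0, 0⟩)))

/-- A piece of the tree. -/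
noncomputable def tree3 : Tree LeafX :=
  .s1
    (.s3
    (.s0
    (.s2
    (.leaf (.box ⟨3216, -5, -8373, 6, -80, 3692, 849800, 0, 0, 0, 0, 0, 0⟩ ⟨0, 0, 0, 0, 0, 0, 704185, 0, 0, 0, 0, 0, 0⟩ ⟨0, 0, 0, 0, 0, 0, 704185, 0, 0, 0, 0, 0, 0⟩ ⟨0, 0, 0, 0, 0, 0, 601173, 0, 0, 0, 0, 0, 0⟩ ⟨0, 0, 0, 0, 0, 0, 601173, 0, 0, 0, 0, 0, 0⟩ ⟨1917, -5, -5061, 6, -76, 2170, 524452, 0, 0, 0, 0, 0, 0⟩))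
    (.leaf (.box ⟨1417, -4, -3998, 6, -46, 2095, 818198, 0, 0, 0, 0, 0, 0⟩ ⟨0, 0, 0, 0, 0, 0, 677999, 0, 0, 0, 0, 0, 0⟩ ⟨0, 0, 0, 0, 0, 0, 677999, 0, 0, 0, 0, 0, 0⟩ ⟨0, 0, 0, 0, 0, 0, 578818, 0, 0, 0, 0, 0, 0⟩ ⟨0, 0, 0, 0, 0, 0, 578818, 0, 0, 0, 0, 0, 0⟩ ⟨1269, -4, -3320, 6, -58, 1631, 504951, 0, 0, 0, 0, 0, 0⟩)))
    (.leaf (.box ⟨4075, -5, -3058, 6, -45, 1939, 820378, 0, 0, 0, 0, 0, 0⟩ ⟨0, 0, 0, 0, 0, 0, 679809, 0, 0, 0, 0, 0, 0⟩ ⟨0, 0, 0, 0, 0, 0, 679809, 0, 0, 0, 0, 0, 0⟩ ⟨0, 0, 0, 0, 0, 0, 580365, 0, 0, 0, 0, 0, 0⟩ ⟨0, 0, 0, 0, 0, 0, 580365, 0, 0, 0, 0, 0, 0⟩ ⟨2048, -5, -1629, 6, -30, 838, 506301, 0, 0, 0, 0, 0, 0⟩)))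
    (.s3
    (.s2
    (.leaf (.box ⟨1907, -4, -2739, 6, -36, 1316, 690278, 0, 0, 0, 0, 0, 0⟩ ⟨0, 0, 0, 0, 0, 0, 560922, 0, 0, 0, 0, 0, 0⟩ ⟨0, 0, 0, 0, 0, 0, 560922, 0, 0, 0, 0, 0, 0⟩ ⟨0, 0, 0, 0, 0, 0, 472396, 0, 0, 0, 0, 0, 0⟩ ⟨0, 0, 0, 0, 0, 0, 472396, 0, 0, 0, 0, 0, 0⟩ ⟨1448, -4, -2176, 6, -46, 996, 408004, 0, 0, 0, 0, 0, 0⟩))
    (.leaf (.box ⟨2321, -4, -3194, 6, -49, 1762, 664650, 0, 0, 0, 0, 0, 0⟩ ⟨0, 0, 0, 0, 0, 0, 540101, 0, 0, 0, 0, 0, 0⟩ ⟨0, 0, 0, 0, 0, 0, 540101, 0, 0, 0, 0, 0, 0⟩ ⟨0, 0, 0, 0, 0, 0, 454864, 0, 0, 0, 0, 0, 0⟩ ⟨0, 0, 0, 0, 0, 0, 454864, 0, 0, 0, 0, 0, 0⟩ ⟨1421, -4, -2083, 6, -51, 1089, 392863, 0, 0, 0, 0, 0, 0⟩)))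
    (.leaf (.box ⟨1545, -3, -2683, 6, -45, 1343, 559556, 0, 0, 0, 0, 0, 0⟩ ⟨0, 0, 0, 0, 0, 0, 448762, 0, 0, 0, 0, 0, 0⟩ ⟨0, 0, 0, 0, 0, 0, 448762, 0, 0, 0, 0, 0, 0⟩ ⟨0, 0, 0, 0, 0, 0, 374592, 0, 0, 0, 0, 0, 0⟩ ⟨0, 0, 0, 0, 0, 0, 374592, 0, 0, 0, 0, 0, 0⟩ ⟨1105, -4, -2048, 8, -56, 967, 321461, 0, 0, 0, 0, 0, 0⟩))))
    (.s3
    (.s3
    (.s0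
    (.leaf (.box ⟨7835, -3, -9848, 6, -106, 6380, 1082040, 0, 0, 0, 0, 0, 0⟩ ⟨0, 0, 0, 0, 0, 0, 926060, 0, 0, 0, 0, 0, 0⟩ ⟨0, 0, 0, 0, 0, 0, 926060, 0, 0, 0, 0, 0, 0⟩ ⟨0, 0, 0, 0, 0, 0, 809384, 0, 0, 0, 0, 0, 0⟩ ⟨0, 0, 0, 0, 0, 0, 809384, 0, 0, 0, 0, 0, 0⟩ ⟨4681, -3, -5888, 6, -80, 3212, 718818, 0, 0, 0, 0, 0, 0⟩))
    (.s2
    (.leaf (.box ⟨1789, -5, -5570, 6, -42, 2569, 1125981, 0, 0, 0, 0, 0, 0⟩ ⟨0, 0, 0, 0, 0, 0, 963669, 0, 0, 0, 0, 0, 0⟩ ⟨0, 0, 0, 0, 0, 0, 963669, 0, 0, 0, 0, 0, 0⟩ ⟨0, 0, 0, 0, 0, 0, 842257, 0, 0, 0, 0, 0, 0⟩ ⟨0, 0, 0, 0, 0, 0, 842257, 0, 0, 0, 0, 0, 0⟩ ⟨2699, -5, -8396, 6, -95, 3821, 748014, 0, 0, 0, 0, 0, 0⟩))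
    (.leaf (.box ⟨3562, -4, -10970, 6, -105, 6192, 1084595, 0, 0, 0, 0, 0, 0⟩ ⟨0, 0, 0, 0, 0, 0, 928252, 0, 0, 0, 0, 0, 0⟩ ⟨0, 0, 0, 0, 0, 0, 928252, 0, 0, 0, 0, 0, 0⟩ ⟨0, 0, 0, 0, 0, 0, 811303, 0, 0, 0, 0, 0, 0⟩ ⟨0, 0, 0, 0, 0, 0, 811303, 0, 0, 0, 0, 0, 0⟩ ⟨1215, -4, -3731, 6, -53, 2074, 720525, 0, 0, 0, 0, 0, 0⟩))))
    (.s2
    (.leaf (.box ⟨2846, -3, -4212, 6, -47, 2228, 864235, 0, 0, 0, 0, 0, 0⟩ ⟨0, 0, 0, 0, 0, 0, 716167, 0, 0, 0, 0, 0, 0⟩ ⟨0, 0, 0, 0, 0, 0, 716167, 0, 0, 0, 0, 0, 0⟩ ⟨0, 0, 0, 0, 0, 0, 611414, 0, 0, 0, 0, 0, 0⟩ ⟨0, 0, 0, 0, 0, 0, 611414, 0, 0, 0, 0, 0, 0⟩ ⟨2193, -3, -3262, 6, -57, 1682, 533395, 0, 0, 0, 0, 0, 0⟩))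
    (.s2
    (.leaf (.box ⟨4461, -3, -6545, 6, -86, 3996, 847700, 0, 0, 0, 0, 0, 0⟩ ⟨0, 0, 0, 0, 0, 0, 702467, 0, 0, 0, 0, 0, 0⟩ ⟨0, 0, 0, 0, 0, 0, 702467, 0, 0, 0, 0, 0, 0⟩ ⟨0, 0, 0, 0, 0, 0, 599719, 0, 0, 0, 0, 0, 0⟩ ⟨0, 0, 0, 0, 0, 0, 599719, 0, 0, 0, 0, 0, 0⟩ ⟨2272, -3, -2798, 6, -82, 2344, 523193, 0, 0, 0, 0, 0, 0⟩))
    (.leaf (.box ⟨4763, -3, -6669, 6, -95, 4346, 831413, 0, 0, 0, 0, 0, 0⟩ ⟨0, 0, 0, 0, 0, 0, 688973, 0, 0, 0, 0, 0, 0⟩ ⟨0, 0, 0, 0, 0, 0, 688973, 0, 0, 0, 0, 0, 0⟩ ⟨0, 0, 0, 0, 0, 0, 588201, 0, 0, 0, 0, 0, 0⟩ ⟨0, 0, 0, 0, 0, 0, 588201, 0, 0, 0, 0, 0, 0⟩ ⟨2305, -3, -3250, 6, -72, 2056, 513145, 0, 0, 0, 0, 0, 0⟩)))))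
    (.s0
    (.leaf (.box ⟨4210, -2, -6208, 6, -129, 4079, 568189, 0, 0, 0, 0, 0, 0⟩ ⟨0, 0, 0, 0, 0, 0, 455665, 0, 0, 0, 0, 0, 0⟩ ⟨0, 0, 0, 0, 0, 0, 455665, 0, 0, 0, 0, 0, 0⟩ ⟨0, 0, 0, 0, 0, 0, 380342, 0, 0, 0, 0, 0, 0⟩ ⟨0, 0, 0, 0, 0, 0, 380342, 0, 0, 0, 0, 0, 0⟩ ⟨3814, -2, -5228, 6, -149, 2716, 326388, 0, 0, 0, 0, 0, 0⟩))
    (.s3
    (.leaf (.box ⟨2338, -3, -7335, 6, -103, 3799, 676846, 0, 0, 0, 0, 0, 0⟩ ⟨0, 0, 0, 0, 0, 0, 550022, 0, 0, 0, 0, 0, 0⟩ ⟨0, 0, 0, 0, 0, 0, 550022, 0, 0, 0, 0, 0, 0⟩ ⟨0, 0, 0, 0, 0, 0, 463225, 0, 0, 0, 0, 0, 0⟩ ⟨0, 0, 0, 0, 0, 0, 463225, 0, 0, 0, 0, 0, 0⟩ ⟨1569, -3, -4894, 6, -113, 2453, 400088, 0, 0, 0, 0, 0, 0⟩))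
    (.leaf (.box ⟨1882, -3, -5921, 6, -99, 3074, 569859, 0, 0, 0, 0, 0, 0⟩ ⟨0, 0, 0, 0, 0, 0, 457036, 0, 0, 0, 0, 0, 0⟩ ⟨0, 0, 0, 0, 0, 0, 457036, 0, 0, 0, 0, 0, 0⟩ ⟨0, 0, 0, 0, 0, 0, 381505, 0, 0, 0, 0, 0, 0⟩ ⟨0, 0, 0, 0, 0, 0, 381505, 0, 0, 0, 0, 0, 0⟩ ⟨1028, -3, -3223, 6, -90, 1609, 327397, 0, 0, 0, 0, 0, 0⟩)))))

/-- A piece of the tree. -/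
noncomputable def tree4 : Tree LeafX :=
  .s1
    (.leaf (.box ⟨2237, -4, 682, 6, -27, 690, 562826, 0, 0, 0, 0, 0, 0⟩ ⟨0, 0, 0, 0, 0, 0, 451336, 0, 0, 0, 0, 0, 0⟩ ⟨0, 0, 0, 0, 0, 0, 451336, 0, 0, 0, 0, 0, 0⟩ ⟨0, 0, 0, 0, 0, 0, 376713, 0, 0, 0, 0, 0, 0⟩ ⟨0, 0, 0, 0, 0, 0, 376713, 0, 0, 0, 0, 0, 0⟩ ⟨2048, -8, 576, 10, -42, 622, 323264, 0, 0, 0, 0, 0, 0⟩))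
    (.s3
    (.s0
    (.s1
    (.leaf (.box ⟨4658, -5, -4234, 6, -70, 2980, 835829, 0, 0, 0, 0, 0, 0⟩ ⟨0, 0, 0, 0, 0, 0, 692615, 0, 0, 0, 0, 0, 0⟩ ⟨0, 0, 0, 0, 0, 0, 692615, 0, 0, 0, 0, 0, 0⟩ ⟨0, 0, 0, 0, 0, 0, 591300, 0, 0, 0, 0, 0, 0⟩ ⟨0, 0, 0, 0, 0, 0, 591300, 0, 0, 0, 0, 0, 0⟩ ⟨2562, -5, -2374, 6, -53, 1381, 515842, 0, 0, 0, 0, 0, 0⟩))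
    (.s3
    (.leaf (.box ⟨5720, -5, -9484, 6, -92, 5255, 1095638, 0, 0, 0, 0, 0, 0⟩ ⟨0, 0, 0, 0, 0, 0, 937705, 0, 0, 0, 0, 0, 0⟩ ⟨0, 0, 0, 0, 0, 0, 937705, 0, 0, 0, 0, 0, 0⟩ ⟨0, 0, 0, 0, 0, 0, 819566, 0, 0, 0, 0, 0, 0⟩ ⟨0, 0, 0, 0, 0, 0, 819566, 0, 0, 0, 0, 0, 0⟩ ⟨2456, -5, -4076, 6, -59, 2228, 727864, 0, 0, 0, 0, 0, 0⟩))
    (.leaf (.box ⟨3950, -5, -8367, 6, -102, 4519, 841967, 0, 0, 0, 0, 0, 0⟩ ⟨0, 0, 0, 0, 0, 0, 697734, 0, 0, 0, 0, 0, 0⟩ ⟨0, 0, 0, 0, 0, 0, 697734, 0, 0, 0, 0, 0, 0⟩ ⟨0, 0, 0, 0, 0, 0, 595689, 0, 0, 0, 0, 0, 0⟩ ⟨0, 0, 0, 0, 0, 0, 595689, 0, 0, 0, 0, 0, 0⟩ ⟨1633, -5, -3523, 6, -68, 1860, 519684, 0, 0, 0, 0, 0, 0⟩))))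
    (.leaf (.box ⟨5836, -5, -2860, 6, -44, 1787, 839790, 0, 0, 0, 0, 0, 0⟩ ⟨0, 0, 0, 0, 0, 0, 695901, 0, 0, 0, 0, 0, 0⟩ ⟨0, 0, 0, 0, 0, 0, 695901, 0, 0, 0, 0, 0, 0⟩ ⟨0, 0, 0, 0, 0, 0, 594107, 0, 0, 0, 0, 0, 0⟩ ⟨0, 0, 0, 0, 0, 0, 594107, 0, 0, 0, 0, 0, 0⟩ ⟨3677, -5, -1839, 6, -45, 1127, 518292, 0, 0, 0, 0, 0, 0⟩)))
    (.s1
    (.leaf (.box ⟨2474, -4, -1822, 6, -38, 1080, 571574, 0, 0, 0, 0, 0, 0⟩ ⟨0, 0, 0, 0, 0, 0, 458401, 0, 0, 0, 0, 0, 0⟩ ⟨0, 0, 0, 0, 0, 0, 458401, 0, 0, 0, 0, 0, 0⟩ ⟨0, 0, 0, 0, 0, 0, 382638, 0, 0, 0, 0, 0, 0⟩ ⟨0, 0, 0, 0, 0, 0, 382638, 0, 0, 0, 0, 0, 0⟩ ⟨2048, -5, -1599, 7, -50, 807, 328366, 0, 0, 0, 0, 0, 0⟩))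
    (.s3
    (.leaf (.box ⟨3335, -4, -3684, 6, -55, 1905, 683793, 0, 0, 0, 0, 0, 0⟩ ⟨0, 0, 0, 0, 0, 0, 555673, 0, 0, 0, 0, 0, 0⟩ ⟨0, 0, 0, 0, 0, 0, 555673, 0, 0, 0, 0, 0, 0⟩ ⟨0, 0, 0, 0, 0, 0, 467988, 0, 0, 0, 0, 0, 0⟩ ⟨0, 0, 0, 0, 0, 0, 467988, 0, 0, 0, 0, 0, 0⟩ ⟨1813, -4, -2048, 6, -50, 1030, 404204, 0, 0, 0, 0, 0, 0⟩))
    (.leaf (.box ⟨1634, -4, -2373, 6, -57, 1678, 575730, 0, 0, 0, 0, 0, 0⟩ ⟨0, 0, 0, 0, 0, 0, 461753, 0, 0, 0, 0, 0, 0⟩ ⟨0, 0, 0, 0, 0, 0, 461753, 0, 0, 0, 0, 0, 0⟩ ⟨0, 0, 0, 0, 0, 0, 385446, 0, 0, 0, 0, 0, 0⟩ ⟨0, 0, 0, 0, 0, 0, 385446, 0, 0, 0, 0, 0, 0⟩ ⟨1338, -5, -2048, 9, -81, 1383, 330782, 0, 0, 0, 0, 0, 0⟩)))))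

/-- A piece of the tree. -/
noncomputable def tree5 : Tree LeafX :=
  .s2
    (.s0
    (.s1
    (.leaf (.box ⟨2335, -4, -1738, 6, -34, 1029, 537989, 0, 0, 0, 0, 0, 0⟩ ⟨0, 0, 0, 0, 0, 0, 431416, 0, 0, 0, 0, 0, 0⟩ ⟨0, 0, 0, 0, 0, 0, 431416, 0, 0, 0, 0, 0, 0⟩ ⟨0, 0, 0, 0, 0, 0, 360085, 0, 0, 0, 0, 0, 0⟩ ⟨0, 0, 0, 0, 0, 0, 360085, 0, 0, 0, 0, 0, 0⟩ ⟨2048, -5, -1579, 7, -48, 829, 308995, 0, 0, 0, 0, 0, 0⟩))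
    (.s3
    (.leaf (.box ⟨4151, -4, -5043, 6, -78, 3494, 799290, 0, 0, 0, 0, 0, 0⟩ ⟨0, 0, 0, 0, 0, 0, 662332, 0, 0, 0, 0, 0, 0⟩ ⟨0, 0, 0, 0, 0, 0, 662332, 0, 0, 0, 0, 0, 0⟩ ⟨0, 0, 0, 0, 0, 0, 565443, 0, 0, 0, 0, 0, 0⟩ ⟨0, 0, 0, 0, 0, 0, 565443, 0, 0, 0, 0, 0, 0⟩ ⟨2255, -4, -2735, 6, -67, 1844, 493283, 0, 0, 0, 0, 0, 0⟩))
    (.leaf (.box ⟨2369, -3, -3198, 6, -69, 2134, 546462, 0, 0, 0, 0, 0, 0⟩ ⟨0, 0, 0, 0, 0, 0, 438247, 0, 0, 0, 0, 0, 0⟩ ⟨0, 0, 0, 0, 0, 0, 438247, 0, 0, 0, 0, 0, 0⟩ ⟨0, 0, 0, 0, 0, 0, 365807, 0, 0, 0, 0, 0, 0⟩ ⟨0, 0, 0, 0, 0, 0, 365807, 0, 0, 0, 0, 0, 0⟩ ⟨1485, -3, -2048, 7, -73, 1301, 313917, 0, 0, 0, 0, 0, 0⟩))))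
    (.s3
    (.s1
    (.leaf (.box ⟨3449, -5, 865, 6, -29, 1080, 795441, 0, 0, 0, 0, 0, 0⟩ ⟨0, 0, 0, 0, 0, 0, 659148, 0, 0, 0, 0, 0, 0⟩ ⟨0, 0, 0, 0, 0, 0, 659148, 0, 0, 0, 0, 0, 0⟩ ⟨0, 0, 0, 0, 0, 0, 562728, 0, 0, 0, 0, 0, 0⟩ ⟨0, 0, 0, 0, 0, 0, 562728, 0, 0, 0, 0, 0, 0⟩ ⟨2105, -5, 487, 6, -28, 649, 490917, 0, 0, 0, 0, 0, 0⟩))
    (.leaf (.box ⟨3817, -5, -1105, 6, -36, 1476, 806125, 0, 0, 0, 0, 0, 0⟩ ⟨0, 0, 0, 0, 0, 0, 668003, 0, 0, 0, 0, 0, 0⟩ ⟨0, 0, 0, 0, 0, 0, 668003, 0, 0, 0, 0, 0, 0⟩ ⟨0, 0, 0, 0, 0, 0, 570289, 0, 0, 0, 0, 0, 0⟩ ⟨0, 0, 0, 0, 0, 0, 570289, 0, 0, 0, 0, 0, 0⟩ ⟨2048, -6, 179, 7, -40, 1025, 497513, 0, 0, 0, 0, 0, 0⟩)))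
    (.leaf (.box ⟨2048, -5, 218, 8, -33, 887, 543966, 0, 0, 0, 0, 0, 0⟩ ⟨0, 0, 0, 0, 0, 0, 436261, 0, 0, 0, 0, 0, 0⟩ ⟨0, 0, 0, 0, 0, 0, 436261, 0, 0, 0, 0, 0, 0⟩ ⟨0, 0, 0, 0, 0, 0, 364157, 0, 0, 0, 0, 0, 0⟩ ⟨0, 0, 0, 0, 0, 0, 364157, 0, 0, 0, 0, 0, 0⟩ ⟨2048, -6, 697, 10, -44, 684, 312507, 0, 0, 0, 0, 0, 0⟩))))
    (.leaf (.box ⟨2048, -5, 551, 7, -20, 567, 517604, 0, 0, 0, 0, 0, 0⟩ ⟨0, 0, 0, 0, 0, 0, 415071, 0, 0, 0, 0, 0, 0⟩ ⟨0, 0, 0, 0, 0, 0, 415071, 0, 0, 0, 0, 0, 0⟩ ⟨0, 0, 0, 0, 0, 0, 346443, 0, 0, 0, 0, 0, 0⟩ ⟨0, 0, 0, 0, 0, 0, 346443, 0, 0, 0, 0, 0, 0⟩ ⟨2048, -9, 380, 12, -36, 579, 297289, 0, 0, 0, 0, 0, 0⟩))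

/-- A piece of the tree. -/
noncomputable def tree6 : Tree LeafX :=
  .s0
    (.leaf (.box ⟨4647, 2, 3340, 6, -20, 579, 518839, 0, 0, 0, 0, 0, 0⟩ ⟨0, 0, 0, 0, 0, 0, 415872, 0, 0, 0, 0, 0, 0⟩ ⟨0, 0, 0, 0, 0, 0, 415872, 0, 0, 0, 0, 0, 0⟩ ⟨0, 0, 0, 0, 0, 0, 347006, 0, 0, 0, 0, 0, 0⟩ ⟨0, 0, 0, 0, 0, 0, 347006, 0, 0, 0, 0, 0, 0⟩ ⟨2558, 2, 1848, 6, -19, 321, 297707, 0, 0, 0, 0, 0, 0⟩))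
    (.leaf (.box ⟨4315, 2, 2534, 6, -31, 915, 526206, 0, 0, 0, 0, 0, 0⟩ ⟨0, 0, 0, 0, 0, 0, 421960, 0, 0, 0, 0, 0, 0⟩ ⟨0, 0, 0, 0, 0, 0, 421960, 0, 0, 0, 0, 0, 0⟩ ⟨0, 0, 0, 0, 0, 0, 352188, 0, 0, 0, 0, 0, 0⟩ ⟨0, 0, 0, 0, 0, 0, 352188, 0, 0, 0, 0, 0, 0⟩ ⟨2303, 2, 1361, 6, -29, 494, 302216, 0, 0, 0, 0, 0, 0⟩))

/-- A piece of the tree. -/
noncomputable def tree7 : Tree LeafX :=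
  .s0
    (.leaf (.box ⟨5278, -1, 68, 6, -80, 2381, 531549, 0, 0, 0, 0, 0, 0⟩ ⟨0, 0, 0, 0, 0, 0, 426250, 0, 0, 0, 0, 0, 0⟩ ⟨0, 0, 0, 0, 0, 0, 426250, 0, 0, 0, 0, 0, 0⟩ ⟨0, 0, 0, 0, 0, 0, 355772, 0, 0, 0, 0, 0, 0⟩ ⟨0, 0, 0, 0, 0, 0, 355772, 0, 0, 0, 0, 0, 0⟩ ⟨2937, -1, 7, 6, -77, 1314, 305293, 0, 0, 0, 0, 0, 0⟩))
    (.s2
    (.s3
    (.leaf (.box ⟨9029, -1, -5286, 6, -111, 5142, 844747, 0, 0, 0, 0, 0, 0⟩ ⟨0, 0, 0, 0, 0, 0, 699997, 0, 0, 0, 0, 0, 0⟩ ⟨0, 0, 0, 0, 0, 0, 699997, 0, 0, 0, 0, 0, 0⟩ ⟨0, 0, 0, 0, 0, 0, 597597, 0, 0, 0, 0, 0, 0⟩ ⟨0, 0, 0, 0, 0, 0, 597597, 0, 0, 0, 0, 0, 0⟩ ⟨6412, -1, -4698, 6, -82, 2351, 521332, 0, 0, 0, 0, 0, 0⟩))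
    (.leaf (.box ⟨3832, -1, -2756, 6, -85, 2691, 577456, 0, 0, 0, 0, 0, 0⟩ ⟨0, 0, 0, 0, 0, 0, 463093, 0, 0, 0, 0, 0, 0⟩ ⟨0, 0, 0, 0, 0, 0, 463093, 0, 0, 0, 0, 0, 0⟩ ⟨0, 0, 0, 0, 0, 0, 386540, 0, 0, 0, 0, 0, 0⟩ ⟨0, 0, 0, 0, 0, 0, 386540, 0, 0, 0, 0, 0, 0⟩ ⟨3004, -1, -2199, 6, -115, 2093, 331706, 0, 0, 0, 0, 0, 0⟩)))
    (.leaf (.box ⟨2836, -2, -1390, 6, -58, 1728, 534229, 0, 0, 0, 0, 0, 0⟩ ⟨0, 0, 0, 0, 0, 0, 428402, 0, 0, 0, 0, 0, 0⟩ ⟨0, 0, 0, 0, 0, 0, 428402, 0, 0, 0, 0, 0, 0⟩ ⟨0, 0, 0, 0, 0, 0, 357569, 0, 0, 0, 0, 0, 0⟩ ⟨0, 0, 0, 0, 0, 0, 357569, 0, 0, 0, 0, 0, 0⟩ ⟨2501, -2, -1249, 6, -87, 1494, 306836, 0, 0, 0, 0, 0, 0⟩)))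

/-- A piece of the tree. -/
noncomputable def tree8 : Tree LeafX :=
  .s2
    (.s1
    (.s3
    (.s0
    (.s3
    (.s2
    (.leaf (.box ⟨2221, -4, -7434, 6, -55, 3384, 1144471, 0, 0, 0, 0, 0, 0⟩ ⟨0, 0, 0, 0, 0, 0, 979493, 0, 0, 0, 0, 0, 0⟩ ⟨0, 0, 0, 0, 0, 0, 979493, 0, 0, 0, 0, 0, 0⟩ ⟨0, 0, 0, 0, 0, 0, 856087, 0, 0, 0, 0, 0, 0⟩ ⟨0, 0, 0, 0, 0, 0, 856087, 0, 0, 0, 0, 0, 0⟩ ⟨3460, -4, -11691, 6, -130, 5286, 760296, 0, 0, 0, 0, 0, 0⟩))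
    (.leaf (.box ⟨2516, -4, -9497, 6, -88, 5210, 1102859, 0, 0, 0, 0, 0, 0⟩ ⟨0, 0, 0, 0, 0, 0, 943882, 0, 0, 0, 0, 0, 0⟩ ⟨0, 0, 0, 0, 0, 0, 943882, 0, 0, 0, 0, 0, 0⟩ ⟨0, 0, 0, 0, 0, 0, 824963, 0, 0, 0, 0, 0, 0⟩ ⟨0, 0, 0, 0, 0, 0, 824963, 0, 0, 0, 0, 0, 0⟩ ⟨1846, -4, -6910, 6, -96, 3760, 732656, 0, 0, 0, 0, 0, 0⟩)))
    (.leaf (.box ⟨3620, -3, -10972, 6, -124, 5643, 847467, 0, 0, 0, 0, 0, 0⟩ ⟨0, 0, 0, 0, 0, 0, 702284, 0, 0, 0, 0, 0, 0⟩ ⟨0, 0, 0, 0, 0, 0, 702284, 0, 0, 0, 0, 0, 0⟩ ⟨0, 0, 0, 0, 0, 0, 599569, 0, 0, 0, 0, 0, 0⟩ ⟨0, 0, 0, 0, 0, 0, 599569, 0, 0, 0, 0, 0, 0⟩ ⟨1546, -3, -4773, 6, -86, 2421, 523066, 0, 0, 0, 0, 0, 0⟩)))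
    (.s3
    (.s1
    (.leaf (.box ⟨3149, -5, -3857, 6, -44, 2467, 1106931, 0, 0, 0, 0, 0, 0⟩ ⟨0, 0, 0, 0, 0, 0, 947372, 0, 0, 0, 0, 0, 0⟩ ⟨0, 0, 0, 0, 0, 0, 947372, 0, 0, 0, 0, 0, 0⟩ ⟨0, 0, 0, 0, 0, 0, 828017, 0, 0, 0, 0, 0, 0⟩ ⟨0, 0, 0, 0, 0, 0, 828017, 0, 0, 0, 0, 0, 0⟩ ⟨4383, -5, -5218, 6, -76, 2843, 735370, 0, 0, 0, 0, 0, 0⟩))
    (.s2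
    (.leaf (.box ⟨4414, -5, -11860, 6, -90, 5394, 1154492, 0, 0, 0, 0, 0, 0⟩ ⟨0, 0, 0, 0, 0, 0, 988070, 0, 0, 0, 0, 0, 0⟩ ⟨0, 0, 0, 0, 0, 0, 988070, 0, 0, 0, 0, 0, 0⟩ ⟨0, 0, 0, 0, 0, 0, 863583, 0, 0, 0, 0, 0, 0⟩ ⟨0, 0, 0, 0, 0, 0, 863583, 0, 0, 0, 0, 0, 0⟩ ⟨2229, -5, -5975, 6, -68, 2702, 766954, 0, 0, 0, 0, 0, 0⟩))
    (.leaf (.box ⟨2356, -4, -5638, 6, -54, 3142, 1113478, 0, 0, 0, 0, 0, 0⟩ ⟨0, 0, 0, 0, 0, 0, 952970, 0, 0, 0, 0, 0, 0⟩ ⟨0, 0, 0, 0, 0, 0, 952970, 0, 0, 0, 0, 0, 0⟩ ⟨0, 0, 0, 0, 0, 0, 832907, 0, 0, 0, 0, 0, 0⟩ ⟨0, 0, 0, 0, 0, 0, 832907, 0, 0, 0, 0, 0, 0⟩ ⟨3397, -4, -8117, 6, -117, 4491, 739711, 0, 0, 0, 0, 0, 0⟩))))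
    (.s2
    (.leaf (.box ⟨4296, -4, -7683, 6, -85, 3844, 881494, 0, 0, 0, 0, 0, 0⟩ ⟨0, 0, 0, 0, 0, 0, 730489, 0, 0, 0, 0, 0, 0⟩ ⟨0, 0, 0, 0, 0, 0, 730489, 0, 0, 0, 0, 0, 0⟩ ⟨0, 0, 0, 0, 0, 0, 623653, 0, 0, 0, 0, 0, 0⟩ ⟨0, 0, 0, 0, 0, 0, 623653, 0, 0, 0, 0, 0, 0⟩ ⟨2022, -4, -3641, 6, -64, 1797, 544080, 0, 0, 0, 0, 0, 0⟩))
    (.leaf (.box ⟨2473, -4, -3861, 6, -53, 2338, 850667, 0, 0, 0, 0, 0, 0⟩ ⟨0, 0, 0, 0, 0, 0, 704947, 0, 0, 0, 0, 0, 0⟩ ⟨0, 0, 0, 0, 0, 0, 704947, 0, 0, 0, 0, 0, 0⟩ ⟨0, 0, 0, 0, 0, 0, 601849, 0, 0, 0, 0, 0, 0⟩ ⟨0, 0, 0, 0, 0, 0, 601849, 0, 0, 0, 0, 0, 0⟩ ⟨1747, -4, -2291, 6, -70, 1889, 525059, 0, 0, 0, 0, 0, 0⟩)))))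
    (.s3
    (.s0
    (.leaf (.box ⟨2474, -3, -7797, 6, -111, 4089, 688218, 0, 0, 0, 0, 0, 0⟩ ⟨0, 0, 0, 0, 0, 0, 559259, 0, 0, 0, 0, 0, 0⟩ ⟨0, 0, 0, 0, 0, 0, 559259, 0, 0, 0, 0, 0, 0⟩ ⟨0, 0, 0, 0, 0, 0, 471002, 0, 0, 0, 0, 0, 0⟩ ⟨0, 0, 0, 0, 0, 0, 471002, 0, 0, 0, 0, 0, 0⟩ ⟨1167, -3, -3701, 6, -87, 1905, 406804, 0, 0, 0, 0, 0, 0⟩))
    (.s2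
    (.leaf (.box ⟨2620, -4, -5750, 6, -77, 2858, 715890, 0, 0, 0, 0, 0, 0⟩ ⟨0, 0, 0, 0, 0, 0, 581756, 0, 0, 0, 0, 0, 0⟩ ⟨0, 0, 0, 0, 0, 0, 581756, 0, 0, 0, 0, 0, 0⟩ ⟨0, 0, 0, 0, 0, 0, 489954, 0, 0, 0, 0, 0, 0⟩ ⟨0, 0, 0, 0, 0, 0, 489954, 0, 0, 0, 0, 0, 0⟩ ⟨1305, -4, -2919, 6, -65, 1425, 423176, 0, 0, 0, 0, 0, 0⟩))
    (.leaf (.box ⟨2634, -4, -5179, 6, -85, 3036, 690875, 0, 0, 0, 0, 0, 0⟩ ⟨0, 0, 0, 0, 0, 0, 561433, 0, 0, 0, 0, 0, 0⟩ ⟨0, 0, 0, 0, 0, 0, 561433, 0, 0, 0, 0, 0, 0⟩ ⟨0, 0, 0, 0, 0, 0, 472841, 0, 0, 0, 0, 0, 0⟩ ⟨0, 0, 0, 0, 0, 0, 472841, 0, 0, 0, 0, 0, 0⟩ ⟨1145, -4, -2312, 6, -63, 1326, 408397, 0, 0, 0, 0, 0, 0⟩))))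
    (.s2
    (.leaf (.box ⟨1518, -3, -4109, 6, -64, 2039, 601224, 0, 0, 0, 0, 0, 0⟩ ⟨0, 0, 0, 0, 0, 0, 482181, 0, 0, 0, 0, 0, 0⟩ ⟨0, 0, 0, 0, 0, 0, 482181, 0, 0, 0, 0, 0, 0⟩ ⟨0, 0, 0, 0, 0, 0, 402488, 0, 0, 0, 0, 0, 0⟩ ⟨0, 0, 0, 0, 0, 0, 402488, 0, 0, 0, 0, 0, 0⟩ ⟨815, -3, -2263, 6, -60, 1098, 345401, 0, 0, 0, 0, 0, 0⟩))
    (.leaf (.box ⟨1508, -3, -3547, 6, -66, 2019, 579422, 0, 0, 0, 0, 0, 0⟩ ⟨0, 0, 0, 0, 0, 0, 464702, 0, 0, 0, 0, 0, 0⟩ ⟨0, 0, 0, 0, 0, 0, 464702, 0, 0, 0, 0, 0, 0⟩ ⟨0, 0, 0, 0, 0, 0, 387901, 0, 0, 0, 0, 0, 0⟩ ⟨0, 0, 0, 0, 0, 0, 387901, 0, 0, 0, 0, 0, 0⟩ ⟨863, -3, -2194, 6, -69, 1217, 332885, 0, 0, 0, 0, 0, 0⟩)))))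
    (.s3
    (.s3
    (.leaf (.box ⟨6095, -2, -9054, 6, -81, 4823, 1116262, 0, 0, 0, 0, 0, 0⟩ ⟨0, 0, 0, 0, 0, 0, 955342, 0, 0, 0, 0, 0, 0⟩ ⟨0, 0, 0, 0, 0, 0, 955342, 0, 0, 0, 0, 0, 0⟩ ⟨0, 0, 0, 0, 0, 0, 834972, 0, 0, 0, 0, 0, 0⟩ ⟨0, 0, 0, 0, 0, 0, 834972, 0, 0, 0, 0, 0, 0⟩ ⟨3542, -2, -5285, 6, -71, 2807, 741540, 0, 0, 0, 0, 0, 0⟩))
    (.leaf (.box ⟨4782, -2, -7238, 6, -88, 4036, 857616, 0, 0, 0, 0, 0, 0⟩ ⟨0, 0, 0, 0, 0, 0, 710673, 0, 0, 0, 0, 0, 0⟩ ⟨0, 0, 0, 0, 0, 0, 710673, 0, 0, 0, 0, 0, 0⟩ ⟨0, 0, 0, 0, 0, 0, 606719, 0, 0, 0, 0, 0, 0⟩ ⟨0, 0, 0, 0, 0, 0, 606719, 0, 0, 0, 0, 0, 0⟩ ⟨1985, -2, -3022, 6, -59, 1675, 529295, 0, 0, 0, 0, 0, 0⟩)))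
    (.leaf (.box ⟨2498, -1, -3888, 6, -72, 2275, 586033, 0, 0, 0, 0, 0, 0⟩ ⟨0, 0, 0, 0, 0, 0, 469960, 0, 0, 0, 0, 0, 0⟩ ⟨0, 0, 0, 0, 0, 0, 469960, 0, 0, 0, 0, 0, 0⟩ ⟨0, 0, 0, 0, 0, 0, 392265, 0, 0, 0, 0, 0, 0⟩ ⟨0, 0, 0, 0, 0, 0, 392265, 0, 0, 0, 0, 0, 0⟩ ⟨2215, -1, -3261, 6, -93, 1678, 336615, 0, 0, 0, 0, 0, 0⟩))))
    (.s1
    (.s3
    (.leaf (.box ⟨2066, -4, -2044, 6, -32, 1379, 786398, 0, 0, 0, 0, 0, 0⟩ ⟨0, 0, 0, 0, 0, 0, 651655, 0, 0, 0, 0, 0, 0⟩ ⟨0, 0, 0, 0, 0, 0, 651655, 0, 0, 0, 0, 0, 0⟩ ⟨0, 0, 0, 0, 0, 0, 556331, 0, 0, 0, 0, 0, 0⟩ ⟨0, 0, 0, 0, 0, 0, 556331, 0, 0, 0, 0, 0, 0⟩ ⟨2048, -5, -2033, 7, -51, 1344, 485336, 0, 0, 0, 0, 0, 0⟩))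
    (.leaf (.box ⟨1492, -3, -2441, 6, -53, 1543, 537776, 0, 0, 0, 0, 0, 0⟩ ⟨0, 0, 0, 0, 0, 0, 431295, 0, 0, 0, 0, 0, 0⟩ ⟨0, 0, 0, 0, 0, 0, 431295, 0, 0, 0, 0, 0, 0⟩ ⟨0, 0, 0, 0, 0, 0, 360012, 0, 0, 0, 0, 0, 0⟩ ⟨0, 0, 0, 0, 0, 0, 360012, 0, 0, 0, 0, 0, 0⟩ ⟨1214, -5, -2048, 9, -74, 1247, 308949, 0, 0, 0, 0, 0, 0⟩)))
    (.leaf (.box ⟨1580, -2, -2218, 6, -50, 1506, 542917, 0, 0, 0, 0, 0, 0⟩ ⟨0, 0, 0, 0, 0, 0, 435366, 0, 0, 0, 0, 0, 0⟩ ⟨0, 0, 0, 0, 0, 0, 435366, 0, 0, 0, 0, 0, 0⟩ ⟨0, 0, 0, 0, 0, 0, 363381, 0, 0, 0, 0, 0, 0⟩ ⟨0, 0, 0, 0, 0, 0, 363381, 0, 0, 0, 0, 0, 0⟩ ⟨1564, -2, -2128, 6, -77, 1320, 311822, 0, 0, 0, 0, 0, 0⟩)))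

/-- A piece of the tree. -/
noncomputable def tree9 : Tree LeafX :=
  .leaf (.box ⟨3830, 2, 440, 6, -34, 1027, 541556, 0, 0, 0, 0, 0, 0⟩ ⟨0, 0, 0, 0, 0, 0, 434241, 0, 0, 0, 0, 0, 0⟩ ⟨0, 0, 0, 0, 0, 0, 434241, 0, 0, 0, 0, 0, 0⟩ ⟨0, 0, 0, 0, 0, 0, 362422, 0, 0, 0, 0, 0, 0⟩ ⟨0, 0, 0, 0, 0, 0, 362422, 0, 0, 0, 0, 0, 0⟩ ⟨2426, 2, 273, 6, -38, 654, 310988, 0, 0, 0, 0, 0, 0⟩)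

/-- A piece of the tree. -/
noncomputable def tree10 : Tree LeafX :=
  .s1
    (.leaf (.box ⟨1614, 3, 2048, 23, -31, 452, 528997, 0, 0, 0, 0, 0, 0⟩ ⟨0, 0, 0, 0, 0, 0, 424126, 0, 0, 0, 0, 0, 0⟩ ⟨0, 0, 0, 0, 0, 0, 424126, 0, 0, 0, 0, 0, 0⟩ ⟨0, 0, 0, 0, 0, 0, 353956, 0, 0, 0, 0, 0, 0⟩ ⟨0, 0, 0, 0, 0, 0, 353956, 0, 0, 0, 0, 0, 0⟩ ⟨1651, 6, 2048, 40, -54, 453, 303708, 0, 0, 0, 0, 0, 77438811830⟩))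
    (.s2
    (.leaf (.box ⟨2048, -2, 1094, 24, -31, 543, 571570, 0, 0, 0, 0, 0, 0⟩ ⟨0, 0, 0, 0, 0, 0, 458348, 0, 0, 0, 0, 0, 0⟩ ⟨0, 0, 0, 0, 0, 0, 458348, 0, 0, 0, 0, 0, 0⟩ ⟨0, 0, 0, 0, 0, 0, 382566, 0, 0, 0, 0, 0, 0⟩ ⟨0, 0, 0, 0, 0, 0, 382566, 0, 0, 0, 0, 0, 0⟩ ⟨2048, -5, 932, 65, -39, 586, 328287, 0, 0, 0, 0, 0, 0⟩))
    (.leaf (.box ⟨2048, -2, 1495, 20, -26, 448, 536571, 0, 0, 0, 0, 0, 0⟩ ⟨0, 0, 0, 0, 0, 0, 430283, 0, 0, 0, 0, 0, 0⟩ ⟨0, 0, 0, 0, 0, 0, 430283, 0, 0, 0, 0, 0, 0⟩ ⟨0, 0, 0, 0, 0, 0, 359142, 0, 0, 0, 0, 0, 0⟩ ⟨0, 0, 0, 0, 0, 0, 359142, 0, 0, 0, 0, 0, 0⟩ ⟨2048, -3, 1340, 41, -54, 543, 308187, 0, 0, 0, 0, 0, 0⟩)))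

/-- A piece of the tree. -/
noncomputable def tree11 : Tree LeafX :=
  .s2
    (.s3
    (.s0
    (.s1
    (.leaf (.box ⟨2858, -5, -1214, 6, -43, 1752, 854620, 0, 0, 0, 0, 0, 0⟩ ⟨0, 0, 0, 0, 0, 0, 708190, 0, 0, 0, 0, 0, 0⟩ ⟨0, 0, 0, 0, 0, 0, 708190, 0, 0, 0, 0, 0, 0⟩ ⟨0, 0, 0, 0, 0, 0, 604598, 0, 0, 0, 0, 0, 0⟩ ⟨0, 0, 0, 0, 0, 0, 604598, 0, 0, 0, 0, 0, 0⟩ ⟨2507, -5, -1080, 6, -61, 1517, 527444, 0, 0, 0, 0, 0, 0⟩))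
    (.s3
    (.s2
    (.leaf (.box ⟨2986, -5, -3632, 6, -43, 2431, 1158011, 0, 0, 0, 0, 0, 0⟩ ⟨0, 0, 0, 0, 0, 0, 991088, 0, 0, 0, 0, 0, 0⟩ ⟨0, 0, 0, 0, 0, 0, 991088, 0, 0, 0, 0, 0, 0⟩ ⟨0, 0, 0, 0, 0, 0, 866224, 0, 0, 0, 0, 0, 0⟩ ⟨0, 0, 0, 0, 0, 0, 866224, 0, 0, 0, 0, 0, 0⟩ ⟨2618, -5, -3200, 6, -56, 2125, 769302, 0, 0, 0, 0, 0, 0⟩))
    (.leaf (.box ⟨5245, -4, -4839, 6, -79, 4330, 1118478, 0, 0, 0, 0, 0, 0⟩ ⟨0, 0, 0, 0, 0, 0, 957255, 0, 0, 0, 0, 0, 0⟩ ⟨0, 0, 0, 0, 0, 0, 957255, 0, 0, 0, 0, 0, 0⟩ ⟨0, 0, 0, 0, 0, 0, 836655, 0, 0, 0, 0, 0, 0⟩ ⟨0, 0, 0, 0, 0, 0, 836655, 0, 0, 0, 0, 0, 0⟩ ⟨3849, -4, -3695, 6, -90, 3269, 743042, 0, 0, 0, 0, 0, 0⟩)))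
    (.leaf (.box ⟨4179, -4, -5168, 6, -85, 3587, 859551, 0, 0, 0, 0, 0, 0⟩ ⟨0, 0, 0, 0, 0, 0, 712310, 0, 0, 0, 0, 0, 0⟩ ⟨0, 0, 0, 0, 0, 0, 712310, 0, 0, 0, 0, 0, 0⟩ ⟨0, 0, 0, 0, 0, 0, 608137, 0, 0, 0, 0, 0, 0⟩ ⟨0, 0, 0, 0, 0, 0, 608137, 0, 0, 0, 0, 0, 0⟩ ⟨2721, -4, -3407, 6, -89, 2328, 530545, 0, 0, 0, 0, 0, 0⟩))))
    (.leaf (.box ⟨3532, -4, -32, 6, -46, 1764, 860722, 0, 0, 0, 0, 0, 0⟩ ⟨0, 0, 0, 0, 0, 0, 713248, 0, 0, 0, 0, 0, 0⟩ ⟨0, 0, 0, 0, 0, 0, 713248, 0, 0, 0, 0, 0, 0⟩ ⟨0, 0, 0, 0, 0, 0, 608918, 0, 0, 0, 0, 0, 0⟩ ⟨0, 0, 0, 0, 0, 0, 608918, 0, 0, 0, 0, 0, 0⟩ ⟨3192, -4, -975, 6, -49, 1157, 531214, 0, 0, 0, 0, 0, 0⟩)))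
    (.s3
    (.s2
    (.leaf (.box ⟨2849, -4, -1963, 6, -33, 1101, 718577, 0, 0, 0, 0, 0, 0⟩ ⟨0, 0, 0, 0, 0, 0, 583952, 0, 0, 0, 0, 0, 0⟩ ⟨0, 0, 0, 0, 0, 0, 583952, 0, 0, 0, 0, 0, 0⟩ ⟨0, 0, 0, 0, 0, 0, 491812, 0, 0, 0, 0, 0, 0⟩ ⟨0, 0, 0, 0, 0, 0, 491812, 0, 0, 0, 0, 0, 0⟩ ⟨2048, -4, -1434, 7, -40, 790, 424785, 0, 0, 0, 0, 0, 0⟩))
    (.leaf (.box ⟨2755, -4, 139, 6, -41, 1322, 694513, 0, 0, 0, 0, 0, 0⟩ ⟨0, 0, 0, 0, 0, 0, 564401, 0, 0, 0, 0, 0, 0⟩ ⟨0, 0, 0, 0, 0, 0, 564401, 0, 0, 0, 0, 0, 0⟩ ⟨0, 0, 0, 0, 0, 0, 475347, 0, 0, 0, 0, 0, 0⟩ ⟨0, 0, 0, 0, 0, 0, 475347, 0, 0, 0, 0, 0, 0⟩ ⟨2048, -6, -393, 10, -63, 1213, 410566, 0, 0, 0, 0, 0, 0⟩)))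
    (.leaf (.box ⟨2283, -3, -1621, 6, -33, 907, 584813, 0, 0, 0, 0, 0, 0⟩ ⟨0, 0, 0, 0, 0, 0, 469055, 0, 0, 0, 0, 0, 0⟩ ⟨0, 0, 0, 0, 0, 0, 469055, 0, 0, 0, 0, 0, 0⟩ ⟨0, 0, 0, 0, 0, 0, 391552, 0, 0, 0, 0, 0, 0⟩ ⟨0, 0, 0, 0, 0, 0, 391552, 0, 0, 0, 0, 0, 0⟩ ⟨2048, -4, -1485, 8, -51, 812, 336028, 0, 0, 0, 0, 0, 0⟩))))
    (.s3
    (.s2
    (.leaf (.box ⟨2393, -4, -51, 6, -27, 1064, 825987, 0, 0, 0, 0, 0, 0⟩ ⟨0, 0, 0, 0, 0, 0, 684464, 0, 0, 0, 0, 0, 0⟩ ⟨0, 0, 0, 0, 0, 0, 684464, 0, 0, 0, 0, 0, 0⟩ ⟨0, 0, 0, 0, 0, 0, 584343, 0, 0, 0, 0, 0, 0⟩ ⟨0, 0, 0, 0, 0, 0, 584343, 0, 0, 0, 0, 0, 0⟩ ⟨2048, -5, 253, 8, -43, 1029, 509775, 0, 0, 0, 0, 0, 0⟩))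
    (.leaf (.box ⟨2345, -4, 143, 6, -27, 1029, 798374, 0, 0, 0, 0, 0, 0⟩ ⟨0, 0, 0, 0, 0, 0, 661584, 0, 0, 0, 0, 0, 0⟩ ⟨0, 0, 0, 0, 0, 0, 661584, 0, 0, 0, 0, 0, 0⟩ ⟨0, 0, 0, 0, 0, 0, 564812, 0, 0, 0, 0, 0, 0⟩ ⟨0, 0, 0, 0, 0, 0, 564812, 0, 0, 0, 0, 0, 0⟩ ⟨2048, -5, 98, 8, -37, 882, 492737, 0, 0, 0, 0, 0, 0⟩)))
    (.leaf (.box ⟨2048, -4, -517, 7, -39, 1026, 546115, 0, 0, 0, 0, 0, 0⟩ ⟨0, 0, 0, 0, 0, 0, 438001, 0, 0, 0, 0, 0, 0⟩ ⟨0, 0, 0, 0, 0, 0, 438001, 0, 0, 0, 0, 0, 0⟩ ⟨0, 0, 0, 0, 0, 0, 365619, 0, 0, 0, 0, 0, 0⟩ ⟨0, 0, 0, 0, 0, 0, 365619, 0, 0, 0, 0, 0, 0⟩ ⟨2048, -7, 223, 13, -66, 1002, 313767, 0, 0, 0, 0, 0, 0⟩)))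

/-- A piece of the tree. -/
noncomputable def tree12 : Tree LeafX :=
  .s2
    (.s3
    (.s0
    (.s3
    (.s2
    (.leaf (.box ⟨5047, -4, -9728, 6, -72, 4271, 1164660, 0, 0, 0, 0, 0, 0⟩ ⟨0, 0, 0, 0, 0, 0, 996773, 0, 0, 0, 0, 0, 0⟩ ⟨0, 0, 0, 0, 0, 0, 996773, 0, 0, 0, 0, 0, 0⟩ ⟨0, 0, 0, 0, 0, 0, 871190, 0, 0, 0, 0, 0, 0⟩ ⟨0, 0, 0, 0, 0, 0, 871190, 0, 0, 0, 0, 0, 0⟩ ⟨2621, -4, -5168, 6, -64, 2547, 773710, 0, 0, 0, 0, 0, 0⟩))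
    (.s3
    (.leaf (.box ⟨3881, -4, -6474, 6, -51, 3436, 1322818, 0, 0, 0, 0, 0, 0⟩ ⟨0, 0, 0, 0, 0, 0, 1161494, 0, 0, 0, 0, 0, 0⟩ ⟨0, 0, 0, 0, 0, 0, 1161494, 0, 0, 0, 0, 0, 0⟩ ⟨0, 0, 0, 0, 0, 0, 1035240, 0, 0, 0, 0, 0, 0⟩ ⟨0, 0, 0, 0, 0, 0, 1035240, 0, 0, 0, 0, 0, 0⟩ ⟨3096, -4, -5183, 6, -58, 2742, 933743, 0, 0, 0, 0, 0, 0⟩))
    (.leaf (.box ⟨3307, -3, -6108, 6, -56, 3236, 1124468, 0, 0, 0, 0, 0, 0⟩ ⟨0, 0, 0, 0, 0, 0, 962397, 0, 0, 0, 0, 0, 0⟩ ⟨0, 0, 0, 0, 0, 0, 962397, 0, 0, 0, 0, 0, 0⟩ ⟨0, 0, 0, 0, 0, 0, 841159, 0, 0, 0, 0, 0, 0⟩ ⟨0, 0, 0, 0, 0, 0, 841159, 0, 0, 0, 0, 0, 0⟩ ⟨2343, -3, -4365, 6, -60, 2301, 747049, 0, 0, 0, 0, 0, 0⟩))))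
    (.s2
    (.leaf (.box ⟨3563, -3, -8297, 6, -81, 3721, 894946, 0, 0, 0, 0, 0, 0⟩ ⟨0, 0, 0, 0, 0, 0, 741628, 0, 0, 0, 0, 0, 0⟩ ⟨0, 0, 0, 0, 0, 0, 741628, 0, 0, 0, 0, 0, 0⟩ ⟨0, 0, 0, 0, 0, 0, 633158, 0, 0, 0, 0, 0, 0⟩ ⟨0, 0, 0, 0, 0, 0, 633158, 0, 0, 0, 0, 0, 0⟩ ⟨1834, -3, -4312, 6, -68, 1924, 552369, 0, 0, 0, 0, 0, 0⟩))
    (.leaf (.box ⟨2911, -3, -5935, 6, -71, 3137, 863911, 0, 0, 0, 0, 0, 0⟩ ⟨0, 0, 0, 0, 0, 0, 715914, 0, 0, 0, 0, 0, 0⟩ ⟨0, 0, 0, 0, 0, 0, 715914, 0, 0, 0, 0, 0, 0⟩ ⟨0, 0, 0, 0, 0, 0, 611207, 0, 0, 0, 0, 0, 0⟩ ⟨0, 0, 0, 0, 0, 0, 611207, 0, 0, 0, 0, 0, 0⟩ ⟨1552, -3, -3213, 6, -62, 1686, 533220, 0, 0, 0, 0, 0, 0⟩))))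
    (.s3
    (.s1
    (.s2
    (.leaf (.box ⟨4260, -4, -4398, 6, -65, 3575, 1169249, 0, 0, 0, 0, 0, 0⟩ ⟨0, 0, 0, 0, 0, 0, 1000706, 0, 0, 0, 0, 0, 0⟩ ⟨0, 0, 0, 0, 0, 0, 1000706, 0, 0, 0, 0, 0, 0⟩ ⟨0, 0, 0, 0, 0, 0, 874631, 0, 0, 0, 0, 0, 0⟩ ⟨0, 0, 0, 0, 0, 0, 874631, 0, 0, 0, 0, 0, 0⟩ ⟨2750, -4, -2841, 6, -62, 2295, 776768, 0, 0, 0, 0, 0, 0⟩))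
    (.leaf (.box ⟨2969, -4, -2239, 6, -48, 2558, 1130306, 0, 0, 0, 0, 0, 0⟩ ⟨0, 0, 0, 0, 0, 0, 967378, 0, 0, 0, 0, 0, 0⟩ ⟨0, 0, 0, 0, 0, 0, 967378, 0, 0, 0, 0, 0, 0⟩ ⟨0, 0, 0, 0, 0, 0, 845503, 0, 0, 0, 0, 0, 0⟩ ⟨0, 0, 0, 0, 0, 0, 845503, 0, 0, 0, 0, 0, 0⟩ ⟨3528, -4, -2671, 6, -85, 3021, 750900, 0, 0, 0, 0, 0, 0⟩)))
    (.s2
    (.leaf (.box ⟨3381, -4, -6058, 6, -55, 3157, 1175015, 0, 0, 0, 0, 0, 0⟩ ⟨0, 0, 0, 0, 0, 0, 1005635, 0, 0, 0, 0, 0, 0⟩ ⟨0, 0, 0, 0, 0, 0, 1005635, 0, 0, 0, 0, 0, 0⟩ ⟨0, 0, 0, 0, 0, 0, 878936, 0, 0, 0, 0, 0, 0⟩ ⟨0, 0, 0, 0, 0, 0, 878936, 0, 0, 0, 0, 0, 0⟩ ⟨2344, -4, -4203, 6, -57, 2186, 780589, 0, 0, 0, 0, 0, 0⟩))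
    (.leaf (.box ⟨4604, -3, -6878, 6, -80, 4464, 1135171, 0, 0, 0, 0, 0, 0⟩ ⟨0, 0, 0, 0, 0, 0, 971537, 0, 0, 0, 0, 0, 0⟩ ⟨0, 0, 0, 0, 0, 0, 971537, 0, 0, 0, 0, 0, 0⟩ ⟨0, 0, 0, 0, 0, 0, 849134, 0, 0, 0, 0, 0, 0⟩ ⟨0, 0, 0, 0, 0, 0, 849134, 0, 0, 0, 0, 0, 0⟩ ⟨2921, -3, -4360, 6, -76, 2818, 754123, 0, 0, 0, 0, 0, 0⟩))))
    (.s2
    (.leaf (.box ⟨3649, -3, -4583, 6, -63, 2743, 898547, 0, 0, 0, 0, 0, 0⟩ ⟨0, 0, 0, 0, 0, 0, 744623, 0, 0, 0, 0, 0, 0⟩ ⟨0, 0, 0, 0, 0, 0, 744623, 0, 0, 0, 0, 0, 0⟩ ⟨0, 0, 0, 0, 0, 0, 635721, 0, 0, 0, 0, 0, 0⟩ ⟨0, 0, 0, 0, 0, 0, 635721, 0, 0, 0, 0, 0, 0⟩ ⟨2252, -3, -2847, 6, -63, 1692, 554609, 0, 0, 0, 0, 0, 0⟩))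
    (.leaf (.box ⟨4208, -3, -4296, 6, -58, 2440, 868641, 0, 0, 0, 0, 0, 0⟩ ⟨0, 0, 0, 0, 0, 0, 719843, 0, 0, 0, 0, 0, 0⟩ ⟨0, 0, 0, 0, 0, 0, 719843, 0, 0, 0, 0, 0, 0⟩ ⟨0, 0, 0, 0, 0, 0, 614567, 0, 0, 0, 0, 0, 0⟩ ⟨0, 0, 0, 0, 0, 0, 614567, 0, 0, 0, 0, 0, 0⟩ ⟨2945, -3, -3042, 6, -68, 1766, 536155, 0, 0, 0, 0, 0, 0⟩)))))
    (.s3
    (.s0
    (.leaf (.box ⟨2823, -3, -6362, 6, -86, 3115, 701585, 0, 0, 0, 0, 0, 0⟩ ⟨0, 0, 0, 0, 0, 0, 570125, 0, 0, 0, 0, 0, 0⟩ ⟨0, 0, 0, 0, 0, 0, 570125, 0, 0, 0, 0, 0, 0⟩ ⟨0, 0, 0, 0, 0, 0, 480155, 0, 0, 0, 0, 0, 0⟩ ⟨0, 0, 0, 0, 0, 0, 480155, 0, 0, 0, 0, 0, 0⟩ ⟨1427, -3, -3225, 6, -82, 1750, 414710, 0, 0, 0, 0, 0, 0⟩))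
    (.s2
    (.leaf (.box ⟨2023, -3, -3055, 6, -49, 1736, 729751, 0, 0, 0, 0, 0, 0⟩ ⟨0, 0, 0, 0, 0, 0, 593022, 0, 0, 0, 0, 0, 0⟩ ⟨0, 0, 0, 0, 0, 0, 593022, 0, 0, 0, 0, 0, 0⟩ ⟨0, 0, 0, 0, 0, 0, 499445, 0, 0, 0, 0, 0, 0⟩ ⟨0, 0, 0, 0, 0, 0, 499445, 0, 0, 0, 0, 0, 0⟩ ⟨1811, -3, -2754, 6, -74, 1550, 431374, 0, 0, 0, 0, 0, 0⟩))
    (.leaf (.box ⟨2649, -3, -3373, 6, -67, 2315, 705481, 0, 0, 0, 0, 0, 0⟩ ⟨0, 0, 0, 0, 0, 0, 573304, 0, 0, 0, 0, 0, 0⟩ ⟨0, 0, 0, 0, 0, 0, 573304, 0, 0, 0, 0, 0, 0⟩ ⟨0, 0, 0, 0, 0, 0, 482840, 0, 0, 0, 0, 0, 0⟩ ⟨0, 0, 0, 0, 0, 0, 482840, 0, 0, 0, 0, 0, 0⟩ ⟨1757, -3, -2280, 6, -76, 1542, 417034, 0, 0, 0, 0, 0, 0⟩))))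
    (.s2
    (.leaf (.box ⟨1755, -3, -2941, 6, -48, 1477, 611871, 0, 0, 0, 0, 0, 0⟩ ⟨0, 0, 0, 0, 0, 0, 490724, 0, 0, 0, 0, 0, 0⟩ ⟨0, 0, 0, 0, 0, 0, 490724, 0, 0, 0, 0, 0, 0⟩ ⟨0, 0, 0, 0, 0, 0, 409621, 0, 0, 0, 0, 0, 0⟩ ⟨0, 0, 0, 0, 0, 0, 409621, 0, 0, 0, 0, 0, 0⟩ ⟨1202, -3, -2048, 7, -58, 1018, 351524, 0, 0, 0, 0, 0, 0⟩))
    (.leaf (.box ⟨2285, -3, -3187, 6, -56, 1661, 590686, 0, 0, 0, 0, 0, 0⟩ ⟨0, 0, 0, 0, 0, 0, 473740, 0, 0, 0, 0, 0, 0⟩ ⟨0, 0, 0, 0, 0, 0, 473740, 0, 0, 0, 0, 0, 0⟩ ⟨0, 0, 0, 0, 0, 0, 395447, 0, 0, 0, 0, 0, 0⟩ ⟨0, 0, 0, 0, 0, 0, 395447, 0, 0, 0, 0, 0, 0⟩ ⟨1493, -3, -2048, 7, -62, 1053, 339362, 0, 0, 0, 0, 0, 0⟩)))))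
    (.s3
    (.s3
    (.s2
    (.leaf (.box ⟨3933, -4, -2673, 6, -40, 2172, 1085353, 0, 0, 0, 0, 0, 0⟩ ⟨0, 0, 0, 0, 0, 0, 928903, 0, 0, 0, 0, 0, 0⟩ ⟨0, 0, 0, 0, 0, 0, 928903, 0, 0, 0, 0, 0, 0⟩ ⟨0, 0, 0, 0, 0, 0, 811873, 0, 0, 0, 0, 0, 0⟩ ⟨0, 0, 0, 0, 0, 0, 811873, 0, 0, 0, 0, 0, 0⟩ ⟨2598, -4, -1778, 6, -39, 1431, 721032, 0, 0, 0, 0, 0, 0⟩))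
    (.leaf (.box ⟨3733, -4, -2116, 6, -38, 2037, 1047996, 0, 0, 0, 0, 0, 0⟩ ⟨0, 0, 0, 0, 0, 0, 896933, 0, 0, 0, 0, 0, 0⟩ ⟨0, 0, 0, 0, 0, 0, 896933, 0, 0, 0, 0, 0, 0⟩ ⟨0, 0, 0, 0, 0, 0, 783934, 0, 0, 0, 0, 0, 0⟩ ⟨0, 0, 0, 0, 0, 0, 783934, 0, 0, 0, 0, 0, 0⟩ ⟨2417, -4, -1389, 6, -36, 1312, 696220, 0, 0, 0, 0, 0, 0⟩)))
    (.leaf (.box ⟨2631, -3, -1984, 6, -38, 1564, 805393, 0, 0, 0, 0, 0, 0⟩ ⟨0, 0, 0, 0, 0, 0, 667430, 0, 0, 0, 0, 0, 0⟩ ⟨0, 0, 0, 0, 0, 0, 667430, 0, 0, 0, 0, 0, 0⟩ ⟨0, 0, 0, 0, 0, 0, 569821, 0, 0, 0, 0, 0, 0⟩ ⟨0, 0, 0, 0, 0, 0, 569821, 0, 0, 0, 0, 0, 0⟩ ⟨2048, -4, -1586, 7, -48, 1222, 497118, 0, 0, 0, 0, 0, 0⟩)))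
    (.leaf (.box ⟨2048, -4, -1927, 7, -48, 1354, 550500, 0, 0, 0, 0, 0, 0⟩ ⟨0, 0, 0, 0, 0, 0, 441501, 0, 0, 0, 0, 0, 0⟩ ⟨0, 0, 0, 0, 0, 0, 441501, 0, 0, 0, 0, 0, 0⟩ ⟨0, 0, 0, 0, 0, 0, 368531, 0, 0, 0, 0, 0, 0⟩ ⟨0, 0, 0, 0, 0, 0, 368531, 0, 0, 0, 0, 0, 0⟩ ⟨2048, -6, -1982, 12, -83, 1352, 316260, 0, 0, 0, 0, 0, 0⟩)))

/-- A piece of the tree. -/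
noncomputable def tree13 : Tree LeafX :=
  .s1
    (.leaf (.box ⟨2048, -3, 964, 8, -37, 828, 558510, 0, 0, 0, 0, 0, 0⟩ ⟨0, 0, 0, 0, 0, 0, 447881, 0, 0, 0, 0, 0, 0⟩ ⟨0, 0, 0, 0, 0, 0, 447881, 0, 0, 0, 0, 0, 0⟩ ⟨0, 0, 0, 0, 0, 0, 373833, 0, 0, 0, 0, 0, 0⟩ ⟨0, 0, 0, 0, 0, 0, 373833, 0, 0, 0, 0, 0, 0⟩ ⟨2048, -5, 366, 13, -55, 703, 320795, 0, 0, 0, 0, 0, 0⟩))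
    (.s2
    (.s3
    (.s0
    (.s1
    (.leaf (.box ⟨2775, -3, -466, 6, -52, 1990, 874637, 0, 0, 0, 0, 0, 0⟩ ⟨0, 0, 0, 0, 0, 0, 724777, 0, 0, 0, 0, 0, 0⟩ ⟨0, 0, 0, 0, 0, 0, 724777, 0, 0, 0, 0, 0, 0⟩ ⟨0, 0, 0, 0, 0, 0, 618759, 0, 0, 0, 0, 0, 0⟩ ⟨0, 0, 0, 0, 0, 0, 618759, 0, 0, 0, 0, 0, 0⟩ ⟨2283, -3, -395, 6, -68, 1625, 539798, 0, 0, 0, 0, 0, 0⟩))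
    (.s3
    (.leaf (.box ⟨3936, -3, -2569, 6, -59, 3070, 1142468, 0, 0, 0, 0, 0, 0⟩ ⟨0, 0, 0, 0, 0, 0, 977786, 0, 0, 0, 0, 0, 0⟩ ⟨0, 0, 0, 0, 0, 0, 977786, 0, 0, 0, 0, 0, 0⟩ ⟨0, 0, 0, 0, 0, 0, 854599, 0, 0, 0, 0, 0, 0⟩ ⟨0, 0, 0, 0, 0, 0, 854599, 0, 0, 0, 0, 0, 0⟩ ⟨5336, -3, -4128, 6, -82, 2843, 758978, 0, 0, 0, 0, 0, 0⟩))
    (.leaf (.box ⟨3236, -3, -2910, 6, -69, 2810, 877977, 0, 0, 0, 0, 0, 0⟩ ⟨0, 0, 0, 0, 0, 0, 727579, 0, 0, 0, 0, 0, 0⟩ ⟨0, 0, 0, 0, 0, 0, 727579, 0, 0, 0, 0, 0, 0⟩ ⟨0, 0, 0, 0, 0, 0, 621171, 0, 0, 0, 0, 0, 0⟩ ⟨0, 0, 0, 0, 0, 0, 621171, 0, 0, 0, 0, 0, 0⟩ ⟨2352, -3, -2140, 6, -82, 2044, 541916, 0, 0, 0, 0, 0, 0⟩))))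
    (.leaf (.box ⟨2680, -3, 380, 6, -45, 1660, 883365, 0, 0, 0, 0, 0, 0⟩ ⟨0, 0, 0, 0, 0, 0, 732011, 0, 0, 0, 0, 0, 0⟩ ⟨0, 0, 0, 0, 0, 0, 732011, 0, 0, 0, 0, 0, 0⟩ ⟨0, 0, 0, 0, 0, 0, 624935, 0, 0, 0, 0, 0, 0⟩ ⟨0, 0, 0, 0, 0, 0, 624935, 0, 0, 0, 0, 0, 0⟩ ⟨2048, -3, 282, 7, -56, 1263, 545187, 0, 0, 0, 0, 0, 0⟩)))
    (.s0
    (.s3
    (.leaf (.box ⟨2700, -3, -1729, 6, -60, 1943, 710778, 0, 0, 0, 0, 0, 0⟩ ⟨0, 0, 0, 0, 0, 0, 577618, 0, 0, 0, 0, 0, 0⟩ ⟨0, 0, 0, 0, 0, 0, 577618, 0, 0, 0, 0, 0, 0⟩ ⟨0, 0, 0, 0, 0, 0, 486479, 0, 0, 0, 0, 0, 0⟩ ⟨0, 0, 0, 0, 0, 0, 486479, 0, 0, 0, 0, 0, 0⟩ ⟨2048, -4, -1351, 8, -78, 1488, 420180, 0, 0, 0, 0, 0, 0⟩))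
    (.leaf (.box ⟨2048, -3, -1694, 6, -58, 1593, 598508, 0, 0, 0, 0, 0, 0⟩ ⟨0, 0, 0, 0, 0, 0, 480040, 0, 0, 0, 0, 0, 0⟩ ⟨0, 0, 0, 0, 0, 0, 480040, 0, 0, 0, 0, 0, 0⟩ ⟨0, 0, 0, 0, 0, 0, 400721, 0, 0, 0, 0, 0, 0⟩ ⟨0, 0, 0, 0, 0, 0, 400721, 0, 0, 0, 0, 0, 0⟩ ⟨2048, -5, -1746, 11, -102, 1606, 343897, 0, 0, 0, 0, 0, 0⟩)))
    (.leaf (.box ⟨2048, -3, -397, 7, -58, 1477, 604191, 0, 0, 0, 0, 0, 0⟩ ⟨0, 0, 0, 0, 0, 0, 484573, 0, 0, 0, 0, 0, 0⟩ ⟨0, 0, 0, 0, 0, 0, 484573, 0, 0, 0, 0, 0, 0⟩ ⟨0, 0, 0, 0, 0, 0, 404491, 0, 0, 0, 0, 0, 0⟩ ⟨0, 0, 0, 0, 0, 0, 404491, 0, 0, 0, 0, 0, 0⟩ ⟨2048, -4, -419, 11, -100, 1468, 347124, 0, 0, 0, 0, 0, 0⟩))))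
    (.s3
    (.s3
    (.leaf (.box ⟨2862, -3, 858, 6, -30, 1418, 1068330, 0, 0, 0, 0, 0, 0⟩ ⟨0, 0, 0, 0, 0, 0, 914343, 0, 0, 0, 0, 0, 0⟩ ⟨0, 0, 0, 0, 0, 0, 914343, 0, 0, 0, 0, 0, 0⟩ ⟨0, 0, 0, 0, 0, 0, 799154, 0, 0, 0, 0, 0, 0⟩ ⟨0, 0, 0, 0, 0, 0, 799154, 0, 0, 0, 0, 0, 0⟩ ⟨2048, -3, 608, 6, -33, 1024, 709740, 0, 0, 0, 0, 0, 0⟩))
    (.leaf (.box ⟨2048, -3, 334, 6, -31, 1140, 821116, 0, 0, 0, 0, 0, 0⟩ ⟨0, 0, 0, 0, 0, 0, 680474, 0, 0, 0, 0, 0, 0⟩ ⟨0, 0, 0, 0, 0, 0, 680474, 0, 0, 0, 0, 0, 0⟩ ⟨0, 0, 0, 0, 0, 0, 580965, 0, 0, 0, 0, 0, 0⟩ ⟨0, 0, 0, 0, 0, 0, 580965, 0, 0, 0, 0, 0, 0⟩ ⟨2048, -5, 308, 10, -50, 1140, 506846, 0, 0, 0, 0, 0, 0⟩)))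
    (.leaf (.box ⟨2048, -4, -124, 10, -48, 1208, 561313, 0, 0, 0, 0, 0, 0⟩ ⟨0, 0, 0, 0, 0, 0, 450189, 0, 0, 0, 0, 0, 0⟩ ⟨0, 0, 0, 0, 0, 0, 450189, 0, 0, 0, 0, 0, 0⟩ ⟨0, 0, 0, 0, 0, 0, 375792, 0, 0, 0, 0, 0, 0⟩ ⟨0, 0, 0, 0, 0, 0, 375792, 0, 0, 0, 0, 0, 0⟩ ⟨2048, -7, 36, 15, -81, 1179, 322497, 0, 0, 0, 0, 0, 0⟩))))

/-- A piece of the tree. -/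
noncomputable def tree14 : Tree LeafX :=
  .s1
    (.s2
    (.s3
    (.s3
    (.s2
    (.leaf (.box ⟨5154, -2, -13235, 6, -83, 5025, 1177245, 0, 0, 0, 0, 0, 0⟩ ⟨0, 0, 0, 0, 0, 0, 1007531, 0, 0, 0, 0, 0, 0⟩ ⟨0, 0, 0, 0, 0, 0, 1007531, 0, 0, 0, 0, 0, 0⟩ ⟨0, 0, 0, 0, 0, 0, 880584, 0, 0, 0, 0, 0, 0⟩ ⟨0, 0, 0, 0, 0, 0, 880584, 0, 0, 0, 0, 0, 0⟩ ⟨2310, -2, -5960, 6, -56, 2266, 782047, 0, 0, 0, 0, 0, 0⟩))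
    (.leaf (.box ⟨2273, -2, -5031, 6, -38, 2198, 1135185, 0, 0, 0, 0, 0, 0⟩ ⟨0, 0, 0, 0, 0, 0, 971536, 0, 0, 0, 0, 0, 0⟩ ⟨0, 0, 0, 0, 0, 0, 971536, 0, 0, 0, 0, 0, 0⟩ ⟨0, 0, 0, 0, 0, 0, 849126, 0, 0, 0, 0, 0, 0⟩ ⟨0, 0, 0, 0, 0, 0, 849126, 0, 0, 0, 0, 0, 0⟩ ⟨2496, -2, -3893, 6, -55, 2150, 754110, 0, 0, 0, 0, 0, 0⟩)))
    (.leaf (.box ⟨1983, -2, -4891, 6, -46, 2092, 872148, 0, 0, 0, 0, 0, 0⟩ ⟨0, 0, 0, 0, 0, 0, 722714, 0, 0, 0, 0, 0, 0⟩ ⟨0, 0, 0, 0, 0, 0, 722714, 0, 0, 0, 0, 0, 0⟩ ⟨0, 0, 0, 0, 0, 0, 616998, 0, 0, 0, 0, 0, 0⟩ ⟨0, 0, 0, 0, 0, 0, 616998, 0, 0, 0, 0, 0, 0⟩ ⟨2683, -2, -3979, 6, -76, 2116, 538262, 0, 0, 0, 0, 0, 0⟩)))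
    (.s2
    (.leaf (.box ⟨1678, -1, -5445, 6, -72, 2325, 618001, 0, 0, 0, 0, 0, 0⟩ ⟨0, 0, 0, 0, 0, 0, 495591, 0, 0, 0, 0, 0, 0⟩ ⟨0, 0, 0, 0, 0, 0, 495591, 0, 0, 0, 0, 0, 0⟩ ⟨0, 0, 0, 0, 0, 0, 413656, 0, 0, 0, 0, 0, 0⟩ ⟨0, 0, 0, 0, 0, 0, 413656, 0, 0, 0, 0, 0, 0⟩ ⟨833, -1, -2695, 6, -62, 1151, 354969, 0, 0, 0, 0, 0, 0⟩))
    (.leaf (.box ⟨1696, -1, -5856, 6, -90, 2779, 595956, 0, 0, 0, 0, 0, 0⟩ ⟨0, 0, 0, 0, 0, 0, 477916, 0, 0, 0, 0, 0, 0⟩ ⟨0, 0, 0, 0, 0, 0, 477916, 0, 0, 0, 0, 0, 0⟩ ⟨0, 0, 0, 0, 0, 0, 398906, 0, 0, 0, 0, 0, 0⟩ ⟨0, 0, 0, 0, 0, 0, 398906, 0, 0, 0, 0, 0, 0⟩ ⟨893, -1, -3108, 6, -83, 1471, 342313, 0, 0, 0, 0, 0, 0⟩))))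
    (.s3
    (.leaf (.box ⟨2766, -2, -4506, 6, -55, 2353, 811283, 0, 0, 0, 0, 0, 0⟩ ⟨0, 0, 0, 0, 0, 0, 672267, 0, 0, 0, 0, 0, 0⟩ ⟨0, 0, 0, 0, 0, 0, 672267, 0, 0, 0, 0, 0, 0⟩ ⟨0, 0, 0, 0, 0, 0, 573923, 0, 0, 0, 0, 0, 0⟩ ⟨0, 0, 0, 0, 0, 0, 573923, 0, 0, 0, 0, 0, 0⟩ ⟨1675, -2, -2724, 6, -53, 1412, 500679, 0, 0, 0, 0, 0, 0⟩))
    (.leaf (.box ⟨1021, -2, -2556, 6, -46, 1368, 554579, 0, 0, 0, 0, 0, 0⟩ ⟨0, 0, 0, 0, 0, 0, 444746, 0, 0, 0, 0, 0, 0⟩ ⟨0, 0, 0, 0, 0, 0, 444746, 0, 0, 0, 0, 0, 0⟩ ⟨0, 0, 0, 0, 0, 0, 371226, 0, 0, 0, 0, 0, 0⟩ ⟨0, 0, 0, 0, 0, 0, 371226, 0, 0, 0, 0, 0, 0⟩ ⟨820, -2, -2048, 7, -63, 1079, 318564, 0, 0, 0, 0, 0, 0⟩))))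
    (.leaf (.box ⟨2717, 0, -3319, 6, -54, 1609, 558129, 0, 0, 0, 0, 0, 0⟩ ⟨0, 0, 0, 0, 0, 0, 447557, 0, 0, 0, 0, 0, 0⟩ ⟨0, 0, 0, 0, 0, 0, 447557, 0, 0, 0, 0, 0, 0⟩ ⟨0, 0, 0, 0, 0, 0, 373551, 0, 0, 0, 0, 0, 0⟩ ⟨0, 0, 0, 0, 0, 0, 373551, 0, 0, 0, 0, 0, 0⟩ ⟨1803, 0, -2226, 6, -63, 1078, 320547, 0, 0, 0, 0, 0, 0⟩))

/-- A piece of the tree. -/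
noncomputable def tree15 : Tree LeafX :=
  .s3
    (.s0
    (.s3
    (.s2
    (.s2
    (.leaf (.box ⟨5056, -3, -8237, 6, -66, 3851, 1205932, 0, 0, 0, 0, 0, 0⟩ ⟨0, 0, 0, 0, 0, 0, 1032094, 0, 0, 0, 0, 0, 0⟩ ⟨0, 0, 0, 0, 0, 0, 1032094, 0, 0, 0, 0, 0, 0⟩ ⟨0, 0, 0, 0, 0, 0, 902060, 0, 0, 0, 0, 0, 0⟩ ⟨0, 0, 0, 0, 0, 0, 902060, 0, 0, 0, 0, 0, 0⟩ ⟨3604, -3, -5876, 6, -71, 2747, 801125, 0, 0, 0, 0, 0, 0⟩))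
    (.leaf (.box ⟨4687, -3, -7082, 6, -64, 3648, 1185629, 0, 0, 0, 0, 0, 0⟩ ⟨0, 0, 0, 0, 0, 0, 1014719, 0, 0, 0, 0, 0, 0⟩ ⟨0, 0, 0, 0, 0, 0, 1014719, 0, 0, 0, 0, 0, 0⟩ ⟨0, 0, 0, 0, 0, 0, 886874, 0, 0, 0, 0, 0, 0⟩ ⟨0, 0, 0, 0, 0, 0, 886874, 0, 0, 0, 0, 0, 0⟩ ⟨2840, -3, -4340, 6, -62, 2368, 787639, 0, 0, 0, 0, 0, 0⟩)))
    (.s3
    (.leaf (.box ⟨3400, -3, -4232, 6, -39, 2551, 1348812, 0, 0, 0, 0, 0, 0⟩ ⟨0, 0, 0, 0, 0, 0, 1184316, 0, 0, 0, 0, 0, 0⟩ ⟨0, 0, 0, 0, 0, 0, 1184316, 0, 0, 0, 0, 0, 0⟩ ⟨0, 0, 0, 0, 0, 0, 1055581, 0, 0, 0, 0, 0, 0⟩ ⟨0, 0, 0, 0, 0, 0, 1055581, 0, 0, 0, 0, 0, 0⟩ ⟨3655, -3, -4561, 6, -60, 2745, 952089, 0, 0, 0, 0, 0, 0⟩))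
    (.leaf (.box ⟨3189, -3, -4347, 6, -46, 2554, 1146554, 0, 0, 0, 0, 0, 0⟩ ⟨0, 0, 0, 0, 0, 0, 981297, 0, 0, 0, 0, 0, 0⟩ ⟨0, 0, 0, 0, 0, 0, 981297, 0, 0, 0, 0, 0, 0⟩ ⟨0, 0, 0, 0, 0, 0, 857677, 0, 0, 0, 0, 0, 0⟩ ⟨0, 0, 0, 0, 0, 0, 857677, 0, 0, 0, 0, 0, 0⟩ ⟨3577, -3, -4922, 6, -78, 2883, 761718, 0, 0, 0, 0, 0, 0⟩))))
    (.s2
    (.leaf (.box ⟨3091, -2, -5347, 6, -58, 2572, 911048, 0, 0, 0, 0, 0, 0⟩ ⟨0, 0, 0, 0, 0, 0, 754970, 0, 0, 0, 0, 0, 0⟩ ⟨0, 0, 0, 0, 0, 0, 754970, 0, 0, 0, 0, 0, 0⟩ ⟨0, 0, 0, 0, 0, 0, 644547, 0, 0, 0, 0, 0, 0⟩ ⟨0, 0, 0, 0, 0, 0, 644547, 0, 0, 0, 0, 0, 0⟩ ⟨1889, -2, -3286, 6, -58, 1579, 562304, 0, 0, 0, 0, 0, 0⟩))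
    (.leaf (.box ⟨3758, -2, -5565, 6, -74, 3165, 880872, 0, 0, 0, 0, 0, 0⟩ ⟨0, 0, 0, 0, 0, 0, 729967, 0, 0, 0, 0, 0, 0⟩ ⟨0, 0, 0, 0, 0, 0, 729967, 0, 0, 0, 0, 0, 0⟩ ⟨0, 0, 0, 0, 0, 0, 623204, 0, 0, 0, 0, 0, 0⟩ ⟨0, 0, 0, 0, 0, 0, 623204, 0, 0, 0, 0, 0, 0⟩ ⟨2006, -2, -2991, 6, -64, 1694, 543685, 0, 0, 0, 0, 0, 0⟩))))
    (.s1
    (.s3
    (.leaf (.box ⟨4531, -3, -2500, 6, -72, 3680, 1155037, 0, 0, 0, 0, 0, 0⟩ ⟨0, 0, 0, 0, 0, 0, 988542, 0, 0, 0, 0, 0, 0⟩ ⟨0, 0, 0, 0, 0, 0, 988542, 0, 0, 0, 0, 0, 0⟩ ⟨0, 0, 0, 0, 0, 0, 863999, 0, 0, 0, 0, 0, 0⟩ ⟨0, 0, 0, 0, 0, 0, 863999, 0, 0, 0, 0, 0, 0⟩ ⟨2932, -3, -1630, 6, -70, 2385, 767326, 0, 0, 0, 0, 0, 0⟩))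
    (.leaf (.box ⟨3389, -2, -2714, 6, -77, 3067, 887620, 0, 0, 0, 0, 0, 0⟩ ⟨0, 0, 0, 0, 0, 0, 735567, 0, 0, 0, 0, 0, 0⟩ ⟨0, 0, 0, 0, 0, 0, 735567, 0, 0, 0, 0, 0, 0⟩ ⟨0, 0, 0, 0, 0, 0, 627989, 0, 0, 0, 0, 0, 0⟩ ⟨0, 0, 0, 0, 0, 0, 627989, 0, 0, 0, 0, 0, 0⟩ ⟨2048, -3, -1664, 7, -76, 1862, 547863, 0, 0, 0, 0, 0, 0⟩)))
    (.s3
    (.s2
    (.leaf (.box ⟨5455, -2, -8178, 6, -96, 5299, 1196594, 0, 0, 0, 0, 0, 0⟩ ⟨0, 0, 0, 0, 0, 0, 1024102, 0, 0, 0, 0, 0, 0⟩ ⟨0, 0, 0, 0, 0, 0, 1024102, 0, 0, 0, 0, 0, 0⟩ ⟨0, 0, 0, 0, 0, 0, 895074, 0, 0, 0, 0, 0, 0⟩ ⟨0, 0, 0, 0, 0, 0, 895074, 0, 0, 0, 0, 0, 0⟩ ⟨2325, -2, -3491, 6, -61, 2260, 794921, 0, 0, 0, 0, 0, 0⟩))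
    (.leaf (.box ⟨2712, -2, -3272, 6, -50, 2683, 1157796, 0, 0, 0, 0, 0, 0⟩ ⟨0, 0, 0, 0, 0, 0, 990898, 0, 0, 0, 0, 0, 0⟩ ⟨0, 0, 0, 0, 0, 0, 990898, 0, 0, 0, 0, 0, 0⟩ ⟨0, 0, 0, 0, 0, 0, 866055, 0, 0, 0, 0, 0, 0⟩ ⟨0, 0, 0, 0, 0, 0, 866055, 0, 0, 0, 0, 0, 0⟩ ⟨2785, -2, -3370, 6, -78, 2755, 769149, 0, 0, 0, 0, 0, 0⟩)))
    (.leaf (.box ⟨3878, -2, -5519, 6, -88, 3649, 889667, 0, 0, 0, 0, 0, 0⟩ ⟨0, 0, 0, 0, 0, 0, 737253, 0, 0, 0, 0, 0, 0⟩ ⟨0, 0, 0, 0, 0, 0, 737253, 0, 0, 0, 0, 0, 0⟩ ⟨0, 0, 0, 0, 0, 0, 629422, 0, 0, 0, 0, 0, 0⟩ ⟨0, 0, 0, 0, 0, 0, 629422, 0, 0, 0, 0, 0, 0⟩ ⟨2434, -2, -3495, 6, -90, 2302, 549109, 0, 0, 0, 0, 0, 0⟩)))))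
    (.s0
    (.s3
    (.leaf (.box ⟨3033, -2, -5021, 6, -73, 2556, 715347, 0, 0, 0, 0, 0, 0⟩ ⟨0, 0, 0, 0, 0, 0, 581306, 0, 0, 0, 0, 0, 0⟩ ⟨0, 0, 0, 0, 0, 0, 581306, 0, 0, 0, 0, 0, 0⟩ ⟨0, 0, 0, 0, 0, 0, 489570, 0, 0, 0, 0, 0, 0⟩ ⟨0, 0, 0, 0, 0, 0, 489570, 0, 0, 0, 0, 0, 0⟩ ⟨1791, -2, -2812, 6, -77, 1584, 422841, 0, 0, 0, 0, 0, 0⟩))
    (.leaf (.box ⟨2333, -2, -4460, 6, -75, 2222, 602263, 0, 0, 0, 0, 0, 0⟩ ⟨0, 0, 0, 0, 0, 0, 483021, 0, 0, 0, 0, 0, 0⟩ ⟨0, 0, 0, 0, 0, 0, 483021, 0, 0, 0, 0, 0, 0⟩ ⟨0, 0, 0, 0, 0, 0, 403193, 0, 0, 0, 0, 0, 0⟩ ⟨0, 0, 0, 0, 0, 0, 403193, 0, 0, 0, 0, 0, 0⟩ ⟨1472, -2, -2871, 6, -84, 1423, 346008, 0, 0, 0, 0, 0, 0⟩)))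
    (.s3
    (.leaf (.box ⟨3343, -2, -3454, 6, -62, 2050, 720874, 0, 0, 0, 0, 0, 0⟩ ⟨0, 0, 0, 0, 0, 0, 585808, 0, 0, 0, 0, 0, 0⟩ ⟨0, 0, 0, 0, 0, 0, 585808, 0, 0, 0, 0, 0, 0⟩ ⟨0, 0, 0, 0, 0, 0, 493368, 0, 0, 0, 0, 0, 0⟩ ⟨0, 0, 0, 0, 0, 0, 493368, 0, 0, 0, 0, 0, 0⟩ ⟨2014, -2, -2099, 6, -62, 1207, 426125, 0, 0, 0, 0, 0, 0⟩))
    (.leaf (.box ⟨2348, -2, -2904, 6, -71, 1990, 606956, 0, 0, 0, 0, 0, 0⟩ ⟨0, 0, 0, 0, 0, 0, 486798, 0, 0, 0, 0, 0, 0⟩ ⟨0, 0, 0, 0, 0, 0, 486798, 0, 0, 0, 0, 0, 0⟩ ⟨0, 0, 0, 0, 0, 0, 406353, 0, 0, 0, 0, 0, 0⟩ ⟨0, 0, 0, 0, 0, 0, 406353, 0, 0, 0, 0, 0, 0⟩ ⟨1640, -3, -2048, 8, -86, 1390, 348724, 0, 0, 0, 0, 0, 0⟩))))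

/-- A piece of the tree. -/
noncomputable def tree16 : Tree LeafX :=
  .s3
    (.s3
    (.s1
    (.s0
    (.leaf (.box ⟨3664, -1, -10601, 6, -67, 3891, 1153972, 0, 0, 0, 0, 0, 0⟩ ⟨0, 0, 0, 0, 0, 0, 987614, 0, 0, 0, 0, 0, 0⟩ ⟨0, 0, 0, 0, 0, 0, 987614, 0, 0, 0, 0, 0, 0⟩ ⟨0, 0, 0, 0, 0, 0, 863177, 0, 0, 0, 0, 0, 0⟩ ⟨0, 0, 0, 0, 0, 0, 863177, 0, 0, 0, 0, 0, 0⟩ ⟨2648, -1, -7646, 6, -73, 2810, 766588, 0, 0, 0, 0, 0, 0⟩))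
    (.s2
    (.leaf (.box ⟨3153, -2, -6727, 6, -53, 3015, 1200320, 0, 0, 0, 0, 0, 0⟩ ⟨0, 0, 0, 0, 0, 0, 1027285, 0, 0, 0, 0, 0, 0⟩ ⟨0, 0, 0, 0, 0, 0, 1027285, 0, 0, 0, 0, 0, 0⟩ ⟨0, 0, 0, 0, 0, 0, 897852, 0, 0, 0, 0, 0, 0⟩ ⟨0, 0, 0, 0, 0, 0, 897852, 0, 0, 0, 0, 0, 0⟩ ⟨2650, -2, -5693, 6, -67, 2553, 797385, 0, 0, 0, 0, 0, 0⟩))
    (.leaf (.box ⟨4317, -2, -8391, 6, -80, 4428, 1160634, 0, 0, 0, 0, 0, 0⟩ ⟨0, 0, 0, 0, 0, 0, 993321, 0, 0, 0, 0, 0, 0⟩ ⟨0, 0, 0, 0, 0, 0, 993321, 0, 0, 0, 0, 0, 0⟩ ⟨0, 0, 0, 0, 0, 0, 868169, 0, 0, 0, 0, 0, 0⟩ ⟨0, 0, 0, 0, 0, 0, 868169, 0, 0, 0, 0, 0, 0⟩ ⟨2763, -2, -5378, 6, -77, 2835, 771024, 0, 0, 0, 0, 0, 0⟩))))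
    (.leaf (.box ⟨5195, -1, -12017, 6, -72, 4164, 1157632, 0, 0, 0, 0, 0, 0⟩ ⟨0, 0, 0, 0, 0, 0, 990739, 0, 0, 0, 0, 0, 0⟩ ⟨0, 0, 0, 0, 0, 0, 990739, 0, 0, 0, 0, 0, 0⟩ ⟨0, 0, 0, 0, 0, 0, 865904, 0, 0, 0, 0, 0, 0⟩ ⟨0, 0, 0, 0, 0, 0, 865904, 0, 0, 0, 0, 0, 0⟩ ⟨3716, -1, -8657, 6, -79, 3005, 769007, 0, 0, 0, 0, 0, 0⟩)))
    (.s2
    (.leaf (.box ⟨3936, -1, -6642, 6, -64, 2922, 918050, 0, 0, 0, 0, 0, 0⟩ ⟨0, 0, 0, 0, 0, 0, 760745, 0, 0, 0, 0, 0, 0⟩ ⟨0, 0, 0, 0, 0, 0, 760745, 0, 0, 0, 0, 0, 0⟩ ⟨0, 0, 0, 0, 0, 0, 649461, 0, 0, 0, 0, 0, 0⟩ ⟨0, 0, 0, 0, 0, 0, 649461, 0, 0, 0, 0, 0, 0⟩ ⟨2617, -1, -4492, 6, -71, 1982, 566580, 0, 0, 0, 0, 0, 0⟩))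
    (.leaf (.box ⟨2361, -1, -3738, 6, -43, 1878, 886564, 0, 0, 0, 0, 0, 0⟩ ⟨0, 0, 0, 0, 0, 0, 734658, 0, 0, 0, 0, 0, 0⟩ ⟨0, 0, 0, 0, 0, 0, 734658, 0, 0, 0, 0, 0, 0⟩ ⟨0, 0, 0, 0, 0, 0, 627193, 0, 0, 0, 0, 0, 0⟩ ⟨0, 0, 0, 0, 0, 0, 627193, 0, 0, 0, 0, 0, 0⟩ ⟨2153, -1, -3433, 6, -64, 1725, 547155, 0, 0, 0, 0, 0, 0⟩))))
    (.s3
    (.leaf (.box ⟨2772, -1, -4645, 6, -62, 2209, 719824, 0, 0, 0, 0, 0, 0⟩ ⟨0, 0, 0, 0, 0, 0, 584909, 0, 0, 0, 0, 0, 0⟩ ⟨0, 0, 0, 0, 0, 0, 584909, 0, 0, 0, 0, 0, 0⟩ ⟨0, 0, 0, 0, 0, 0, 492585, 0, 0, 0, 0, 0, 0⟩ ⟨0, 0, 0, 0, 0, 0, 492585, 0, 0, 0, 0, 0, 0⟩ ⟨1625, -1, -2773, 6, -62, 1321, 425433, 0, 0, 0, 0, 0, 0⟩))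
    (.leaf (.box ⟨1978, -1, -4515, 6, -60, 1828, 605909, 0, 0, 0, 0, 0, 0⟩ ⟨0, 0, 0, 0, 0, 0, 485906, 0, 0, 0, 0, 0, 0⟩ ⟨0, 0, 0, 0, 0, 0, 485906, 0, 0, 0, 0, 0, 0⟩ ⟨0, 0, 0, 0, 0, 0, 405579, 0, 0, 0, 0, 0, 0⟩ ⟨0, 0, 0, 0, 0, 0, 405579, 0, 0, 0, 0, 0, 0⟩ ⟨1247, -1, -2903, 6, -68, 1178, 348042, 0, 0, 0, 0, 0, 0⟩)))

/-- A piece of the tree. -/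
noncomputable def tree17 : Tree LeafX :=
  .s1
    (.s3
    (.s2
    (.s3
    (.s3
    (.leaf (.box ⟨3857, -3, -2018, 6, -38, 2344, 1305872, 0, 0, 0, 0, 0, 0⟩ ⟨3930, -3, -2251, 6, -39, 2114, 1147961, 0, 0, 0, 0, 0, 0⟩ ⟨3930, -3, -2251, 6, -39, 2114, 1147961, 0, 0, 0, 0, 0, 0⟩ ⟨3751, -3, -2253, 6, -40, 1928, 1021000, 0, 0, 0, 0, 0, 0⟩ ⟨3751, -3, -2253, 6, -40, 1928, 1021000, 0, 0, 0, 0, 0, 0⟩ ⟨3443, -3, -2071, 6, -41, 1769, 921524, 0, 0, 0, 0, 0, 0⟩))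
    (.leaf (.box ⟨2668, -3, -1614, 6, -32, 1689, 1109007, 0, 0, 0, 0, 0, 0⟩ ⟨0, 0, 0, 0, 0, 0, 949166, 0, 0, 0, 0, 0, 0⟩ ⟨0, 0, 0, 0, 0, 0, 949166, 0, 0, 0, 0, 0, 0⟩ ⟨0, 0, 0, 0, 0, 0, 829596, 0, 0, 0, 0, 0, 0⟩ ⟨0, 0, 0, 0, 0, 0, 829596, 0, 0, 0, 0, 0, 0⟩ ⟨2296, -3, -1403, 6, -42, 1451, 736780, 0, 0, 0, 0, 0, 0⟩)))
    (.leaf (.box ⟨2707, -2, -1868, 6, -43, 1727, 852040, 0, 0, 0, 0, 0, 0⟩ ⟨0, 0, 0, 0, 0, 0, 706078, 0, 0, 0, 0, 0, 0⟩ ⟨0, 0, 0, 0, 0, 0, 706078, 0, 0, 0, 0, 0, 0⟩ ⟨0, 0, 0, 0, 0, 0, 602811, 0, 0, 0, 0, 0, 0⟩ ⟨0, 0, 0, 0, 0, 0, 602811, 0, 0, 0, 0, 0, 0⟩ ⟨2048, -2, -1507, 6, -47, 1168, 525896, 0, 0, 0, 0, 0, 0⟩)))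
    (.leaf (.box ⟨2700, -3, -1129, 6, -38, 1507, 824170, 0, 0, 0, 0, 0, 0⟩ ⟨0, 0, 0, 0, 0, 0, 682953, 0, 0, 0, 0, 0, 0⟩ ⟨0, 0, 0, 0, 0, 0, 682953, 0, 0, 0, 0, 0, 0⟩ ⟨0, 0, 0, 0, 0, 0, 583050, 0, 0, 0, 0, 0, 0⟩ ⟨0, 0, 0, 0, 0, 0, 583050, 0, 0, 0, 0, 0, 0⟩ ⟨2048, -3, -872, 7, -46, 1133, 508645, 0, 0, 0, 0, 0, 0⟩)))
    (.s3
    (.leaf (.box ⟨2094, -2, -1540, 6, -42, 1365, 669657, 0, 0, 0, 0, 0, 0⟩ ⟨0, 0, 0, 0, 0, 0, 544189, 0, 0, 0, 0, 0, 0⟩ ⟨0, 0, 0, 0, 0, 0, 544189, 0, 0, 0, 0, 0, 0⟩ ⟨0, 0, 0, 0, 0, 0, 458317, 0, 0, 0, 0, 0, 0⟩ ⟨0, 0, 0, 0, 0, 0, 458317, 0, 0, 0, 0, 0, 0⟩ ⟨2048, -4, -1642, 9, -56, 1073, 395852, 0, 0, 0, 0, 0, 0⟩))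
    (.leaf (.box ⟨2048, -3, -1840, 9, -53, 1454, 563837, 0, 0, 0, 0, 0, 0⟩ ⟨0, 0, 0, 0, 0, 0, 452217, 0, 0, 0, 0, 0, 0⟩ ⟨0, 0, 0, 0, 0, 0, 452217, 0, 0, 0, 0, 0, 0⟩ ⟨0, 0, 0, 0, 0, 0, 377487, 0, 0, 0, 0, 0, 0⟩ ⟨0, 0, 0, 0, 0, 0, 377487, 0, 0, 0, 0, 0, 0⟩ ⟨2048, -4, -1905, 13, -92, 1460, 323953, 0, 0, 0, 0, 0, 0⟩))))
    (.s3
    (.s3
    (.leaf (.box ⟨2898, -2, -2849, 6, -33, 1819, 1077731, 0, 0, 0, 0, 0, 0⟩ ⟨0, 0, 0, 0, 0, 0, 922368, 0, 0, 0, 0, 0, 0⟩ ⟨0, 0, 0, 0, 0, 0, 922368, 0, 0, 0, 0, 0, 0⟩ ⟨0, 0, 0, 0, 0, 0, 806155, 0, 0, 0, 0, 0, 0⟩ ⟨0, 0, 0, 0, 0, 0, 806155, 0, 0, 0, 0, 0, 0⟩ ⟨2663, -2, -2647, 6, -46, 1679, 715949, 0, 0, 0, 0, 0, 0⟩))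
    (.leaf (.box ⟨3075, -2, -4309, 6, -50, 2124, 828054, 0, 0, 0, 0, 0, 0⟩ ⟨0, 0, 0, 0, 0, 0, 686182, 0, 0, 0, 0, 0, 0⟩ ⟨0, 0, 0, 0, 0, 0, 686182, 0, 0, 0, 0, 0, 0⟩ ⟨0, 0, 0, 0, 0, 0, 585814, 0, 0, 0, 0, 0, 0⟩ ⟨0, 0, 0, 0, 0, 0, 585814, 0, 0, 0, 0, 0, 0⟩ ⟨1811, -2, -2571, 6, -48, 1256, 511060, 0, 0, 0, 0, 0, 0⟩)))
    (.leaf (.box ⟨1821, -1, -2969, 6, -50, 1442, 565860, 0, 0, 0, 0, 0, 0⟩ ⟨0, 0, 0, 0, 0, 0, 453789, 0, 0, 0, 0, 0, 0⟩ ⟨0, 0, 0, 0, 0, 0, 453789, 0, 0, 0, 0, 0, 0⟩ ⟨0, 0, 0, 0, 0, 0, 378772, 0, 0, 0, 0, 0, 0⟩ ⟨0, 0, 0, 0, 0, 0, 378772, 0, 0, 0, 0, 0, 0⟩ ⟨1334, -2, -2048, 9, -72, 1206, 325038, 0, 0, 0, 0, 0, 0⟩)))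

/-- A piece of the tree. -/
noncomputable def tree18 : Tree LeafX :=
  .s2
    (.leaf (.box ⟨2048, -2, 1260, 16, -40, 779, 611248, 0, 0, 0, 0, 0, 0⟩ ⟨0, 0, 0, 0, 0, 0, 490170, 0, 0, 0, 0, 0, 0⟩ ⟨0, 0, 0, 0, 0, 0, 490170, 0, 0, 0, 0, 0, 0⟩ ⟨0, 0, 0, 0, 0, 0, 409128, 0, 0, 0, 0, 0, 0⟩ ⟨0, 0, 0, 0, 0, 0, 409128, 0, 0, 0, 0, 0, 0⟩ ⟨2048, -4, 705, 34, -79, 894, 351082, 0, 0, 0, 0, 0, 0⟩))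
    (.leaf (.box ⟨2048, -2, 1655, 17, -41, 791, 576813, 0, 0, 0, 0, 0, 0⟩ ⟨0, 0, 0, 0, 0, 0, 462554, 0, 0, 0, 0, 0, 0⟩ ⟨0, 0, 0, 0, 0, 0, 462554, 0, 0, 0, 0, 0, 0⟩ ⟨0, 0, 0, 0, 0, 0, 386078, 0, 0, 0, 0, 0, 0⟩ ⟨0, 0, 0, 0, 0, 0, 386078, 0, 0, 0, 0, 0, 0⟩ ⟨2048, -6, 597, 43, -55, 735, 331301, 0, 0, 0, 0, 0, 0⟩))

/-- A piece of the tree. -/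
noncomputable def tree19 : Tree LeafX :=
  .s2
    (.s0
    (.s3
    (.s3
    (.leaf (.box ⟨3561, -2, -567, 6, -49, 2402, 1166793, 0, 0, 0, 0, 0, 0⟩ ⟨0, 0, 0, 0, 0, 0, 998606, 0, 0, 0, 0, 0, 0⟩ ⟨0, 0, 0, 0, 0, 0, 998606, 0, 0, 0, 0, 0, 0⟩ ⟨0, 0, 0, 0, 0, 0, 872797, 0, 0, 0, 0, 0, 0⟩ ⟨0, 0, 0, 0, 0, 0, 872797, 0, 0, 0, 0, 0, 0⟩ ⟨3209, -2, -1466, 6, -51, 1651, 775141, 0, 0, 0, 0, 0, 0⟩))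
    (.leaf (.box ⟨2799, -2, -939, 6, -54, 2046, 896690, 0, 0, 0, 0, 0, 0⟩ ⟨0, 0, 0, 0, 0, 0, 743088, 0, 0, 0, 0, 0, 0⟩ ⟨0, 0, 0, 0, 0, 0, 743088, 0, 0, 0, 0, 0, 0⟩ ⟨0, 0, 0, 0, 0, 0, 634414, 0, 0, 0, 0, 0, 0⟩ ⟨0, 0, 0, 0, 0, 0, 634414, 0, 0, 0, 0, 0, 0⟩ ⟨2048, -2, -700, 7, -64, 1502, 553470, 0, 0, 0, 0, 0, 0⟩)))
    (.leaf (.box ⟨2048, -2, -1194, 7, -61, 1599, 612903, 0, 0, 0, 0, 0, 0⟩ ⟨0, 0, 0, 0, 0, 0, 491549, 0, 0, 0, 0, 0, 0⟩ ⟨0, 0, 0, 0, 0, 0, 491549, 0, 0, 0, 0, 0, 0⟩ ⟨0, 0, 0, 0, 0, 0, 410308, 0, 0, 0, 0, 0, 0⟩ ⟨0, 0, 0, 0, 0, 0, 410308, 0, 0, 0, 0, 0, 0⟩ ⟨2048, -2, -1479, 8, -71, 1080, 352112, 0, 0, 0, 0, 0, 0⟩)))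
    (.leaf (.box ⟨2048, -2, 35, 8, -59, 1437, 620164, 0, 0, 0, 0, 0, 0⟩ ⟨0, 0, 0, 0, 0, 0, 497314, 0, 0, 0, 0, 0, 0⟩ ⟨0, 0, 0, 0, 0, 0, 497314, 0, 0, 0, 0, 0, 0⟩ ⟨0, 0, 0, 0, 0, 0, 415088, 0, 0, 0, 0, 0, 0⟩ ⟨0, 0, 0, 0, 0, 0, 415088, 0, 0, 0, 0, 0, 0⟩ ⟨2048, -3, -147, 13, -91, 1275, 356194, 0, 0, 0, 0, 0, 0⟩)))
    (.s3
    (.s3
    (.leaf (.box ⟨2394, -2, 885, 6, -30, 1357, 1098950, 0, 0, 0, 0, 0, 0⟩ ⟨0, 0, 0, 0, 0, 0, 940541, 0, 0, 0, 0, 0, 0⟩ ⟨0, 0, 0, 0, 0, 0, 940541, 0, 0, 0, 0, 0, 0⟩ ⟨0, 0, 0, 0, 0, 0, 822047, 0, 0, 0, 0, 0, 0⟩ ⟨0, 0, 0, 0, 0, 0, 822047, 0, 0, 0, 0, 0, 0⟩ ⟨2048, -2, 443, 8, -43, 1292, 730068, 0, 0, 0, 0, 0, 0⟩))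
    (.leaf (.box ⟨2048, -2, 482, 7, -35, 1240, 844536, 0, 0, 0, 0, 0, 0⟩ ⟨0, 0, 0, 0, 0, 0, 699862, 0, 0, 0, 0, 0, 0⟩ ⟨0, 0, 0, 0, 0, 0, 699862, 0, 0, 0, 0, 0, 0⟩ ⟨0, 0, 0, 0, 0, 0, 597506, 0, 0, 0, 0, 0, 0⟩ ⟨0, 0, 0, 0, 0, 0, 597506, 0, 0, 0, 0, 0, 0⟩ ⟨2048, -3, 461, 10, -57, 1238, 521269, 0, 0, 0, 0, 0, 0⟩)))
    (.leaf (.box ⟨2048, -3, 50, 10, -54, 1318, 577227, 0, 0, 0, 0, 0, 0⟩ ⟨0, 0, 0, 0, 0, 0, 462925, 0, 0, 0, 0, 0, 0⟩ ⟨0, 0, 0, 0, 0, 0, 462925, 0, 0, 0, 0, 0, 0⟩ ⟨0, 0, 0, 0, 0, 0, 386409, 0, 0, 0, 0, 0, 0⟩ ⟨0, 0, 0, 0, 0, 0, 386409, 0, 0, 0, 0, 0, 0⟩ ⟨2048, -5, 14, 18, -95, 1326, 331599, 0, 0, 0, 0, 0, 0⟩)))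

theorem parts0 :
    (runPathS conQ supQ (fun n Qs i d x => leafR conQ seg n Qs i d x) [.d0 false, .d1 false, .d2 false, .d0 false, .d1 false, .d2 false, .d0 false, .d1 false, .d0 false, .d1 false] tree0 0 0 0
      (joinS (lay.B * lay.size) rootQ) = true) ∧
    (runPathS conQ supQ (fun n Qs i d x => leafR conQ seg n Qs i d x) [.d0 false, .d1 false, .d2 false, .d0 false, .d1 false, .d2 false, .d0 false, .d1 false, .d0 false, .d1 true] tree1 0 0 0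
      (joinS (lay.B * lay.size) rootQ) = true) ∧
    (runPathS conQ supQ (fun n Qs i d x => leafR conQ seg n Qs i d x) [.d0 false, .d1 false, .d2 false, .d0 false, .d1 false, .d2 false, .d0 false, .d1 false, .d0 true, .d1 false] tree2 0 0 0
      (joinS (lay.B * lay.size) rootQ) = true) ∧
    (runPathS conQ supQ (fun n Qs i d x => leafR conQ seg n Qs i d x) [.d0 false, .d1 false, .d2 false, .d0 false, .d1 false, .d2 false, .d0 false, .d1 false, .d0 true, .d1 true, .d2 false, .d0 false] tree3 0 0 0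
      (joinS (lay.B * lay.size) rootQ) = true) ∧
    (runPathS conQ supQ (fun n Qs i d x => leafR conQ seg n Qs i d x) [.d0 false, .d1 false, .d2 false, .d0 false, .d1 false, .d2 false, .d0 false, .d1 false, .d0 true, .d1 true, .d2 false, .d0 true] tree4 0 0 0
      (joinS (lay.B * lay.size) rootQ) = true) ∧
    (runPathS conQ supQ (fun n Qs i d x => leafR conQ seg n Qs i d x) [.d0 false, .d1 false, .d2 false, .d0 false, .d1 false, .d2 false, .d0 false, .d1 false, .d0 true, .d1 true, .d2 true] tree5 0 0 0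
      (joinS (lay.B * lay.size) rootQ) = true) ∧
    (runPathS conQ supQ (fun n Qs i d x => leafR conQ seg n Qs i d x) [.d0 false, .d1 false, .d2 false, .d0 false, .d1 false, .d2 false, .d0 false, .d1 true, .d0 false] tree6 0 0 0
      (joinS (lay.B * lay.size) rootQ) = true) ∧
    (runPathS conQ supQ (fun n Qs i d x => leafR conQ seg n Qs i d x) [.d0 false, .d1 false, .d2 false, .d0 false, .d1 false, .d2 false, .d0 false, .d1 true, .d0 true, .d1 false, .d0 false] tree7 0 0 0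
      (joinS (lay.B * lay.size) rootQ) = true) ∧
    (runPathS conQ supQ (fun n Qs i d x => leafR conQ seg n Qs i d x) [.d0 false, .d1 false, .d2 false, .d0 false, .d1 false, .d2 false, .d0 false, .d1 true, .d0 true, .d1 false, .d0 true] tree8 0 0 0
      (joinS (lay.B * lay.size) rootQ) = true) ∧
    (runPathS conQ supQ (fun n Qs i d x => leafR conQ seg n Qs i d x) [.d0 false, .d1 false, .d2 false, .d0 false, .d1 false, .d2 false, .d0 false, .d1 true, .d0 true, .d1 true] tree9 0 0 0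
      (joinS (lay.B * lay.size) rootQ) = true) ∧
    (runPathS conQ supQ (fun n Qs i d x => leafR conQ seg n Qs i d x) [.d0 false, .d1 false, .d2 false, .d0 false, .d1 false, .d2 false, .d0 true, .d1 false] tree10 0 0 0
      (joinS (lay.B * lay.size) rootQ) = true) ∧
    (runPathS conQ supQ (fun n Qs i d x => leafR conQ seg n Qs i d x) [.d0 false, .d1 false, .d2 false, .d0 false, .d1 false, .d2 false, .d0 true, .d1 true, .d0 false, .d1 false, .d0 false, .d1 false] tree11 0 0 0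
      (joinS (lay.B * lay.size) rootQ) = true) ∧
    (runPathS conQ supQ (fun n Qs i d x => leafR conQ seg n Qs i d x) [.d0 false, .d1 false, .d2 false, .d0 false, .d1 false, .d2 false, .d0 true, .d1 true, .d0 false, .d1 false, .d0 false, .d1 true] tree12 0 0 0
      (joinS (lay.B * lay.size) rootQ) = true) ∧
    (runPathS conQ supQ (fun n Qs i d x => leafR conQ seg n Qs i d x) [.d0 false, .d1 false, .d2 false, .d0 false, .d1 false, .d2 false, .d0 true, .d1 true, .d0 false, .d1 false, .d0 true] tree13 0 0 0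
      (joinS (lay.B * lay.size) rootQ) = true) ∧
    (runPathS conQ supQ (fun n Qs i d x => leafR conQ seg n Qs i d x) [.d0 false, .d1 false, .d2 false, .d0 false, .d1 false, .d2 false, .d0 true, .d1 true, .d0 false, .d1 true, .d0 false] tree14 0 0 0
      (joinS (lay.B * lay.size) rootQ) = true) ∧
    (runPathS conQ supQ (fun n Qs i d x => leafR conQ seg n Qs i d x) [.d0 false, .d1 false, .d2 false, .d0 false, .d1 false, .d2 false, .d0 true, .d1 true, .d0 false, .d1 true, .d0 true, .d2 false, .d1 false] tree15 0 0 0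
      (joinS (lay.B * lay.size) rootQ) = true) ∧
    (runPathS conQ supQ (fun n Qs i d x => leafR conQ seg n Qs i d x) [.d0 false, .d1 false, .d2 false, .d0 false, .d1 false, .d2 false, .d0 true, .d1 true, .d0 false, .d1 true, .d0 true, .d2 false, .d1 true] tree16 0 0 0
      (joinS (lay.B * lay.size) rootQ) = true) ∧
    (runPathS conQ supQ (fun n Qs i d x => leafR conQ seg n Qs i d x) [.d0 false, .d1 false, .d2 false, .d0 false, .d1 false, .d2 false, .d0 true, .d1 true, .d0 false, .d1 true, .d0 true, .d2 true] tree17 0 0 0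
      (joinS (lay.B * lay.size) rootQ) = true) ∧
    (runPathS conQ supQ (fun n Qs i d x => leafR conQ seg n Qs i d x) [.d0 false, .d1 false, .d2 false, .d0 false, .d1 false, .d2 false, .d0 true, .d1 true, .d0 true, .d1 false] tree18 0 0 0
      (joinS (lay.B * lay.size) rootQ) = true) ∧
    (runPathS conQ supQ (fun n Qs i d x => leafR conQ seg n Qs i d x) [.d0 false, .d1 false, .d2 false, .d0 false, .d1 false, .d2 false, .d0 true, .d1 true, .d0 true, .d1 true, .d0 false, .d1 false] tree19 0 0 0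
      (joinS (lay.B * lay.size) rootQ) = true) :=
  ⟨by decide +kernel,
  by decide +kernel,
  by decide +kernel,
  by decide +kernel,
  by decide +kernel,
  by decide +kernel,
  by decide +kernel,
  by decide +kernel,
  by decide +kernel,
  by decide +kernel,
  by decide +kernel,
  by decide +kernel,
  by decide +kernel,
  by decide +kernel,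
  by decide +kernel,
  by decide +kernel,
  by decide +kernel,
  by decide +kernel,
  by decide +kernel,
  by decide +kernel⟩

end Vale.Agent.P098.Six.S1
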